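import Vale.Agent.VdW.Defs

/-!
# P053, Part V: van der Waerden numbers exist
-/

namespace Vale.Agent.VdW

open Finset

theorem VW_mono {r k N N' : ℕ} (h : VW r k N) (hN : N ≤ N') : VW r k N' := by
  intro f
  obtain ⟨a, d, ha, hd, hle, hf⟩ := h f
  exact ⟨a, d, ha, hd, hle.trans hN, hf⟩

theorem exists_VW (r k : ℕ) (hk : 1 ≤ k) : ∃ N, 1 ≤ N ∧ VW r k N := by
  classical
  obtain ⟨ι, inst, hι⟩ := Combinatorics.Line.exists_mono_in_high_dimension (Fin k) (Fin r)
  refine ⟨1 + Fintype.card ι * (k - 1), by omega, ?_⟩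
  intro f
  obtain ⟨l, c, hl⟩ := hι (fun v => f (1 + ∑ i, (v i : ℕ)))
  have h0 : 0 < k := hk
  have key : ∀ t : Fin k, ∑ i, ((l t i : Fin k) : ℕ) =
      ∑ i, ((l ⟨0, h0⟩ i : Fin k) : ℕ) + (t : ℕ) * (univ.filter (fun i => l.idxFun i = none)).card := by
    intro t
    rw [Finset.card_filter, Finset.mul_sum, ← Finset.sum_add_distrib]
    refine Finset.sum_congr rfl fun i _ => ?_
    by_cases hi : l.idxFun i = none
    · rw [l.apply_none _ _ hi, l.apply_none _ _ hi]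
      simp [hi]
    · obtain ⟨y, hy⟩ := Option.ne_none_iff_exists.mp hi
      simp [Combinatorics.Line.apply_def, ← hy, Option.getD]
  refine ⟨1 + ∑ i, ((l ⟨0, h0⟩ i : Fin k) : ℕ), (univ.filter (fun i => l.idxFun i = none)).card,
    by omega, ?_, ?_, ?_⟩
  · refine Finset.card_pos.mpr ⟨l.proper.choose, ?_⟩
    rw [Finset.mem_filter]
    exact ⟨Finset.mem_univ _, l.proper.choose_spec⟩
  · have hk1 : k - 1 < k := by omega
    have := key ⟨k - 1, hk1⟩
    simp only at this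
    rw [add_assoc, ← this]
    refine Nat.add_le_add_left ?_ 1
    calc ∑ i, ((l ⟨k - 1, hk1⟩ i : Fin k) : ℕ) ≤ ∑ _i : ι, (k - 1) := by
          refine Finset.sum_le_sum fun i _ => ?_
          have := (l ⟨k - 1, hk1⟩ i : Fin k).isLt
          omega
      _ = Fintype.card ι * (k - 1) := by simp
  · intro t ht
    have h1 := hl ⟨t, ht⟩
    have h2 := hl ⟨0, h0⟩
    simp only at h1 h2
    rw [key ⟨t, ht⟩] at h1
    simp only at h1
    rw [h2, ← h1]
    congr 1
    ring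

theorem lt_W (r k N : ℕ) (hr : 1 ≤ r) (hk : 1 ≤ k) (h : ¬ VW r k N) : N < W r k := by
  obtain ⟨N', hN'⟩ := exists_VW r k hk
  have hmem : W r k ∈ {N | 1 ≤ N ∧ VW r k N} := Nat.sInf_mem ⟨N', hN'⟩
  by_contra hc
  exact h (VW_mono hmem.2 (not_lt.mp hc))

end Vale.Agent.VdW
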