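import Mathlib

/-!
# P053: definitions for the exponential improvement of the lower bound for van der Waerden numbers
-/

namespace Vale.Agent.VdW

open Finset

/-- Newton form of a real polynomial of degree `≤ D` (as a function on `ℕ`). -/
noncomputable def newt (D : ℕ) (e : ℕ → ℝ) (t : ℕ) : ℝ :=
  ∑ j ∈ range (D + 1), (t.choose j : ℝ) * e j

/-- the cell of a real number modulo one: one of `R` arcs -/
noncomputable def cell (R : ℕ) (x : ℝ) : ZMod R := ((⌊(R : ℝ) * x⌋ : ℤ) : ZMod R)

/-- `π` is the sequence of cells, at `0, …, k-1`, of a real polynomial of degree `≤ D` -/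
def IsPat (R k D : ℕ) (π : Fin k → ZMod R) : Prop :=
  ∃ e : ℕ → ℝ, ∀ t : Fin k, π t = cell R (newt D e t)

/-- the image of a pattern -/
def im {R k : ℕ} (π : Fin k → ZMod R) : Finset (ZMod R) := univ.image π

/-- number of `i`-th power classes modulo `M` -/
def pc (M i : ℕ) [NeZero M] : ℕ := (univ.image (fun x : ZMod M => x ^ i)).card

/-- polynomial factor in the pattern count -/
def EE (k D : ℕ) : ℕ := (k + 1) ^ ((D + 1) * (2 * D + 16))

/-- every colouring of `{1,…,N}` with `r` colours has a monochromatic progression of length `k` -/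
def VW (r k N : ℕ) : Prop :=
  ∀ f : ℕ → Fin r, ∃ a d : ℕ, 1 ≤ a ∧ 1 ≤ d ∧ a + (k - 1) * d ≤ N ∧
    ∀ t < k, f (a + t * d) = f a

/-- the van der Waerden number `W_r(k)` -/
noncomputable def W (r k : ℕ) : ℕ := sInf {N | 1 ≤ N ∧ VW r k N}

end Vale.Agent.VdW
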