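import Vale.Agent.VdW.Defs

/-!
# P053, part A: colourings of hypergraphs by counting (Wanless-Wood)
-/

namespace Vale.Agent.VdW

open Finset

section
variable {V : Type} [Fintype V] [DecidableEq V]

/-- colourings of `U` (extended by `0`) without a monochromatic edge inside `U` -/
def goodCol (H : Finset (Finset V)) (r : ℕ) [NeZero r] (U : Finset V) : Finset (V → Fin r) :=
  univ.filter (fun f => (∀ x, x ∉ U → f x = 0) ∧ ∀ T ∈ H, T ⊆ U → ∃ u ∈ T, ∃ v ∈ T, f u ≠ f v)

theorem mem_goodCol (H : Finset (Finset V)) (r : ℕ) [NeZero r] (U : Finset V) (f : V → Fin r) :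
    f ∈ goodCol H r U ↔ (∀ x, x ∉ U → f x = 0) ∧ ∀ T ∈ H, T ⊆ U → ∃ u ∈ T, ∃ v ∈ T, f u ≠ f v := by
  unfold goodCol; simp

theorem goodCol_mono_chain (H : Finset (Finset V)) (r : ℕ) [NeZero r] (β : ℝ) (hβ : 1 ≤ β)
    (U : Finset V)
    (ih : ∀ U' : Finset V, U'.card < U.card → ∀ v, v ∉ U' →
      β * (goodCol H r U').card ≤ (goodCol H r (insert v U')).card) :
    ∀ n : ℕ, ∀ U' : Finset V, U' ⊆ U → (U \ U').card = n →
      β ^ n * (goodCol H r U').card ≤ (goodCol H r U).card := by
  intro n
  induction n with
  | zero =>
    intro U' hU' h0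
    rw [card_eq_zero, sdiff_eq_empty_iff_subset] at h0
    have : U' = U := Subset.antisymm hU' h0
    rw [this]; simp
  | succ n ihn =>
    intro U' hU' hn
    have hne : (U \ U').Nonempty := by
      rw [← card_pos]; omega
    obtain ⟨v, hv⟩ := hne
    rw [mem_sdiff] at hv
    have h1 : (insert v U') ⊆ U := insert_subset hv.1 hU'
    have h2 : (U \ insert v U').card = n := by
      rw [sdiff_insert, card_erase_of_mem (mem_sdiff.mpr hv), hn]; rfl
    have h3 := ihn (insert v U') h1 h2
    have h4 : U'.card < U.card := by
      apply card_lt_card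
      rw [ssubset_iff_of_subset hU']
      exact ⟨v, hv.1, hv.2⟩
    have h5 := ih U' h4 v hv.2
    calc β ^ (n + 1) * (goodCol H r U').card = β ^ n * (β * (goodCol H r U').card) := by ring
      _ ≤ β ^ n * (goodCol H r (insert v U')).card :=
        mul_le_mul_of_nonneg_left h5 (by positivity)
      _ ≤ _ := h3

theorem goodCol_step (H : Finset (Finset V)) (r : ℕ) [NeZero r] (β : ℝ)
    (hβ : 1 ≤ β) (h2 : ∀ T ∈ H, 2 ≤ T.card)
    (hH : ∀ v : V, β + ∑ T ∈ H with v ∈ T, (β ^ (T.card - 2))⁻¹ ≤ r) :
    ∀ n : ℕ, ∀ U : Finset V, U.card = n → ∀ v, v ∉ U →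
      β * (goodCol H r U).card ≤ (goodCol H r (insert v U)).card := by
  intro n
  induction n using Nat.strong_induction_on with
  | _ n IH =>
  intro U hU v hv
  have hchain := goodCol_mono_chain H r β hβ U (fun U' h v hv => IH U'.card (hU ▸ h) U' rfl v hv)
  -- the extensions
  set E : Finset (V → Fin r) :=
    ((goodCol H r U) ×ˢ (univ : Finset (Fin r))).image (fun p => Function.update p.1 v p.2) with hE
  have hEcard : E.card = (goodCol H r U).card * r := by
    rw [hE, card_image_of_injOn, card_product, card_univ, Fintype.card_fin]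
    rintro ⟨f, c⟩ hf ⟨f', c'⟩ hf' heq
    simp only at heq
    rw [mem_coe, mem_product] at hf hf'
    have h1 := ((mem_goodCol H r U f).mp hf.1).1 v hv
    have h1' := ((mem_goodCol H r U f').mp hf'.1).1 v hv
    have hc : c = c' := by
      have := congrFun heq v
      simpa using this
    have hff : f = f' := by
      funext x
      by_cases hx : x = v
      · rw [hx, h1, h1']
      · have := congrFun heq x
        simpa [Function.update_of_ne hx] using this
    rw [hc, hff]
  -- the bad ones
  let Bad : Finset V → Finset (V → Fin r) := fun T =>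
    E.filter (fun f => T ⊆ insert v U ∧ ∀ x ∈ T, ∀ y ∈ T, f x = f y)
  have hcover : E ⊆ goodCol H r (insert v U) ∪ (H.filter (fun T => v ∈ T)).biUnion Bad := by
    intro g hg
    rw [mem_union, mem_biUnion]
    by_cases hgood : ∀ T ∈ H, T ⊆ insert v U → ∃ u ∈ T, ∃ w ∈ T, g u ≠ g w
    · left
      rw [mem_goodCol]
      refine ⟨?_, hgood⟩
      intro x hx
      rw [hE, mem_image] at hg
      obtain ⟨⟨f, c⟩, hf, rfl⟩ := hg
      rw [mem_product] at hf
      rw [mem_insert, not_or] at hx
      simp only
      rw [Function.update_of_ne hx.1]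
      exact ((mem_goodCol H r U f).mp hf.1).1 x hx.2
    · right
      push Not at hgood
      obtain ⟨T, hT, hTU, hmono⟩ := hgood
      refine ⟨T, ?_, ?_⟩
      · rw [mem_filter]
        refine ⟨hT, ?_⟩
        by_contra hvT
        rw [hE, mem_image] at hg
        obtain ⟨⟨f, c⟩, hf, rfl⟩ := hg
        rw [mem_product] at hf
        have hTU' : T ⊆ U := by
          intro x hx
          rcases mem_insert.mp (hTU hx) with h | h
          · exact absurd (h ▸ hx) hvT
          · exact h
        obtain ⟨u, hu, w, hw, huw⟩ := ((mem_goodCol H r U f).mp hf.1).2 T hT hTU'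
        apply huw
        have h3 := hmono u hu w hw
        simp only at h3
        have huv : u ≠ v := fun h => hvT (h ▸ hu)
        have hwv : w ≠ v := fun h => hvT (h ▸ hw)
        rw [Function.update_of_ne huv, Function.update_of_ne hwv] at h3
        exact h3
      · simp only [Bad]
        rw [mem_filter]
        exact ⟨hg, hTU, hmono⟩
  have hbad : ∀ T ∈ H.filter (fun T => v ∈ T),
      ((Bad T).card : ℝ) ≤ (β ^ (T.card - 2))⁻¹ * (goodCol H r U).card := by
    intro T hT
    rw [mem_filter] at hT
    have hβpos : 0 < β ^ (T.card - 2) := by positivity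
    by_cases hTU : T ⊆ insert v U
    · have hT2 := h2 T hT.1
      have hne : (T.erase v).Nonempty := by
        rw [← card_pos, card_erase_of_mem hT.2]; omega
      obtain ⟨u, hu⟩ := hne
      have huT := mem_of_mem_erase hu
      have huv : u ≠ v := ne_of_mem_erase hu
      have huU : u ∈ U := by
        rcases mem_insert.mp (hTU huT) with h | h
        · exact absurd h huv
        · exact h
      set U' : Finset V := insert u (U \ T) with hU'
      have hU'U : U' ⊆ U := by
        rw [hU']
        exact insert_subset huU sdiff_subset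
      have hdiff : (U \ U').card = T.card - 2 := by
        have h3 : U \ U' = (T.erase v).erase u := by
          ext x
          simp only [hU', mem_sdiff, mem_insert, mem_erase, not_or, not_and, not_not]
          constructor
          · rintro ⟨hx, hxu, hxT⟩
            refine ⟨hxu, ?_, hxT hx⟩
            intro h; exact hv (h ▸ hx)
          · rintro ⟨hxu, hxv, hxT⟩
            refine ⟨?_, hxu, fun _ => hxT⟩
            rcases mem_insert.mp (hTU hxT) with h | h
            · exact absurd h hxv
            · exact h
        rw [h3, card_erase_of_mem hu, card_erase_of_mem hT.2]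
        omega
      have hle : (Bad T).card ≤ (goodCol H r U').card := by
        refine card_le_card_of_injOn (fun f x => if x ∈ U' then f x else 0) ?_ ?_
        · intro g hg
          rw [mem_coe, mem_filter] at hg
          obtain ⟨hgE, _, _⟩ := hg
          rw [mem_coe, mem_goodCol]
          rw [hE, mem_image] at hgE
          obtain ⟨⟨f, c⟩, hf, rfl⟩ := hgE
          rw [mem_product] at hf
          refine ⟨fun x hx => by simp [hx], ?_⟩
          intro T' hT' hT'U
          obtain ⟨a, ha, b, hb, hab⟩ := ((mem_goodCol H r U f).mp hf.1).2 T' hT' (hT'U.trans hU'U)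
          refine ⟨a, ha, b, hb, ?_⟩
          simp only
          rw [if_pos (hT'U ha), if_pos (hT'U hb)]
          rw [Function.update_of_ne, Function.update_of_ne]
          · exact hab
          · intro h; exact hv (h ▸ hU'U (hT'U hb))
          · intro h; exact hv (h ▸ hU'U (hT'U ha))
        · intro g hg g' hg' heq
          rw [mem_coe, mem_filter] at hg hg'
          obtain ⟨hgE, _, hgm⟩ := hg
          obtain ⟨hgE', _, hgm'⟩ := hg'
          have huu : g u = g' u := by
            have := congrFun heq u
            simpa [hU'] using this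
          funext x
          by_cases hxT : x ∈ T
          · rw [hgm x hxT u huT, hgm' x hxT u huT, huu]
          · by_cases hxU : x ∈ U
            · have h4 : x ∈ U' := by
                rw [hU']; exact mem_insert_of_mem (mem_sdiff.mpr ⟨hxU, hxT⟩)
              have := congrFun heq x
              simpa [h4] using this
            · have hxv : x ≠ v := fun h => hxT (h ▸ hT.2)
              rw [hE, mem_image] at hgE hgE'
              obtain ⟨⟨f, c⟩, hf, rfl⟩ := hgE
              obtain ⟨⟨f', c'⟩, hf', rfl⟩ := hgE'
              rw [mem_product] at hf hf'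
              simp only
              rw [Function.update_of_ne hxv, Function.update_of_ne hxv,
                ((mem_goodCol H r U f).mp hf.1).1 x hxU, ((mem_goodCol H r U f').mp hf'.1).1 x hxU]
      have h5 := hchain (T.card - 2) U' hU'U hdiff
      have h6 : ((Bad T).card : ℝ) ≤ (goodCol H r U').card := by exact_mod_cast hle
      rw [inv_mul_eq_div, le_div_iff₀ hβpos]
      calc ((Bad T).card : ℝ) * β ^ (T.card - 2) ≤ (goodCol H r U').card * β ^ (T.card - 2) :=
            mul_le_mul_of_nonneg_right h6 hβpos.le
        _ = β ^ (T.card - 2) * (goodCol H r U').card := by ring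
        _ ≤ _ := h5
    · have : Bad T = ∅ := by
        simp only [Bad]
        rw [filter_eq_empty_iff]
        intro f _ h
        exact hTU h.1
      rw [this]
      simp only [card_empty, Nat.cast_zero]
      positivity
  have h7 : ((goodCol H r U).card : ℝ) * r ≤ (goodCol H r (insert v U)).card +
      ∑ T ∈ H with v ∈ T, (β ^ (T.card - 2))⁻¹ * (goodCol H r U).card := by
    have h8 : E.card ≤ (goodCol H r (insert v U)).card +
        ∑ T ∈ H with v ∈ T, (Bad T).card := by
      calc E.card ≤ _ := card_le_card hcover
        _ ≤ _ := card_union_le _ _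
        _ ≤ _ := Nat.add_le_add_left card_biUnion_le _
    calc ((goodCol H r U).card : ℝ) * r = (E.card : ℝ) := by rw [hEcard]; push_cast; ring
      _ ≤ (goodCol H r (insert v U)).card + ∑ T ∈ H with v ∈ T, ((Bad T).card : ℝ) := by
        exact_mod_cast h8
      _ ≤ _ := by
        have := sum_le_sum hbad
        linarith
  rw [← sum_mul] at h7
  have h9 := hH v
  have h10 : (0 : ℝ) ≤ (goodCol H r U).card := Nat.cast_nonneg _
  nlinarith
end

theorem coloring {V : Type} [Fintype V] [DecidableEq V] (H : Finset (Finset V)) (r : ℕ) (β : ℝ)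
    (hβ : 1 ≤ β) (h2 : ∀ T ∈ H, 2 ≤ T.card)
    (hH : ∀ v : V, β + ∑ T ∈ H with v ∈ T, (β ^ (T.card - 2))⁻¹ ≤ r) :
    ∃ Ψ : V → Fin r, ∀ T ∈ H, ∃ u ∈ T, ∃ v ∈ T, Ψ u ≠ Ψ v := by
  by_cases hV : Nonempty V
  · obtain ⟨v0⟩ := hV
    have hr : NeZero r := by
      constructor
      rintro rfl
      have h1 := hH v0
      have h3 : 0 ≤ ∑ T ∈ H with v0 ∈ T, (β ^ (T.card - 2))⁻¹ :=
        sum_nonneg fun T _ => by positivity
      simp only [Nat.cast_zero] at h1
      linarith
    have hstep := goodCol_step H r β hβ h2 hH
    have hpos : ∀ U : Finset V, 0 < (goodCol H r U).card := by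
      intro U
      induction U using Finset.induction_on with
      | empty =>
        rw [card_pos]
        refine ⟨fun _ => 0, ?_⟩
        rw [mem_goodCol]
        refine ⟨fun _ _ => rfl, ?_⟩
        intro T hT hTe
        rw [subset_empty] at hTe
        have := h2 T hT
        rw [hTe, card_empty] at this
        omega
      | insert v U hv ih =>
        have h1 := hstep U.card U rfl v hv
        have h3 : (0 : ℝ) < (goodCol H r U).card := by exact_mod_cast ih
        have h4 : (0 : ℝ) < (goodCol H r (insert v U)).card := by nlinarith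
        exact_mod_cast h4
    obtain ⟨f, hf⟩ := card_pos.mp (hpos univ)
    rw [mem_goodCol] at hf
    exact ⟨f, fun T hT => hf.2 T hT (subset_univ T)⟩
  · refine ⟨fun v => absurd ⟨v⟩ hV, ?_⟩
    intro T hT
    have h1 := h2 T hT
    have : 0 < T.card := by omega
    obtain ⟨x, _⟩ := card_pos.mp this
    exact absurd ⟨x⟩ hV

end Vale.Agent.VdW
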