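import Vale.Agent.VdW.Defs

/-!
# P053, part B: number of threshold patterns of polynomials (Sauer-Shelah)
-/

namespace Vale.Agent.VdW

open Finset

theorem sum_choose_le_pow (k n : ℕ) : ∑ j ∈ Iic n, k.choose j ≤ (k + 1) ^ n := by
  rw [add_pow, show Iic n = range (n + 1) by ext; simp]
  refine sum_le_sum fun j hj => ?_
  rw [mem_range, Nat.lt_succ_iff] at hj
  have h1 : k.choose j ≤ k ^ j := Nat.choose_le_pow k j
  have h2 : 1 ≤ n.choose j := Nat.choose_pos hj
  simp only [one_pow, mul_one, Nat.cast_id]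
  calc k.choose j ≤ k ^ j * 1 := by simpa using h1
    _ ≤ k ^ j * n.choose j := Nat.mul_le_mul_left _ h2

open Classical in
theorem threshold_count (k D : ℕ) (θ : Fin k → ℝ) :
    (univ.filter (fun S : Finset (Fin k) =>
      ∃ e : ℕ → ℝ, ∀ t, t ∈ S ↔ θ t ≤ newt D e t)).card ≤ (k + 1) ^ (D + 1) := by
  set F : Finset (Finset (Fin k)) := univ.filter (fun S : Finset (Fin k) =>
      ∃ e : ℕ → ℝ, ∀ t, t ∈ S ↔ θ t ≤ newt D e t) with hF
  have hvc : F.vcDim ≤ D + 1 := by
    unfold Finset.vcDim
    refine Finset.sup_le fun s hs => ?_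
    rw [mem_shatterer] at hs
    by_contra hlt
    push Not at hlt
    let v : s → (Fin (D + 1) → ℝ) := fun t j => (((t : Fin k) : ℕ).choose j : ℝ)
    have hnl : ¬ LinearIndependent ℝ v := by
      intro hl
      have := hl.fintype_card_le_finrank
      simp at this
      omega
    rw [Fintype.not_linearIndependent_iff] at hnl
    obtain ⟨g, hg, i0, hi0⟩ := hnl
    have key : ∀ e : ℕ → ℝ, ∑ i : s, g i * newt D e ((i : Fin k) : ℕ) = 0 := by
      intro e
      unfold newt
      simp_rw [mul_sum]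
      rw [sum_comm]
      have h2 : ∀ j ∈ range (D + 1), ∑ i : s, g i * ((((i : Fin k) : ℕ).choose j : ℝ) * e j) = 0 := by
        intro j hj
        have h3 := congrFun hg ⟨j, mem_range.mp hj⟩
        simp only [Finset.sum_apply, Pi.smul_apply, smul_eq_mul, Pi.zero_apply, v] at h3
        calc ∑ i : s, g i * ((((i : Fin k) : ℕ).choose j : ℝ) * e j)
            = (∑ i : s, g i * (((i : Fin k) : ℕ).choose j : ℝ)) * e j := by
              rw [sum_mul]; refine sum_congr rfl fun i _ => by ring
          _ = 0 := by rw [h3]; ring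
      exact sum_eq_zero h2
    -- the trace `{g > 0}` and the trace `{g < 0}`
    have tr : ∀ P : s → Prop, ∃ e : ℕ → ℝ, ∀ i : s, P i ↔ θ (i : Fin k) ≤ newt D e ((i : Fin k) : ℕ) := by
      intro P
      obtain ⟨u, hu, hsu⟩ := hs (t := s.filter (fun x => ∃ h : x ∈ s, P ⟨x, h⟩)) (filter_subset _ _)
      rw [hF, mem_filter] at hu
      obtain ⟨e, he⟩ := hu.2
      refine ⟨e, fun i => ?_⟩
      rw [← he]
      have h1 : (i : Fin k) ∈ s ∩ u ↔ (i : Fin k) ∈ s.filter (fun x => ∃ h : x ∈ s, P ⟨x, h⟩) := by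
        rw [hsu]
      rw [mem_inter, mem_filter] at h1
      constructor
      · intro hP
        exact (h1.mpr ⟨i.2, i.2, hP⟩).2
      · intro hu'
        obtain ⟨_, _, hP⟩ := h1.mp ⟨i.2, hu'⟩
        exact hP
    obtain ⟨e1, he1⟩ := tr (fun i => 0 < g i)
    obtain ⟨e2, he2⟩ := tr (fun i => g i < 0)
    have hsum : ∑ i : s, g i * (newt D e1 ((i : Fin k) : ℕ) - newt D e2 ((i : Fin k) : ℕ)) = 0 := by
      simp_rw [mul_sub]
      rw [sum_sub_distrib, key, key, sub_zero]
    have hnn : ∀ i ∈ (univ : Finset s),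
        0 ≤ g i * (newt D e1 ((i : Fin k) : ℕ) - newt D e2 ((i : Fin k) : ℕ)) := by
      intro i _
      rcases lt_trichotomy (g i) 0 with h | h | h
      · have h1 := (he2 i).mp h
        have h2 : ¬ θ (i : Fin k) ≤ newt D e1 ((i : Fin k) : ℕ) := by
          intro h3; have := (he1 i).mpr h3; linarith
        push Not at h2
        apply le_of_lt
        apply mul_pos_of_neg_of_neg h
        linarith
      · rw [h]; simp
      · have h1 := (he1 i).mp h
        have h2 : ¬ θ (i : Fin k) ≤ newt D e2 ((i : Fin k) : ℕ) := by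
          intro h3; have := (he2 i).mpr h3; linarith
        push Not at h2
        apply le_of_lt
        apply mul_pos h
        linarith
    have h0 := (sum_eq_zero_iff_of_nonneg hnn).mp hsum i0 (mem_univ _)
    rcases lt_or_gt_of_ne hi0 with h | h
    · have h1 := (he2 i0).mp h
      have h2 : ¬ θ (i0 : Fin k) ≤ newt D e1 ((i0 : Fin k) : ℕ) := by
        intro h3; have := (he1 i0).mpr h3; linarith
      push Not at h2
      have := mul_pos_of_neg_of_neg h (show newt D e1 ((i0 : Fin k) : ℕ) - newt D e2 ((i0 : Fin k) : ℕ) < 0 by linarith)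
      linarith
    · have h1 := (he1 i0).mp h
      have h2 : ¬ θ (i0 : Fin k) ≤ newt D e2 ((i0 : Fin k) : ℕ) := by
        intro h3; have := (he2 i0).mpr h3; linarith
      push Not at h2
      have := mul_pos h (show 0 < newt D e1 ((i0 : Fin k) : ℕ) - newt D e2 ((i0 : Fin k) : ℕ) by linarith)
      linarith
  calc F.card ≤ F.shatterer.card := card_le_card_shatterer F
    _ ≤ ∑ j ∈ Iic F.vcDim, (Fintype.card (Fin k)).choose j := card_shatterer_le_sum_vcDim
    _ ≤ ∑ j ∈ Iic (D + 1), k.choose j := by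
      rw [Fintype.card_fin]
      exact sum_le_sum_of_subset (Iic_subset_Iic.mpr hvc)
    _ ≤ (k + 1) ^ (D + 1) := sum_choose_le_pow k (D + 1)

end Vale.Agent.VdW
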