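import Vale.Agent.VdW.PartB

/-!
# P053, part C: pattern count
-/

namespace Vale.Agent.VdW

open Finset

theorem binom_inj (W D k : ℕ) [Fact W.Prime] (hDW : D < W) (hkW : k ≤ W)
    (X : Fin (D + 1) → Fin k) (hX : Function.Injective X) (g : Fin (D + 1) → ZMod W)
    (hg : ∀ j, ∑ i : Fin (D + 1), (((X j : ℕ).choose i : ℕ) : ZMod W) * g i = 0) : g = 0 := by
  let P : Polynomial (ZMod W) := ∑ i : Fin (D + 1),
    Polynomial.C (g i * (((i : ℕ).factorial : ℕ) : ZMod W)⁻¹) * descPochhammer (ZMod W) i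
  have hfac : ∀ i : Fin (D + 1), (((i : ℕ).factorial : ℕ) : ZMod W) ≠ 0 := by
    intro i h
    rw [ZMod.natCast_eq_zero_iff, (Fact.out : W.Prime).dvd_factorial] at h
    have := i.2
    omega
  have hev : ∀ t : ℕ, P.eval (t : ZMod W) =
      ∑ i : Fin (D + 1), ((t.choose i : ℕ) : ZMod W) * g i := by
    intro t
    simp only [P, Polynomial.eval_finsetSum, Polynomial.eval_mul, Polynomial.eval_C]
    refine sum_congr rfl fun i _ => ?_
    rw [descPochhammer_eval_eq_descFactorial, Nat.descFactorial_eq_factorial_mul_choose]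
    push_cast
    field_simp [hfac i]
  have hdeg : P.natDegree < D + 1 := by
    refine lt_of_le_of_lt (Polynomial.natDegree_sum_le_of_forall_le univ (n := D) _ ?_) (Nat.lt_succ_self D)
    intro i _
    refine (Polynomial.natDegree_C_mul_le _ _).trans ?_
    rw [descPochhammer_natDegree]
    have := i.2
    omega
  have hP : P = 0 := by
    refine Polynomial.eq_zero_of_natDegree_lt_card_of_eval_eq_zero P
      (f := fun j : Fin (D + 1) => (((X j : Fin k) : ℕ) : ZMod W)) ?_ ?_ (by simpa using hdeg)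
    · intro j j' h
      simp only at h
      rw [ZMod.natCast_eq_natCast_iff'] at h
      have h1 := (X j).2
      have h2 := (X j').2
      rw [Nat.mod_eq_of_lt (by omega), Nat.mod_eq_of_lt (by omega)] at h
      exact hX (Fin.ext h)
    · intro j
      rw [hev, hg]
  have h0 : ∀ t : ℕ, ∑ i : Fin (D + 1), ((t.choose i : ℕ) : ZMod W) * g i = 0 := by
    intro t; rw [← hev, hP, Polynomial.eval_zero]
  have hmain : ∀ n : ℕ, ∀ hn : n < D + 1, g ⟨n, hn⟩ = 0 := by
    intro n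
    induction n using Nat.strong_induction_on with
    | _ n ih =>
      intro hn
      have h1 := h0 n
      rw [sum_eq_single (⟨n, hn⟩ : Fin (D + 1))] at h1
      · simpa using h1
      · intro b _ hb
        rcases lt_trichotomy (b : ℕ) n with h | h | h
        · rw [show b = ⟨(b : ℕ), b.2⟩ from rfl, ih b h b.2, mul_zero]
        · exact absurd (Fin.ext h) hb
        · rw [Nat.choose_eq_zero_of_lt h]; simp
      · intro h; exact absurd (mem_univ _) h
  funext i
  exact hmain i i.2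

/-- extension by zero of a vector of residues, as integers -/
def exz {W D : ℕ} (α : Fin (D + 1) → ZMod W) (j : ℕ) : ℤ :=
  if h : j < D + 1 then ((α ⟨j, h⟩).val : ℤ) else 0

/-- integer Newton form -/
def nz (D : ℕ) (a : ℕ → ℤ) (t : ℕ) : ℤ := ∑ j ∈ range (D + 1), (t.choose j : ℤ) * a j

theorem nz_cast {W D : ℕ} [NeZero W] (α : Fin (D + 1) → ZMod W) (t : ℕ) :
    ((nz D (exz α) t : ℤ) : ZMod W) = ∑ i : Fin (D + 1), ((t.choose i : ℕ) : ZMod W) * α i := by
  unfold nz
  rw [Finset.sum_range]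
  push_cast
  refine sum_congr rfl fun i _ => ?_
  congr 1
  unfold exz
  rw [dif_pos i.2]
  simp

/-- the pattern coming from a residue vector and a set -/
noncomputable def patOf (R k D W : ℕ) (α : Fin (D + 1) → ZMod W) (S : Finset (Fin k)) : Fin k → ZMod R :=
  fun t => ((⌊(R : ℝ) * (nz D (exz α) t : ℤ) / W⌋ + (if t ∈ S then 1 else 0) : ℤ) : ZMod R)

/-- the thresholds of a residue vector -/
noncomputable def thr (R k D W : ℕ) (α : Fin (D + 1) → ZMod W) : Fin k → ℝ :=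
  fun t => ((⌊(R : ℝ) * (nz D (exz α) t : ℤ) / W⌋ : ℝ) + 1) * W / R - (nz D (exz α) t : ℤ)

theorem newt_lt (k D : ℕ) (f : ℕ → ℝ) (hf0 : ∀ j, 0 ≤ f j) (hf1 : ∀ j, f j < 1) (t : ℕ) (ht : t < k) :
    0 ≤ newt D f t ∧ newt D f t < (((D + 1) * k ^ (D + 1) : ℕ) : ℝ) := by
  have hk : 1 ≤ k := by omega
  constructor
  · unfold newt
    exact sum_nonneg fun j _ => mul_nonneg (Nat.cast_nonneg _) (hf0 j)
  · unfold newt
    have h1 : ∑ j ∈ range (D + 1), (t.choose j : ℝ) * f j < ∑ j ∈ range (D + 1), (t.choose j : ℝ) := by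
      refine sum_lt_sum (fun j _ => ?_) ⟨0, by simp, ?_⟩
      · exact mul_le_of_le_one_right (Nat.cast_nonneg _) (hf1 j).le
      · simpa using hf1 0
    have h2 : ∑ j ∈ range (D + 1), (t.choose j : ℝ) ≤ (((D + 1) * k ^ (D + 1) : ℕ) : ℝ) := by
      rw [← Nat.cast_sum]
      apply Nat.cast_le.mpr
      calc ∑ j ∈ range (D + 1), t.choose j ≤ ∑ j ∈ range (D + 1), k ^ (D + 1) := by
            refine sum_le_sum fun j hj => ?_
            rw [mem_range] at hj
            calc t.choose j ≤ t ^ j := Nat.choose_le_pow t j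
              _ ≤ k ^ j := Nat.pow_le_pow_left (by omega) j
              _ ≤ k ^ (D + 1) := Nat.pow_le_pow_right hk (by omega)
        _ = (D + 1) * k ^ (D + 1) := by simp
    linarith

/-- normalised form of a pattern -/
theorem exists_residues (R k D W : ℕ) [NeZero R] (hW : R * ((D + 1) * k ^ (D + 1)) < W)
    (π : Fin k → ZMod R) (hπ : IsPat R k D π) :
    ∃ (e f : ℕ → ℝ) (α : Fin (D + 1) → ZMod W),
      (∀ t : Fin k, π t = cell R (newt D e t)) ∧
      (∀ t : ℕ, (W : ℝ) * newt D e t = (nz D (exz α) t : ℤ) + newt D f t) ∧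
      (∀ j, 0 ≤ f j) ∧ (∀ j, f j < 1) := by
  have hW0 : 0 < W := by omega
  have : NeZero W := ⟨by omega⟩
  obtain ⟨e0, he0⟩ := hπ
  refine ⟨fun j => Int.fract (e0 j), fun j => Int.fract ((W : ℝ) * Int.fract (e0 j)),
    fun j => ((⌊(W : ℝ) * Int.fract (e0 j)⌋.toNat : ℕ) : ZMod W), ?_, ?_, ?_, ?_⟩
  · intro t
    rw [he0 t]
    unfold cell
    have h1 : newt D (fun j => Int.fract (e0 j)) t =
        newt D e0 t - ((∑ j ∈ range (D + 1), ((t : ℕ).choose j : ℤ) * ⌊e0 j⌋ : ℤ) : ℝ) := by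
      unfold newt
      push_cast
      rw [← sum_sub_distrib]
      refine sum_congr rfl fun j _ => ?_
      rw [← Int.self_sub_floor]
      ring
    rw [h1, mul_sub]
    rw [show (R : ℝ) * ((∑ j ∈ range (D + 1), ((t : ℕ).choose j : ℤ) * ⌊e0 j⌋ : ℤ) : ℝ) =
      (((R : ℤ) * ∑ j ∈ range (D + 1), ((t : ℕ).choose j : ℤ) * ⌊e0 j⌋ : ℤ) : ℝ) by push_cast; ring]
    rw [Int.floor_sub_intCast]
    push_cast
    simp
  · intro t
    unfold newt nz
    push_cast
    rw [mul_sum, ← sum_add_distrib]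
    refine sum_congr rfl fun j hj => ?_
    have hj' := mem_range.mp hj
    have h2 : exz (fun j : Fin (D + 1) => ((⌊(W : ℝ) * Int.fract (e0 j)⌋.toNat : ℕ) : ZMod W)) j =
        ⌊(W : ℝ) * Int.fract (e0 j)⌋ := by
      unfold exz
      rw [dif_pos hj']
      have h3 : 0 ≤ ⌊(W : ℝ) * Int.fract (e0 j)⌋ :=
        Int.floor_nonneg.mpr (mul_nonneg (Nat.cast_nonneg _) (Int.fract_nonneg _))
      have h4 : ⌊(W : ℝ) * Int.fract (e0 j)⌋ < W := by
        rw [Int.floor_lt]
        have := Int.fract_lt_one (e0 j)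
        have hW' : (0 : ℝ) < W := by exact_mod_cast hW0
        push_cast
        nlinarith
      simp only
      rw [ZMod.val_natCast_of_lt (by omega)]
      exact Int.toNat_of_nonneg h3
    rw [h2, ← mul_add, Int.floor_add_fract]
    ring
  · intro j; exact Int.fract_nonneg _
  · intro j; exact Int.fract_lt_one _

theorem pat_eq (R k D W : ℕ) [NeZero R] (hW : R * ((D + 1) * k ^ (D + 1)) < W)
    (e f : ℕ → ℝ) (α : Fin (D + 1) → ZMod W)
    (h2 : ∀ t : ℕ, (W : ℝ) * newt D e t = (nz D (exz α) t : ℤ) + newt D f t)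
    (h3 : ∀ j, 0 ≤ f j) (h4 : ∀ j, f j < 1) (S : Finset (Fin k))
    (hS : ∀ t, t ∈ S ↔ thr R k D W α t ≤ newt D f t) (t : Fin k) :
    cell R (newt D e t) = patOf R k D W α S t := by
  have hW0 : (0 : ℝ) < W := by
    have : 0 < W := by omega
    exact_mod_cast this
  have hR0 : (0 : ℝ) < R := by
    have := NeZero.pos R
    exact_mod_cast this
  have hWc : (R : ℝ) * (((D + 1) * k ^ (D + 1) : ℕ) : ℝ) < W := by exact_mod_cast hW
  unfold cell patOf
  congr 1
  obtain ⟨hE0, hE1⟩ := newt_lt k D f h3 h4 t t.2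
  set A : ℝ := ((nz D (exz α) t : ℤ) : ℝ) with hA
  set E : ℝ := newt D f t with hE
  have hq : newt D e t = (A + E) / W := by
    rw [eq_div_iff hW0.ne']; linarith [h2 t]
  rw [hq]
  set z : ℤ := ⌊(R : ℝ) * A / W⌋ with hz
  have hz1 : (z : ℝ) ≤ (R : ℝ) * A / W := Int.floor_le _
  have hz2 : (R : ℝ) * A / W < z + 1 := Int.lt_floor_add_one _
  have hRE : (R : ℝ) * E / W < 1 := by
    rw [div_lt_one hW0]
    have : (R : ℝ) * E ≤ R * (((D + 1) * k ^ (D + 1) : ℕ) : ℝ) := mul_le_mul_of_nonneg_left hE1.le hR0.le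
    linarith
  have hRE0 : 0 ≤ (R : ℝ) * E / W := by positivity
  have hsum : (R : ℝ) * ((A + E) / W) = R * A / W + R * E / W := by ring
  rw [hsum]
  by_cases htS : t ∈ S
  · rw [if_pos htS]
    have h5 := (hS t).mp htS
    unfold thr at h5
    rw [← hA, ← hz, ← hE] at h5
    have h6 : (z : ℝ) + 1 ≤ R * A / W + R * E / W := by
      have h7 : ((z : ℝ) + 1) * W / R ≤ A + E := by linarith
      rw [div_le_iff₀ hR0] at h7
      rw [← add_div, le_div_iff₀ hW0]
      nlinarith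
    rw [Int.floor_eq_iff]
    push_cast
    constructor
    · linarith
    · linarith
  · rw [if_neg htS, add_zero]
    have h5 : ¬ thr R k D W α t ≤ newt D f t := fun h => htS ((hS t).mpr h)
    push Not at h5
    unfold thr at h5
    rw [← hA, ← hz, ← hE] at h5
    have h6 : R * A / W + R * E / W < (z : ℝ) + 1 := by
      have h7 : A + E < ((z : ℝ) + 1) * W / R := by linarith
      rw [lt_div_iff₀ hR0] at h7
      rw [← add_div, div_lt_iff₀ hW0]
      nlinarith
    rw [Int.floor_eq_iff]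
    constructor
    · linarith
    · linarith

theorem close (R k D W : ℕ) [NeZero R] (hW : R * ((D + 1) * k ^ (D + 1)) < W)
    (hW2 : W ≤ 2 * (R * ((D + 1) * k ^ (D + 1))))
    (e f : ℕ → ℝ) (α : Fin (D + 1) → ZMod W)
    (h2 : ∀ t : ℕ, (W : ℝ) * newt D e t = (nz D (exz α) t : ℤ) + newt D f t)
    (h3 : ∀ j, 0 ≤ f j) (h4 : ∀ j, f j < 1) (t t' : Fin k)
    (h : cell R (newt D e t) = cell R (newt D e t')) :
    ∃ b : Fin (6 * ((D + 1) * k ^ (D + 1)) + 1), ((nz D (exz α) t : ℤ) : ZMod W) =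
      ((nz D (exz α) t' : ℤ) : ZMod W) + (((b : ℕ) : ZMod W) - ((3 * ((D + 1) * k ^ (D + 1)) : ℕ) : ZMod W)) := by
  set c : ℕ := (D + 1) * k ^ (D + 1) with hc
  have hW0 : (0 : ℝ) < W := by
    have : 0 < W := by omega
    exact_mod_cast this
  have hR0 : (0 : ℝ) < R := by
    have := NeZero.pos R
    exact_mod_cast this
  have hWc : (W : ℝ) ≤ 2 * (R * c) := by exact_mod_cast hW2
  obtain ⟨hE0, hE1⟩ := newt_lt k D f h3 h4 t t.2
  obtain ⟨hE0', hE1'⟩ := newt_lt k D f h3 h4 t' t'.2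
  have e1 := h2 t
  have e2 := h2 t'
  unfold cell at h
  rw [ZMod.intCast_eq_intCast_iff_dvd_sub] at h
  obtain ⟨n, hn⟩ := h
  -- ⌊R p'⌋ - ⌊R p⌋ = R n
  have f1 := Int.floor_le ((R : ℝ) * newt D e t)
  have f2 := Int.lt_floor_add_one ((R : ℝ) * newt D e t)
  have f3 := Int.floor_le ((R : ℝ) * newt D e t')
  have f4 := Int.lt_floor_add_one ((R : ℝ) * newt D e t')
  have hn' : ((⌊(R : ℝ) * newt D e t'⌋ : ℤ) : ℝ) - ((⌊(R : ℝ) * newt D e t⌋ : ℤ) : ℝ) = R * n := by
    exact_mod_cast hn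
  set p : ℝ := newt D e t with hp
  set p' : ℝ := newt D e t' with hp'
  have g1 : (R : ℝ) * (p - p' + n) < 1 := by nlinarith
  have g2 : -1 < (R : ℝ) * (p - p' + n) := by nlinarith
  -- multiply by W / R
  have g3 : (W : ℝ) * (p - p' + n) ≤ 2 * c := by
    have : (W : ℝ) * (p - p' + n) = (W / R) * (R * (p - p' + n)) := by field_simp
    rw [this]
    have h5 : (W : ℝ) / R ≤ 2 * c := by
      rw [div_le_iff₀ hR0]; linarith
    have h6 : (W : ℝ) / R * (R * (p - p' + n)) ≤ W / R * 1 :=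
      mul_le_mul_of_nonneg_left g1.le (by positivity)
    linarith
  have g4 : -(2 * c : ℝ) ≤ (W : ℝ) * (p - p' + n) := by
    have : (W : ℝ) * (p - p' + n) = (W / R) * (R * (p - p' + n)) := by field_simp
    rw [this]
    have h5 : (W : ℝ) / R ≤ 2 * c := by
      rw [div_le_iff₀ hR0]; linarith
    have h6 : (W : ℝ) / R * (-1) ≤ W / R * (R * (p - p' + n)) :=
      mul_le_mul_of_nonneg_left g2.le (by positivity)
    linarith
  set A : ℤ := nz D (exz α) t with hA
  set A' : ℤ := nz D (exz α) t' with hA'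
  have g5 : ((A - A' + W * n : ℤ) : ℝ) < 3 * c := by
    push_cast
    nlinarith
  have g6 : -(3 * c : ℝ) < ((A - A' + W * n : ℤ) : ℝ) := by
    push_cast
    nlinarith
  have g5' : A - A' + W * n < 3 * c := by exact_mod_cast g5
  have g6' : -(3 * c : ℤ) < A - A' + W * n := by exact_mod_cast g6
  refine ⟨⟨(A - A' + W * n + 3 * c).toNat, by omega⟩, ?_⟩
  have h7 : (((A - A' + W * n + 3 * c).toNat : ℕ) : ZMod W) =
      ((A - A' + W * n + 3 * c : ℤ) : ZMod W) := by
    have : (((A - A' + W * n + 3 * c).toNat : ℕ) : ℤ) = A - A' + W * n + 3 * c :=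
      Int.toNat_of_nonneg (by omega)
    rw [← Int.cast_natCast, this]
  rw [Fin.val_mk, h7]
  push_cast
  simp

open Classical in
theorem card_residues (k D m W : ℕ) [Fact W.Prime] (hDW : D < W) (hkW : k ≤ W) (B : ℕ) :
    (univ.filter (fun α : Fin (D + 1) → ZMod W =>
      ∃ (X : Fin (D + 1) → Fin k) (σ : Fin (D + 1) → Fin m) (u : Fin m → ZMod W)
        (b : Fin (D + 1) → Fin (2 * B + 1)), Function.Injective X ∧
        ∀ j, ∑ i : Fin (D + 1), (((X j : ℕ).choose i : ℕ) : ZMod W) * α i =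
          u (σ j) + (((b j : ℕ) : ZMod W) - ((B : ℕ) : ZMod W)))).card ≤
      k ^ (D + 1) * m ^ (D + 1) * W ^ m * (2 * B + 1) ^ (D + 1) := by
  set F := (univ.filter (fun α : Fin (D + 1) → ZMod W =>
      ∃ (X : Fin (D + 1) → Fin k) (σ : Fin (D + 1) → Fin m) (u : Fin m → ZMod W)
        (b : Fin (D + 1) → Fin (2 * B + 1)), Function.Injective X ∧
        ∀ j, ∑ i : Fin (D + 1), (((X j : ℕ).choose i : ℕ) : ZMod W) * α i =
          u (σ j) + (((b j : ℕ) : ZMod W) - ((B : ℕ) : ZMod W)))) with hF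
  have : NeZero W := ⟨(Fact.out : W.Prime).ne_zero⟩
  have hex : ∀ α : F, ∃ c : (Fin (D + 1) → Fin k) × (Fin (D + 1) → Fin m) × (Fin m → ZMod W) ×
      (Fin (D + 1) → Fin (2 * B + 1)), Function.Injective c.1 ∧
        ∀ j, ∑ i : Fin (D + 1), (((c.1 j : ℕ).choose i : ℕ) : ZMod W) * (α : Fin (D + 1) → ZMod W) i =
          c.2.2.1 (c.2.1 j) + (((c.2.2.2 j : ℕ) : ZMod W) - ((B : ℕ) : ZMod W)) := by
    rintro ⟨α, hα⟩
    rw [hF, mem_filter] at hα
    obtain ⟨X, σ, u, b, h1, h2⟩ := hα.2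
    exact ⟨(X, σ, u, b), h1, h2⟩
  choose φ hφ1 hφ2 using hex
  have hinj : Function.Injective φ := by
    intro α α' h
    have h1 := hφ2 α
    have h2 := hφ2 α'
    rw [← h] at h2
    have h3 : (fun i => (α : Fin (D + 1) → ZMod W) i - (α' : Fin (D + 1) → ZMod W) i) = 0 := by
      refine binom_inj W D k hDW hkW (φ α).1 (hφ1 α) _ fun j => ?_
      simp_rw [mul_sub]
      rw [sum_sub_distrib, h1, h2, sub_self]
    apply Subtype.ext
    funext i
    exact sub_eq_zero.mp (congrFun h3 i)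
  have := Fintype.card_le_of_injective φ hinj
  rw [Fintype.card_coe] at this
  refine this.trans (le_of_eq ?_)
  simp only [Fintype.card_prod, Fintype.card_fun, Fintype.card_fin, ZMod.card]
  ring

theorem size_bound (R k D m : ℕ) (hk : D + 1 ≤ k) (hm : m ≤ D + 1) (W : ℕ)
    (hW2 : W ≤ 2 * (R * ((D + 1) * k ^ (D + 1)))) :
    (k ^ (D + 1) * m ^ (D + 1) * W ^ m * (2 * (3 * ((D + 1) * k ^ (D + 1))) + 1) ^ (D + 1)) *
      (k + 1) ^ (D + 1) ≤ R ^ m * EE k D := by
  have hk1 : 1 ≤ k := by omega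
  set c : ℕ := (D + 1) * k ^ (D + 1) with hc
  have hc1 : 1 ≤ c := by
    have : 1 ≤ k ^ (D + 1) := Nat.one_le_pow _ _ hk1
    rw [hc]; nlinarith
  have hck : c ≤ (k + 1) ^ (D + 2) := by
    rw [hc, pow_succ' (k + 1) (D + 1)]
    exact Nat.mul_le_mul (by omega) (Nat.pow_le_pow_left (by omega) _)
  have h1 : W ^ m ≤ R ^ m * (2 * c) ^ (D + 1) := by
    calc W ^ m ≤ (2 * (R * c)) ^ m := Nat.pow_le_pow_left hW2 m
      _ = R ^ m * (2 * c) ^ m := by rw [← mul_pow]; congr 1; ring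
      _ ≤ R ^ m * (2 * c) ^ (D + 1) :=
        Nat.mul_le_mul_left _ (Nat.pow_le_pow_right (by omega) hm)
  have h2 : 2 * (3 * c) + 1 ≤ 7 * c := by omega
  have h14 : 14 ≤ (k + 1) ^ 4 := by
    calc 14 ≤ 2 ^ 4 := by norm_num
      _ ≤ (k + 1) ^ 4 := Nat.pow_le_pow_left (by omega) 4
  calc (k ^ (D + 1) * m ^ (D + 1) * W ^ m * (2 * (3 * c) + 1) ^ (D + 1)) * (k + 1) ^ (D + 1)
      ≤ (((k + 1) ^ (D + 1) * (k + 1) ^ (D + 1) * (R ^ m * (2 * c) ^ (D + 1)) * (7 * c) ^ (D + 1))) *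
        (k + 1) ^ (D + 1) := by
        gcongr
        · omega
        · omega
    _ = R ^ m * (14 * (k + 1) ^ 3 * c ^ 2) ^ (D + 1) := by
        rw [show 14 * (k + 1) ^ 3 * c ^ 2 = (k + 1) * (k + 1) * (2 * c) * (7 * c) * (k + 1) by ring]
        simp only [mul_pow]
        ring
    _ ≤ R ^ m * ((k + 1) ^ 4 * (k + 1) ^ 3 * ((k + 1) ^ (D + 2)) ^ 2) ^ (D + 1) := by
        gcongr
    _ = R ^ m * ((k + 1) ^ (2 * D + 11)) ^ (D + 1) := by
        congr 2
        ring
    _ ≤ R ^ m * ((k + 1) ^ (2 * D + 16)) ^ (D + 1) := by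
        gcongr
        · omega
        · omega
    _ = R ^ m * EE k D := by
        unfold EE
        rw [← pow_mul, mul_comm (2 * D + 16) (D + 1)]

open Classical in
theorem pat_count (R k D m : ℕ) [NeZero R] (hk : D + 1 ≤ k) (hm : m ≤ D + 1) :
    (univ.filter (fun π : Fin k → ZMod R => IsPat R k D π ∧
      ∃ X : Fin (D + 1) → Fin k, Function.Injective X ∧ (univ.image (π ∘ X)).card ≤ m)).card
      ≤ R ^ m * EE k D := by
  have hk1 : 1 ≤ k := by omega
  have hR0 : 0 < R := NeZero.pos R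
  set c : ℕ := (D + 1) * k ^ (D + 1) with hc
  have hkc : k ≤ c := by
    calc k = 1 * k ^ 1 := by ring
      _ ≤ (D + 1) * k ^ (D + 1) := Nat.mul_le_mul (by omega) (Nat.pow_le_pow_right hk1 (by omega))
  have hRc : R * c ≠ 0 := by
    have : 0 < R * c := Nat.mul_pos hR0 (by omega)
    omega
  obtain ⟨W, hWp, hW1, hW2⟩ := Nat.exists_prime_lt_and_le_two_mul (R * c) hRc
  have : Fact W.Prime := ⟨hWp⟩
  have hcR : c ≤ R * c := Nat.le_mul_of_pos_left c hR0
  have hkW : k ≤ W := by omega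
  set 𝒜 := (univ.filter (fun α : Fin (D + 1) → ZMod W =>
      ∃ (X : Fin (D + 1) → Fin k) (σ : Fin (D + 1) → Fin m) (u : Fin m → ZMod W)
        (b : Fin (D + 1) → Fin (2 * (3 * c) + 1)), Function.Injective X ∧
        ∀ j, ∑ i : Fin (D + 1), (((X j : ℕ).choose i : ℕ) : ZMod W) * α i =
          u (σ j) + (((b j : ℕ) : ZMod W) - ((3 * c : ℕ) : ZMod W)))) with h𝒜
  have hA := card_residues k D m W (by omega) hkW (3 * c)
  rw [← h𝒜] at hA
  have hsub : (univ.filter (fun π : Fin k → ZMod R => IsPat R k D π ∧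
      ∃ X : Fin (D + 1) → Fin k, Function.Injective X ∧ (univ.image (π ∘ X)).card ≤ m)) ⊆
      𝒜.biUnion (fun α => (univ.filter (fun S : Finset (Fin k) =>
        ∃ e : ℕ → ℝ, ∀ t, t ∈ S ↔ thr R k D W α t ≤ newt D e t)).image (patOf R k D W α)) := by
    intro π hπ
    rw [mem_filter] at hπ
    obtain ⟨_, hp, X, hX, hXm⟩ := hπ
    obtain ⟨e, f, α, h1, h2, h3, h4⟩ := exists_residues R k D W hW1 π hp
    rw [mem_biUnion]
    refine ⟨α, ?_, ?_⟩
    · rw [h𝒜, mem_filter]
      refine ⟨mem_univ _, ?_⟩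
      -- the classes
      have hcard : Fintype.card (univ.image (π ∘ X)) ≤ Fintype.card (Fin m) := by
        rw [Fintype.card_coe, Fintype.card_fin]
        exact hXm
      obtain ⟨ι⟩ := Function.Embedding.nonempty_of_card_le hcard
      let σ : Fin (D + 1) → Fin m := fun j => ι ⟨π (X j), mem_image_of_mem (π ∘ X) (mem_univ j)⟩
      have hσ : ∀ j j', σ j = σ j' → π (X j) = π (X j') := by
        intro j j' h
        have := ι.injective h
        exact congrArg Subtype.val this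
      let u : Fin m → ZMod W := fun s =>
        if h : ∃ j, σ j = s then ((nz D (exz α) (X h.choose) : ℤ) : ZMod W) else 0
      have hb : ∀ j, ∃ b : Fin (2 * (3 * c) + 1), ∑ i : Fin (D + 1), (((X j : ℕ).choose i : ℕ) : ZMod W) * α i =
          u (σ j) + (((b : ℕ) : ZMod W) - ((3 * c : ℕ) : ZMod W)) := by
        intro j
        have hj : ∃ j', σ j' = σ j := ⟨j, rfl⟩
        have hpi : π (X hj.choose) = π (X j) := hσ _ _ hj.choose_spec
        rw [h1, h1] at hpi
        obtain ⟨b, hb⟩ := close R k D W hW1 hW2 e f α h2 h3 h4 (X j) (X hj.choose) hpi.symm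
        refine ⟨⟨b, by have := b.2; omega⟩, ?_⟩
        have hu : u (σ j) = ((nz D (exz α) (X hj.choose) : ℤ) : ZMod W) := by
          simp only [u]
          rw [dif_pos hj]
        rw [hu, ← nz_cast, hb]
      choose b hb using hb
      exact ⟨X, σ, u, b, hX, hb⟩
    · rw [mem_image]
      refine ⟨univ.filter (fun t => thr R k D W α t ≤ newt D f t), ?_, ?_⟩
      · rw [mem_filter]
        exact ⟨mem_univ _, f, fun t => by simp⟩
      · funext t
        rw [h1 t]
        exact (pat_eq R k D W hW1 e f α h2 h3 h4 _ (fun t => by simp) t).symm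
  calc _ ≤ (𝒜.biUnion (fun α => (univ.filter (fun S : Finset (Fin k) =>
        ∃ e : ℕ → ℝ, ∀ t, t ∈ S ↔ thr R k D W α t ≤ newt D e t)).image (patOf R k D W α))).card :=
        card_le_card hsub
    _ ≤ ∑ α ∈ 𝒜, ((univ.filter (fun S : Finset (Fin k) =>
        ∃ e : ℕ → ℝ, ∀ t, t ∈ S ↔ thr R k D W α t ≤ newt D e t)).image (patOf R k D W α)).card :=
        card_biUnion_le
    _ ≤ ∑ α ∈ 𝒜, (k + 1) ^ (D + 1) := by
        refine sum_le_sum fun α _ => card_image_le.trans ?_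
        exact threshold_count k D (thr R k D W α)
    _ = 𝒜.card * (k + 1) ^ (D + 1) := by simp
    _ ≤ (k ^ (D + 1) * m ^ (D + 1) * W ^ m * (2 * (3 * c) + 1) ^ (D + 1)) * (k + 1) ^ (D + 1) :=
        Nat.mul_le_mul_right _ hA
    _ ≤ R ^ m * EE k D := size_bound R k D m hk hm W hW2

end Vale.Agent.VdW
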