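import Vale.Agent.VdW.Defs

/-!
# P053, PART D: divided differences
-/

namespace Vale.Agent.VdW

open Finset

/-- the product of the differences -/
def dd {k : ℕ} (s : Finset (Fin k)) : ℕ :=
  ∏ x ∈ (s ×ˢ s).filter (fun x => x.1 < x.2), ((x.2 : ℕ) - (x.1 : ℕ))

theorem dd_pos {k : ℕ} (s : Finset (Fin k)) : 1 ≤ dd s := by
  unfold dd
  apply Nat.one_le_iff_ne_zero.mpr
  rw [Finset.prod_ne_zero_iff]
  intro x hx
  have := (Finset.mem_filter.mp hx).2
  have : (x.1 : ℕ) < x.2 := this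
  omega

theorem dd_prime {k : ℕ} (s : Finset (Fin k)) (q : ℕ) (hq : q.Prime) (h : q ∣ dd s) : q < k := by
  unfold dd at h
  rw [hq.prime.dvd_finsetProd_iff] at h
  obtain ⟨x, hx, hqx⟩ := h
  have := (Finset.mem_filter.mp hx).2
  have h1 : (x.1 : ℕ) < x.2 := this
  have h2 := Nat.le_of_dvd (by omega) hqx
  have h3 := x.2.isLt
  omega

theorem dd_le {k i : ℕ} (s : Finset (Fin k)) (hs : s.card = i + 1) : dd s ≤ k ^ (i * i) := by
  have hne : s.Nonempty := Finset.card_pos.mp (by omega)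
  have hk : 1 ≤ k := by
    obtain ⟨x, _⟩ := hne
    have := x.isLt
    omega
  have hsub : (s ×ˢ s).filter (fun x => x.1 < x.2) ⊆
      (s.erase (s.max' hne)) ×ˢ (s.erase (s.min' hne)) := by
    intro x hx
    rw [Finset.mem_filter, Finset.mem_product] at hx
    obtain ⟨⟨h1, h2⟩, h3⟩ := hx
    rw [Finset.mem_product, Finset.mem_erase, Finset.mem_erase]
    refine ⟨⟨?_, h1⟩, ⟨?_, h2⟩⟩
    · intro h
      have := s.le_max' x.2 h2
      rw [← h] at this
      exact absurd h3 (not_lt.mpr this)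
    · intro h
      have := s.min'_le x.1 h1
      rw [← h] at this
      exact absurd h3 (not_lt.mpr this)
  have hcard : ((s ×ˢ s).filter (fun x => x.1 < x.2)).card ≤ i * i := by
    refine (Finset.card_le_card hsub).trans ?_
    rw [Finset.card_product, Finset.card_erase_of_mem (s.max'_mem hne),
      Finset.card_erase_of_mem (s.min'_mem hne), hs]
    simp
  calc dd s ≤ ∏ x ∈ (s ×ˢ s).filter (fun x => x.1 < x.2), k := by
        unfold dd
        apply Finset.prod_le_prod'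
        intro x _
        have h3 := x.2.isLt
        omega
    _ = k ^ ((s ×ˢ s).filter (fun x => x.1 < x.2)).card := by rw [Finset.prod_const]
    _ ≤ k ^ (i * i) := Nat.pow_le_pow_right hk hcard

theorem dvd_dd {k : ℕ} (s : Finset (Fin k)) (a : Fin k) (ha : a ∈ s) :
    (∏ b ∈ s.erase a, (((a : ℕ) : ℤ) - ((b : ℕ) : ℤ))) ∣ (dd s : ℤ) := by
  have h1 : (∏ b ∈ s.erase a, (((max a b : Fin k) : ℕ) - ((min a b : Fin k) : ℕ))) ∣ dd s := by
    have hinj : Set.InjOn (fun b : Fin k => (min a b, max a b)) (s.erase a : Finset (Fin k)) := by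
      intro b _ c _ hbc
      simp only [Prod.mk.injEq] at hbc
      obtain ⟨h1, h2⟩ := hbc
      rcases le_total a b with hab | hab
      · rcases le_total a c with hac | hac
        · rw [max_eq_right hab, max_eq_right hac] at h2
          exact h2
        · rw [min_eq_left hab, min_eq_right hac] at h1
          rw [max_eq_right hab, max_eq_left hac] at h2
          rw [h2, h1]
      · rcases le_total a c with hac | hac
        · rw [min_eq_right hab, min_eq_left hac] at h1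
          rw [max_eq_left hab, max_eq_right hac] at h2
          rw [h1, h2]
        · rw [min_eq_right hab, min_eq_right hac] at h1
          exact h1
    have h2 : (∏ b ∈ s.erase a, (((max a b : Fin k) : ℕ) - ((min a b : Fin k) : ℕ))) =
        ∏ x ∈ (s.erase a).image (fun b : Fin k => (min a b, max a b)),
          ((x.2 : ℕ) - (x.1 : ℕ)) := by
      rw [Finset.prod_image hinj]
    rw [h2]
    unfold dd
    apply Finset.prod_dvd_prod_of_subset
    intro x hx
    rw [Finset.mem_image] at hx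
    obtain ⟨b, hb, rfl⟩ := hx
    rw [Finset.mem_erase] at hb
    rw [Finset.mem_filter, Finset.mem_product]
    refine ⟨⟨?_, ?_⟩, ?_⟩
    · rcases le_total a b with hab | hab
      · simp only [min_eq_left hab]; exact ha
      · simp only [min_eq_right hab]; exact hb.2
    · rcases le_total a b with hab | hab
      · simp only [max_eq_right hab]; exact hb.2
      · simp only [max_eq_left hab]; exact ha
    · simp only
      rw [min_lt_max]
      exact fun h => hb.1 h.symm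
  have h3 : (∏ b ∈ s.erase a, (((a : ℕ) : ℤ) - ((b : ℕ) : ℤ))).natAbs =
      ∏ b ∈ s.erase a, (((max a b : Fin k) : ℕ) - ((min a b : Fin k) : ℕ)) := by
    rw [← Int.natAbsHom_apply, map_prod]
    apply Finset.prod_congr rfl
    intro b _
    rw [Int.natAbsHom_apply]
    rcases le_total a b with hab | hab
    · rw [max_eq_right hab, min_eq_left hab]
      have : (a : ℕ) ≤ b := hab
      omega
    · rw [max_eq_left hab, min_eq_right hab]
      have : (b : ℕ) ≤ a := hab
      omega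
  rw [← Int.natAbs_dvd, h3]
  exact_mod_cast h1

/-- PART D (divided differences).  If `i + 1` points `x_j < k` are in one cell then
`p(x_j) = n_j + z/R + ε_j/R`, `n_j ∈ ℤ`, `0 ≤ ε_j < 1`; with `L = ∏_{j<l} |x_l - x_j|` and
`λ_j = L / ∏_{l ≠ j} (x_j - x_l) ∈ ℤ`, `|λ_j| ≤ L ≤ k^(i*i)`: `∑ λ_j p(x_j) = L * p.coeff i`,
`∑ λ_j = 0`, so `L * p.coeff i` is within `(i+1) k^(i*i) / R` of an integer. -/
theorem fibre_le (R k i : ℕ) (hR : 1 ≤ R) (hi : 1 ≤ i) (p : Polynomial ℝ) (hp : p.natDegree ≤ i)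
    (hnd : ∀ L : ℕ, 1 ≤ L → L ≤ k ^ (i * i) → (∀ q : ℕ, q.Prime → q ∣ L → q < k) → ∀ z : ℤ,
      ((i : ℝ) + 1) * (k : ℝ) ^ (i * i) < R * |(L : ℝ) * p.coeff i - z|) (c : ZMod R) :
    (univ.filter (fun t : Fin k => cell R (p.eval ((t : ℕ) : ℝ)) = c)).card ≤ i := by
  by_contra hcon
  push Not at hcon
  obtain ⟨s, hsub, hs⟩ := Finset.exists_subset_card_eq (Nat.succ_le_of_lt hcon)
  have hs' : s.card = i + 1 := hs
  have hne : s.Nonempty := Finset.card_pos.mp (by omega)
  obtain ⟨a0, ha0⟩ := hne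
  have hcell : ∀ a ∈ s, cell R (p.eval ((a : ℕ) : ℝ)) = c := by
    intro a ha
    exact (Finset.mem_filter.mp (hsub ha)).2
  -- integer weights
  have hex : ∀ a : Fin k, ∃ lam : ℤ, a ∈ s →
      (dd s : ℤ) = (∏ b ∈ s.erase a, (((a : ℕ) : ℤ) - ((b : ℕ) : ℤ))) * lam := by
    intro a
    by_cases ha : a ∈ s
    · obtain ⟨l, hl⟩ := dvd_dd s a ha
      exact ⟨l, fun _ => hl⟩
    · exact ⟨0, fun h => absurd h ha⟩
  choose lam hlam using hex
  have hw : ∀ a ∈ s, (∏ b ∈ s.erase a, (((a : ℕ) : ℤ) - ((b : ℕ) : ℤ))) ≠ 0 := by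
    intro a ha
    rw [Finset.prod_ne_zero_iff]
    intro b hb h
    rw [Finset.mem_erase] at hb
    apply hb.1
    apply Fin.ext
    omega
  have hlam_le : ∀ a ∈ s, |lam a| ≤ (dd s : ℤ) := by
    intro a ha
    have h1 := hlam a ha
    have h2 : |(dd s : ℤ)| = |∏ b ∈ s.erase a, (((a : ℕ) : ℤ) - ((b : ℕ) : ℤ))| * |lam a| := by
      rw [h1, abs_mul]
    have h3 : (1 : ℤ) ≤ |∏ b ∈ s.erase a, (((a : ℕ) : ℤ) - ((b : ℕ) : ℤ))| :=
      Int.one_le_abs (hw a ha)
    rw [abs_of_nonneg (by positivity)] at h2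
    nlinarith [abs_nonneg (lam a)]
  have hinj : Set.InjOn (fun a : Fin k => ((a : ℕ) : ℝ)) (s : Set (Fin k)) := by
    intro a _ b _ hab
    simp only at hab
    apply Fin.ext
    exact_mod_cast hab
  -- key identity for polynomials of degree ≤ i
  have key : ∀ P : Polynomial ℝ, P.natDegree ≤ i →
      (dd s : ℝ) * P.coeff i = ∑ a ∈ s, (lam a : ℝ) * P.eval ((a : ℕ) : ℝ) := by
    intro P hP
    have hdeg : P.degree < (s.card : WithBot ℕ) := by
      rw [hs']
      refine lt_of_le_of_lt Polynomial.degree_le_natDegree ?_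
      exact_mod_cast Nat.lt_succ_of_le hP
    have h1 := Lagrange.coeff_eq_sum (v := fun a : Fin k => ((a : ℕ) : ℝ)) hinj hdeg
    rw [hs', Nat.add_sub_cancel] at h1
    rw [h1, Finset.mul_sum]
    apply Finset.sum_congr rfl
    intro a ha
    have h2 : (dd s : ℝ) = (∏ b ∈ s.erase a, (((a : ℕ) : ℝ) - ((b : ℕ) : ℝ))) * (lam a : ℝ) := by
      have := hlam a ha
      have h3 : ((dd s : ℤ) : ℝ) =
          (((∏ b ∈ s.erase a, (((a : ℕ) : ℤ) - ((b : ℕ) : ℤ))) * lam a : ℤ) : ℝ) := by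
        rw [this]
      push_cast at h3
      exact h3
    have h4 : (∏ b ∈ s.erase a, (((a : ℕ) : ℝ) - ((b : ℕ) : ℝ))) ≠ 0 := by
      have := hw a ha
      have h5 : ((∏ b ∈ s.erase a, (((a : ℕ) : ℤ) - ((b : ℕ) : ℤ)) : ℤ) : ℝ) ≠ 0 := by
        exact_mod_cast this
      push_cast at h5
      exact h5
    rw [h2]
    field_simp
  have hsum0 : ∑ a ∈ s, (lam a : ℝ) = 0 := by
    have h1 := key 1 (by simp)
    simp only [Polynomial.eval_one, mul_one] at h1
    rw [← h1, Polynomial.coeff_one]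
    rw [if_neg (by omega)]
    simp
  -- the decomposition
  have hR0 : (0 : ℝ) < R := by exact_mod_cast hR
  have hdec : ∀ a : Fin k, ∃ n : ℤ, a ∈ s →
      ⌊(R : ℝ) * p.eval ((a : ℕ) : ℝ)⌋ = ⌊(R : ℝ) * p.eval ((a0 : ℕ) : ℝ)⌋ + R * n := by
    intro a
    by_cases ha : a ∈ s
    · have h1 := hcell a ha
      rw [← hcell a0 ha0] at h1
      unfold cell at h1
      rw [eq_comm, ZMod.intCast_eq_intCast_iff] at h1
      obtain ⟨n, hn⟩ := h1.dvd
      exact ⟨n, fun _ => by linarith⟩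
    · exact ⟨0, fun h => absurd h ha⟩
  choose n hn using hdec
  set z0 : ℤ := ⌊(R : ℝ) * p.eval ((a0 : ℕ) : ℝ)⌋ with hz0
  have hRp : ∀ a ∈ s, (R : ℝ) * p.eval ((a : ℕ) : ℝ) =
      z0 + R * n a + Int.fract ((R : ℝ) * p.eval ((a : ℕ) : ℝ)) := by
    intro a ha
    have h1 := Int.floor_add_fract ((R : ℝ) * p.eval ((a : ℕ) : ℝ))
    rw [hn a ha] at h1
    push_cast at h1
    linarith
  have hmain := key p hp
  have hident : (R : ℝ) * ((dd s : ℝ) * p.coeff i - ((∑ a ∈ s, lam a * n a : ℤ) : ℝ)) =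
      ∑ a ∈ s, (lam a : ℝ) * Int.fract ((R : ℝ) * p.eval ((a : ℕ) : ℝ)) := by
    have h1 : (R : ℝ) * ((dd s : ℝ) * p.coeff i) =
        ∑ a ∈ s, (lam a : ℝ) * (z0 + R * n a + Int.fract ((R : ℝ) * p.eval ((a : ℕ) : ℝ))) := by
      rw [hmain, Finset.mul_sum]
      apply Finset.sum_congr rfl
      intro a ha
      rw [← hRp a ha]
      ring
    have h2 : ∑ a ∈ s, (lam a : ℝ) * (z0 + R * n a + Int.fract ((R : ℝ) * p.eval ((a : ℕ) : ℝ))) =
        (∑ a ∈ s, (lam a : ℝ)) * z0 + R * ∑ a ∈ s, (lam a : ℝ) * n a +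
          ∑ a ∈ s, (lam a : ℝ) * Int.fract ((R : ℝ) * p.eval ((a : ℕ) : ℝ)) := by
      rw [Finset.sum_mul, Finset.mul_sum, ← Finset.sum_add_distrib, ← Finset.sum_add_distrib]
      apply Finset.sum_congr rfl
      intro a _
      ring
    rw [hsum0] at h2
    push_cast
    rw [mul_sub, h1, h2]
    ring
  have hbound : |∑ a ∈ s, (lam a : ℝ) * Int.fract ((R : ℝ) * p.eval ((a : ℕ) : ℝ))| ≤
      ((i : ℝ) + 1) * (k : ℝ) ^ (i * i) := by
    calc |∑ a ∈ s, (lam a : ℝ) * Int.fract ((R : ℝ) * p.eval ((a : ℕ) : ℝ))|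
        ≤ ∑ a ∈ s, |(lam a : ℝ) * Int.fract ((R : ℝ) * p.eval ((a : ℕ) : ℝ))| :=
          Finset.abs_sum_le_sum_abs _ _
      _ ≤ ∑ a ∈ s, (k : ℝ) ^ (i * i) := by
          apply Finset.sum_le_sum
          intro a ha
          rw [abs_mul]
          have h1 : |(lam a : ℝ)| ≤ (k : ℝ) ^ (i * i) := by
            have h2 := hlam_le a ha
            have h3 : |(lam a : ℝ)| ≤ (dd s : ℝ) := by
              have : ((|lam a| : ℤ) : ℝ) ≤ ((dd s : ℤ) : ℝ) := by exact_mod_cast h2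
              push_cast at this
              exact this
            have h4 : (dd s : ℝ) ≤ (k : ℝ) ^ (i * i) := by
              exact_mod_cast dd_le s hs'
            linarith
          have h5 : |Int.fract ((R : ℝ) * p.eval ((a : ℕ) : ℝ))| ≤ 1 := by
            rw [abs_of_nonneg (Int.fract_nonneg _)]
            exact (Int.fract_lt_one _).le
          calc |(lam a : ℝ)| * |Int.fract ((R : ℝ) * p.eval ((a : ℕ) : ℝ))|
              ≤ (k : ℝ) ^ (i * i) * 1 := mul_le_mul h1 h5 (abs_nonneg _) (by positivity)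
            _ = _ := mul_one _
      _ = ((i : ℝ) + 1) * (k : ℝ) ^ (i * i) := by
          rw [Finset.sum_const, hs', nsmul_eq_mul]
          push_cast
          ring
  have hfin := hnd (dd s) (dd_pos s) (dd_le s hs') (fun q hq h => dd_prime s q hq h)
    (∑ a ∈ s, lam a * n a)
  have h9 : (R : ℝ) * |(dd s : ℝ) * p.coeff i - ((∑ a ∈ s, lam a * n a : ℤ) : ℝ)| =
      |(R : ℝ) * ((dd s : ℝ) * p.coeff i - ((∑ a ∈ s, lam a * n a : ℤ) : ℝ))| := by
    rw [abs_mul, abs_of_pos hR0]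
  rw [h9, hident] at hfin
  linarith

end Vale.Agent.VdW
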