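import Vale.Agent.VdW.Defs

/-!
# P053, PART E: choice of the multiplier
-/

namespace Vale.Agent.VdW

open Finset

open Classical in
/-- the bad multipliers for the class `κ` -/
noncomputable def badM (M : ℕ) (δ : ℝ) (κ : ℕ) : Finset ℕ :=
  (range M).filter (fun c => c.Coprime M ∧ ∃ b : ℤ, |(b : ℝ)| ≤ δ * M ∧
    (M : ℤ) ∣ (c : ℤ) * (κ : ℤ) - b)

theorem badM_card (M : ℕ) (hM : 1 ≤ M) (δ : ℝ) (hδ : 0 ≤ δ) (κ : ℕ) (hκ : ¬ M ∣ κ) :
    ((badM M δ κ).card : ℝ) ≤ 2 * δ * M := by
  classical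
  set g : ℕ := Nat.gcd κ M with hg
  have hg0 : 0 < g := Nat.gcd_pos_of_pos_right _ hM
  obtain ⟨m, hm⟩ : g ∣ M := Nat.gcd_dvd_right _ _
  obtain ⟨κ', hκ'⟩ : g ∣ κ := Nat.gcd_dvd_left _ _
  have hm0 : 0 < m := by
    rcases Nat.eq_zero_or_pos m with h | h
    · rw [h] at hm; omega
    · exact h
  have hcop : Nat.Coprime κ' m := by
    have h1 : Nat.gcd (g * κ') (g * m) = g := by rw [← hκ', ← hm]
    rw [Nat.gcd_mul_left] at h1
    have : g * Nat.gcd κ' m = g * 1 := by rw [h1, mul_one]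
    exact Nat.eq_of_mul_eq_mul_left hg0 this
  set B : ℤ := ⌊δ * M / g⌋ with hB
  have hB0 : 0 ≤ B := Int.floor_nonneg.mpr (by positivity)
  -- choose b
  have hex : ∀ c : ℕ, ∃ b : ℤ, c ∈ badM M δ κ →
      (b ≠ 0 ∧ |b| ≤ B ∧ (M : ℤ) ∣ (c : ℤ) * (κ : ℤ) - g * b) := by
    intro c
    by_cases hc : c ∈ badM M δ κ
    · unfold badM at hc
      obtain ⟨hcr, hcc, b, hb1, hb2⟩ := Finset.mem_filter.mp hc
      have hgb : (g : ℤ) ∣ b := by
        have h1 : (g : ℤ) ∣ (c : ℤ) * (κ : ℤ) - b :=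
          dvd_trans (by exact_mod_cast (Nat.gcd_dvd_right κ M)) hb2
        have h2 : (g : ℤ) ∣ (c : ℤ) * (κ : ℤ) :=
          dvd_mul_of_dvd_right (by exact_mod_cast (Nat.gcd_dvd_left κ M)) _
        have h3 := dvd_sub h2 h1
        simpa using h3
      obtain ⟨b', hb'⟩ := hgb
      refine ⟨b', fun _ => ⟨?_, ?_, ?_⟩⟩
      · rintro rfl
        rw [hb', mul_zero, sub_zero] at hb2
        have h4 : M ∣ c * κ := by exact_mod_cast hb2
        exact hκ ((Nat.Coprime.dvd_of_dvd_mul_left hcc.symm) h4)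
      · rw [hB, Int.le_floor]
        rw [le_div_iff₀ (by exact_mod_cast hg0)]
        rw [hb'] at hb1
        push_cast at hb1 ⊢
        rw [abs_mul, abs_of_nonneg (by positivity : (0 : ℝ) ≤ (g : ℝ))] at hb1
        linarith
      · rw [← hb']; exact hb2
    · exact ⟨0, fun h => absurd h hc⟩
  choose b hb using hex
  have hcard : (badM M δ κ).card ≤ (((Icc (-B) B).erase 0) ×ˢ (range g)).card := by
    apply Finset.card_le_card_of_injOn (fun c => (b c, c / m))
    · intro c hc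
      rw [Finset.mem_coe] at hc
      obtain ⟨h1, h2, h3⟩ := hb c hc
      rw [Finset.mem_coe, Finset.mem_product, Finset.mem_erase, Finset.mem_Icc, Finset.mem_range]
      refine ⟨⟨h1, abs_le.mp h2⟩, ?_⟩
      have hcr : c < M := by
        unfold badM at hc
        exact Finset.mem_range.mp (Finset.mem_filter.mp hc).1
      rw [Nat.div_lt_iff_lt_mul hm0, ← hm]
      exact hcr
    · intro c hc c' hc' hcc
      rw [Finset.mem_coe] at hc hc'
      simp only [Prod.mk.injEq] at hcc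
      obtain ⟨h1, h2⟩ := hcc
      obtain ⟨-, -, h3⟩ := hb c hc
      obtain ⟨-, -, h3'⟩ := hb c' hc'
      rw [h1] at h3
      have h4 : (M : ℤ) ∣ ((c : ℤ) - c') * κ := by
        have := dvd_sub h3 h3'
        have e : (c : ℤ) * κ - g * b c' - ((c' : ℤ) * κ - g * b c') = ((c : ℤ) - c') * κ := by ring
        rwa [e] at this
      rw [hm, hκ'] at h4
      push_cast at h4
      have h5 : (g : ℤ) * m ∣ g * (((c : ℤ) - c') * κ') := by
        have e : ((c : ℤ) - c') * ((g : ℤ) * κ') = g * (((c : ℤ) - c') * κ') := by ring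
        rwa [e] at h4
      have h6 : (m : ℤ) ∣ ((c : ℤ) - c') * κ' :=
        Int.dvd_of_mul_dvd_mul_left (by exact_mod_cast hg0.ne') h5
      have h7 : (m : ℤ) ∣ ((c : ℤ) - c') := by
        have hc2 : IsCoprime (m : ℤ) (κ' : ℤ) := Nat.isCoprime_iff_coprime.mpr hcop.symm
        exact hc2.dvd_of_dvd_mul_right h6
      have h8 : c ≡ c' [MOD m] := by
        rw [← Int.natCast_modEq_iff]
        exact (Int.modEq_iff_dvd.mpr h7).symm
      have h9 := Nat.div_add_mod c m
      have h10 := Nat.div_add_mod c' m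
      rw [h2, h8] at h9
      omega
  have hcard2 : (((Icc (-B) B).erase 0) ×ˢ (range g)).card = (2 * B).toNat * g := by
    rw [Finset.card_product, Finset.card_range, Finset.card_erase_of_mem
      (Finset.mem_Icc.mpr ⟨by omega, hB0⟩), Int.card_Icc]
    congr 1
    omega
  rw [hcard2] at hcard
  have h1 : ((badM M δ κ).card : ℝ) ≤ (((2 * B).toNat * g : ℕ) : ℝ) := by exact_mod_cast hcard
  have h2 : (((2 * B).toNat : ℕ) : ℝ) = 2 * B := by
    have : (((2 * B).toNat : ℤ)) = 2 * B := Int.toNat_of_nonneg (by omega)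
    have h3 : ((((2 * B).toNat : ℤ)) : ℝ) = ((2 * B : ℤ) : ℝ) := by rw [this]
    push_cast at h3
    exact h3
  push_cast at h1
  rw [h2] at h1
  have hgr : (0 : ℝ) < g := by exact_mod_cast hg0
  have h3 : (B : ℝ) ≤ δ * M / g := Int.floor_le _
  rw [le_div_iff₀ hgr] at h3
  nlinarith

theorem noncoprime_card (M : ℕ) (hM : 1 ≤ M) :
    (((range M).filter (fun c => ¬ c.Coprime M)).card : ℝ) ≤
      ∑ p ∈ M.primeFactors, (1 : ℝ) / p * M := by
  have hsub : (range M).filter (fun c => ¬ c.Coprime M) ⊆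
      M.primeFactors.biUnion (fun p => (range M).filter (fun c => p ∣ c)) := by
    intro c hc
    obtain ⟨h1, h2⟩ := Finset.mem_filter.mp hc
    obtain ⟨p, hp, hpc, hpM⟩ := Nat.Prime.not_coprime_iff_dvd.mp h2
    rw [Finset.mem_biUnion]
    exact ⟨p, Nat.mem_primeFactors.mpr ⟨hp, hpM, by omega⟩, Finset.mem_filter.mpr ⟨h1, hpc⟩⟩
  have h1 : ((range M).filter (fun c => ¬ c.Coprime M)).card ≤
      ∑ p ∈ M.primeFactors, ((range M).filter (fun c => p ∣ c)).card :=
    (Finset.card_le_card hsub).trans Finset.card_biUnion_le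
  calc (((range M).filter (fun c => ¬ c.Coprime M)).card : ℝ)
      ≤ ((∑ p ∈ M.primeFactors, ((range M).filter (fun c => p ∣ c)).card : ℕ) : ℝ) := by
        exact_mod_cast h1
    _ = ∑ p ∈ M.primeFactors, (((range M).filter (fun c => p ∣ c)).card : ℝ) := by push_cast; rfl
    _ ≤ ∑ p ∈ M.primeFactors, (1 : ℝ) / p * M := by
        apply Finset.sum_le_sum
        intro p hp
        obtain ⟨hp1, hpM, _⟩ := Nat.mem_primeFactors.mp hp
        obtain ⟨m, hm⟩ := hpM
        have hsub2 : (range M).filter (fun c => p ∣ c) ⊆ (range m).image (fun j => p * j) := by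
          intro c hc
          obtain ⟨h1, j, hj⟩ := Finset.mem_filter.mp hc
          rw [Finset.mem_range] at h1
          rw [Finset.mem_image]
          refine ⟨j, ?_, hj.symm⟩
          rw [Finset.mem_range]
          rw [hj, hm] at h1
          exact lt_of_mul_lt_mul_left h1 (Nat.zero_le _)
        have h2 : ((range M).filter (fun c => p ∣ c)).card ≤ m := by
          refine (Finset.card_le_card hsub2).trans (Finset.card_image_le.trans ?_)
          rw [Finset.card_range]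
        have h3 : (1 : ℝ) / p * M = m := by
          rw [hm]
          push_cast
          have : (p : ℝ) ≠ 0 := by exact_mod_cast hp1.ne_zero
          field_simp
        rw [h3]
        exact_mod_cast h2

/-- PART E (choice of the multiplier).  Count the `c ∈ ZMod M`: at most `M/4` non-units, and for each
of the at most `H * pc M i` non-zero classes `κ = h * d^i` at most `2 δ M` elements `c` with
`c κ ∈ {b : 1 ≤ |b| ≤ δ M}` (for a unit `c`, `c κ ≠ 0`; the fibres of `c ↦ c κ` have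
`gcd (κ, M)` elements and the image consists of the multiples of `gcd (κ, M)`). -/
theorem exists_multiplier (M i H : ℕ) [NeZero M] (hM : Squarefree M) (hi : 1 ≤ i) (δ : ℝ)
    (hδ : 0 ≤ δ) (hinv : ∑ p ∈ M.primeFactors, (1 : ℝ) / p ≤ 1 / 4)
    (h4 : 4 * (H : ℝ) * (pc M i : ℝ) * δ ≤ 1) :
    ∃ c : ℕ, ∀ h : ℕ, 1 ≤ h → h ≤ H → h.Coprime M → ∀ d : ℕ, ¬ M ∣ d → ∀ z : ℤ,
      δ < |(h : ℝ) * ((c : ℝ) * (d : ℝ) ^ i / M) - z| := by
  classical
  have hM1 : 1 ≤ M := Nat.one_le_iff_ne_zero.mpr (NeZero.ne M)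
  have hM0 : (0 : ℝ) < M := by exact_mod_cast hM1
  set K : Finset (ℕ × ZMod M) := ((Icc 1 H) ×ˢ (univ.image (fun x : ZMod M => x ^ i))).filter
    (fun x => ¬ M ∣ x.1 * x.2.val) with hK
  set Bad : Finset ℕ := (range M).filter (fun c => ¬ c.Coprime M) ∪
    K.biUnion (fun x => badM M δ (x.1 * x.2.val)) with hBad
  have hKcard : (K.card : ℝ) ≤ H * pc M i := by
    have h1 : K.card ≤ H * pc M i := by
      refine (Finset.card_filter_le _ _).trans ?_
      rw [Finset.card_product, Nat.card_Icc, Nat.add_sub_cancel]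
      exact le_refl _
    exact_mod_cast h1
  have hbad : (Bad.card : ℝ) < M := by
    have h1 : Bad.card ≤ ((range M).filter (fun c => ¬ c.Coprime M)).card +
        ∑ x ∈ K, (badM M δ (x.1 * x.2.val)).card :=
      (Finset.card_union_le _ _).trans (Nat.add_le_add_left Finset.card_biUnion_le _)
    have h2 : (Bad.card : ℝ) ≤ (((range M).filter (fun c => ¬ c.Coprime M)).card : ℝ) +
        ∑ x ∈ K, ((badM M δ (x.1 * x.2.val)).card : ℝ) := by exact_mod_cast h1
    have h3 : ∑ x ∈ K, ((badM M δ (x.1 * x.2.val)).card : ℝ) ≤ ∑ x ∈ K, 2 * δ * M := by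
      apply Finset.sum_le_sum
      intro x hx
      exact badM_card M hM1 δ hδ _ (Finset.mem_filter.mp hx).2
    rw [Finset.sum_const, nsmul_eq_mul] at h3
    have h5 : (K.card : ℝ) * (2 * δ * M) ≤ (H * pc M i) * (2 * δ * M) :=
      mul_le_mul_of_nonneg_right hKcard (by positivity)
    have h6 : ((H : ℝ) * pc M i) * (2 * δ * M) ≤ M / 2 := by
      nlinarith
    have h7 := noncoprime_card M hM1
    rw [← Finset.sum_mul] at h7
    have h8 : (∑ p ∈ M.primeFactors, (1 : ℝ) / p) * M ≤ 1 / 4 * M :=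
      mul_le_mul_of_nonneg_right hinv hM0.le
    linarith
  have hex : ∃ c ∈ range M, c ∉ Bad := by
    by_contra hcon
    push Not at hcon
    have h1 : (range M).card ≤ Bad.card := Finset.card_le_card hcon
    rw [Finset.card_range] at h1
    have h2 : (M : ℝ) ≤ Bad.card := by exact_mod_cast h1
    linarith
  obtain ⟨c, hcr, hcB⟩ := hex
  refine ⟨c, ?_⟩
  intro h hh1 hhH hhM d hd z
  by_contra hcon
  rw [not_lt] at hcon
  apply hcB
  rw [hBad, Finset.mem_union]
  by_cases hcc : c.Coprime M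
  swap
  · left
    exact Finset.mem_filter.mpr ⟨hcr, hcc⟩
  right
  rw [Finset.mem_biUnion]
  have hval : (((d : ZMod M) ^ i).val : ℤ) ≡ (d : ℤ) ^ i [ZMOD M] := by
    have h1 : ((((d : ZMod M) ^ i).val : ℤ) : ZMod M) = (((d : ℤ) ^ i : ℤ) : ZMod M) := by
      push_cast
      rw [ZMod.natCast_val, ZMod.cast_id', id]
    exact (ZMod.intCast_eq_intCast_iff _ _ _).mp h1
  refine ⟨(h, (d : ZMod M) ^ i), ?_, ?_⟩
  · rw [hK, Finset.mem_filter, Finset.mem_product]
    refine ⟨⟨Finset.mem_Icc.mpr ⟨hh1, hhH⟩, Finset.mem_image_of_mem _ (Finset.mem_univ _)⟩, ?_⟩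
    simp only
    intro hdvd
    have h1 : M ∣ ((d : ZMod M) ^ i).val := Nat.Coprime.dvd_of_dvd_mul_left hhM.symm hdvd
    have h2 : (M : ℤ) ∣ (d : ℤ) ^ i := by
      have h3 : (M : ℤ) ∣ (((d : ZMod M) ^ i).val : ℤ) := by exact_mod_cast h1
      exact (Int.ModEq.dvd_iff hval).mp h3
    have h3 : M ∣ d ^ i := by exact_mod_cast h2
    exact hd ((hM.dvd_pow_iff_dvd (by omega)).mp h3)
  · unfold badM
    rw [Finset.mem_filter]
    refine ⟨hcr, hcc, (h : ℤ) * c * (d : ℤ) ^ i - z * M, ?_, ?_⟩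
    · push_cast
      have h1 : (h : ℝ) * c * (d : ℝ) ^ i - z * M =
          ((h : ℝ) * ((c : ℝ) * (d : ℝ) ^ i / M) - z) * M := by
        field_simp
      rw [h1, abs_mul, abs_of_pos hM0]
      exact mul_le_mul_of_nonneg_right hcon hM0.le
    · have h1 := hval.dvd
      obtain ⟨w, hw⟩ := h1
      refine ⟨z - c * h * w, ?_⟩
      push_cast
      have h2 : (((d : ZMod M) ^ i).val : ℤ) = (d : ℤ) ^ i - M * w := by linarith
      rw [h2]
      ring

end Vale.Agent.VdW
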