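import Vale.Agent.VdW.Defs

/-!
# P053, PART F: power classes
-/

namespace Vale.Agent.VdW

open Finset

theorem pc_congr {M N : ℕ} (i : ℕ) (h : M = N) [NeZero M] [NeZero N] : pc M i = pc N i := by
  subst h
  rfl

theorem pc_mul_le (M N i : ℕ) [NeZero M] [NeZero N] [NeZero (M * N)] (h : M.Coprime N) :
    pc (M * N) i ≤ pc M i * pc N i := by
  unfold pc
  rw [← Finset.card_product]
  apply Finset.card_le_card_of_injOn (fun x => ZMod.chineseRemainder h x)
  · intro x hx
    rw [Finset.mem_coe, Finset.mem_image] at hx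
    obtain ⟨y, _, rfl⟩ := hx
    rw [Finset.mem_coe, Finset.mem_product]
    simp only [map_pow, Prod.pow_fst, Prod.pow_snd]
    exact ⟨Finset.mem_image_of_mem _ (Finset.mem_univ _),
      Finset.mem_image_of_mem _ (Finset.mem_univ _)⟩
  · exact (ZMod.chineseRemainder h).injective.injOn

theorem pc_prime (p q i : ℕ) (hp : p.Prime) (hi : 1 ≤ i) (hq : 1 ≤ q) (hqi : q ∣ i)
    (hqp : q ∣ p - 1) [NeZero p] : pc p i ≤ 1 + (p - 1) / q := by
  have : Fact p.Prime := ⟨hp⟩
  unfold pc
  have hp1 : 1 ≤ p - 1 := by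
    have := hp.two_le
    omega
  have hm : 0 < (p - 1) / q := Nat.div_pos (Nat.le_of_dvd hp1 hqp) hq
  have hsub : univ.image (fun x : ZMod p => x ^ i) ⊆
      insert 0 ((Polynomial.nthRoots ((p - 1) / q) (1 : ZMod p)).toFinset) := by
    intro y hy
    rw [Finset.mem_image] at hy
    obtain ⟨x, _, rfl⟩ := hy
    rw [Finset.mem_insert]
    by_cases hx : x = 0
    · left
      rw [hx, zero_pow (by omega)]
    · right
      rw [Multiset.mem_toFinset, Polynomial.mem_nthRoots hm]
      obtain ⟨j, rfl⟩ := hqi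
      have h1 : x ^ (q * j) ^ 1 = x ^ (q * j) := by rw [pow_one]
      have h2 : q * ((p - 1) / q) = p - 1 := Nat.mul_div_cancel' hqp
      calc (x ^ (q * j)) ^ ((p - 1) / q) = (x ^ (q * ((p - 1) / q))) ^ j := by
            rw [← pow_mul, ← pow_mul]
            congr 1
            ring
        _ = 1 := by rw [h2, ZMod.pow_card_sub_one_eq_one hx, one_pow]
  calc (univ.image (fun x : ZMod p => x ^ i)).card
      ≤ (insert 0 ((Polynomial.nthRoots ((p - 1) / q) (1 : ZMod p)).toFinset)).card :=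
        Finset.card_le_card hsub
    _ ≤ ((Polynomial.nthRoots ((p - 1) / q) (1 : ZMod p)).toFinset).card + 1 :=
        Finset.card_insert_le _ _
    _ ≤ (p - 1) / q + 1 := by
        have h1 := Multiset.toFinset_card_le (Polynomial.nthRoots ((p - 1) / q) (1 : ZMod p))
        have h2 := Polynomial.card_nthRoots ((p - 1) / q) (1 : ZMod p)
        omega
    _ = 1 + (p - 1) / q := Nat.add_comm _ _

/-- PART F (power classes).  A non-zero `i`-th power `y` in `ZMod p` satisfies `y^((p-1)/q) = 1`;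
CRT for the product. -/
theorem pc_le (S : Finset ℕ) (hS : ∀ p ∈ S, p.Prime) (q i : ℕ) (hi : 1 ≤ i) (hq : 1 ≤ q)
    (hqi : q ∣ i) (hqp : ∀ p ∈ S, q ∣ p - 1) [NeZero (∏ p ∈ S, p)] :
    pc (∏ p ∈ S, p) i ≤ ∏ p ∈ S, (1 + (p - 1) / q) := by
  have key : ∀ S : Finset ℕ, (∀ p ∈ S, p.Prime) → (∀ p ∈ S, q ∣ p - 1) →
      ∀ [NeZero (∏ p ∈ S, p)], pc (∏ p ∈ S, p) i ≤ ∏ p ∈ S, (1 + (p - 1) / q) := by
    intro S
    induction S using Finset.induction_on with
    | empty =>
      intro _ _ _
      have h1 : pc (∏ p ∈ (∅ : Finset ℕ), p) i = pc 1 i := pc_congr i (Finset.prod_empty)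
      rw [h1, Finset.prod_empty]
      unfold pc
      refine (Finset.card_le_univ _).trans ?_
      simp
    | insert a S ha ih =>
      intro h1 h2 _
      have hS' : ∀ p ∈ S, p.Prime := fun p hp => h1 p (Finset.mem_insert_of_mem hp)
      have hap : a.Prime := h1 a (Finset.mem_insert_self _ _)
      have hne : NeZero (∏ p ∈ S, p) :=
        ⟨Finset.prod_ne_zero_iff.mpr (fun p hp => (hS' p hp).ne_zero)⟩
      have hna : NeZero a := ⟨hap.ne_zero⟩
      have hnm : NeZero (a * ∏ p ∈ S, p) := ⟨Nat.mul_ne_zero hap.ne_zero hne.out⟩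
      have h3 : pc (∏ p ∈ insert a S, p) i = pc (a * ∏ p ∈ S, p) i :=
        pc_congr i (Finset.prod_insert ha)
      rw [h3, Finset.prod_insert ha]
      have hcop : a.Coprime (∏ p ∈ S, p) := by
        apply Nat.Coprime.prod_right
        intro p hp
        rw [Nat.coprime_primes hap (hS' p hp)]
        rintro rfl
        exact ha hp
      calc pc (a * ∏ p ∈ S, p) i ≤ pc a i * pc (∏ p ∈ S, p) i := pc_mul_le _ _ _ hcop
        _ ≤ (1 + (a - 1) / q) * ∏ p ∈ S, (1 + (p - 1) / q) :=
          Nat.mul_le_mul (pc_prime a q i hap hi hq hqi (h2 a (Finset.mem_insert_self _ _)))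
            (ih hS' (fun p hp => h2 p (Finset.mem_insert_of_mem hp)))
  exact key S hS hqp

end Vale.Agent.VdW
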