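import Vale.Agent.VdW.Defs

/-!
# P053, part N: a polynomial in Newton form
-/

namespace Vale.Agent.VdW

open Finset

/-- PART N: a polynomial in Newton form -/
theorem exists_newt (D : ℕ) (p : Polynomial ℝ) (hp : p.natDegree ≤ D) :
    ∃ e : ℕ → ℝ, ∀ t : ℕ, p.eval (t : ℝ) = newt D e t := by
  refine ⟨fun j => (fwdDiff (1 : ℝ))^[j] (fun x => p.eval x) 0, fun t => ?_⟩
  have h1 := shift_eq_sum_fwdDiff_iter (h := (1 : ℝ)) (fun x : ℝ => p.eval x) t 0
  simp only [zero_add, nsmul_eq_mul, mul_one] at h1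
  rw [h1, newt]
  have h2 : ∀ j, D < j → (fwdDiff (1 : ℝ))^[j] (fun x => p.eval x) 0 = 0 := by
    intro j hj
    have := Polynomial.fwdDiff_iter_eq_zero_of_degree_lt (P := p) (n := j) (lt_of_le_of_lt hp hj)
    have h3 := congrFun this 0
    simpa using h3
  have h4 : ∑ j ∈ range (t + 1), (t.choose j : ℝ) * (fwdDiff (1 : ℝ))^[j] (fun x => p.eval x) 0 =
      ∑ j ∈ range (max (t + 1) (D + 1)),
        (t.choose j : ℝ) * (fwdDiff (1 : ℝ))^[j] (fun x => p.eval x) 0 := by
    apply sum_subset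
    · intro j hj
      rw [mem_range] at *
      exact lt_of_lt_of_le hj (le_max_left _ _)
    · intro j _ hj
      rw [mem_range, not_lt] at hj
      rw [Nat.choose_eq_zero_of_lt (by omega)]
      simp
  have h5 : ∑ j ∈ range (D + 1), (t.choose j : ℝ) * (fwdDiff (1 : ℝ))^[j] (fun x => p.eval x) 0 =
      ∑ j ∈ range (max (t + 1) (D + 1)),
        (t.choose j : ℝ) * (fwdDiff (1 : ℝ))^[j] (fun x => p.eval x) 0 := by
    apply sum_subset
    · intro j hj
      rw [mem_range] at *
      exact lt_of_lt_of_le hj (le_max_right _ _)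
    · intro j _ hj
      rw [mem_range, not_lt] at hj
      rw [h2 j (by omega)]
      simp
  rw [h4, h5]

end Vale.Agent.VdW
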