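import Vale.Agent.VdW.PartP
import Vale.Agent.VdW.PartN
import Vale.Agent.VdW.PartD
import Vale.Agent.VdW.PartE

/-!
# P053, PART G: the main reduction
-/

namespace Vale.Agent.VdW

open Finset

theorem cell_add_int (R : ℕ) (x : ℝ) (n : ℤ) : cell R (x + n) = cell R x := by
  unfold cell
  have h1 : (R : ℝ) * (x + n) = (R : ℝ) * x + ((R * n : ℤ) : ℝ) := by push_cast; ring
  rw [h1, Int.floor_add_intCast]
  push_cast
  simp

/-- the local polynomial -/
noncomputable def locP (M c : ℕ → ℕ) (D i a d : ℕ) : Polynomial ℝ :=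
  (∑ j ∈ Icc 1 i, Polynomial.C ((c j : ℝ) / (M j : ℝ)) *
    (Polynomial.C (d : ℝ) * Polynomial.X + Polynomial.C (a : ℝ)) ^ j) +
  Polynomial.C (∑ j ∈ Icc (i + 1) D, (c j : ℝ) * (a : ℝ) ^ j / (M j : ℝ))

theorem locP_eval (M c : ℕ → ℕ) (D i a d : ℕ) (t : ℝ) :
    (locP M c D i a d).eval t = (∑ j ∈ Icc 1 i, (c j : ℝ) / (M j : ℝ) * (d * t + a) ^ j) +
      ∑ j ∈ Icc (i + 1) D, (c j : ℝ) * (a : ℝ) ^ j / (M j : ℝ) := by
  unfold locP
  rw [Polynomial.eval_add, Polynomial.eval_C, Polynomial.eval_finsetSum]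
  congr 1
  apply Finset.sum_congr rfl
  intro j _
  simp

theorem lin_natDegree_le (a d : ℝ) :
    (Polynomial.C d * Polynomial.X + Polynomial.C a : Polynomial ℝ).natDegree ≤ 1 :=
  Polynomial.natDegree_linear_le

theorem locP_natDegree (M c : ℕ → ℕ) (D i a d : ℕ) : (locP M c D i a d).natDegree ≤ i := by
  unfold locP
  refine (Polynomial.natDegree_add_le _ _).trans ?_
  rw [Polynomial.natDegree_C]
  refine max_le ?_ (Nat.zero_le _)
  apply Polynomial.natDegree_sum_le_of_forall_le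
  intro j hj
  rw [Finset.mem_Icc] at hj
  refine (Polynomial.natDegree_C_mul_le _ _).trans ?_
  refine (Polynomial.natDegree_pow_le).trans ?_
  have := lin_natDegree_le (a : ℝ) (d : ℝ)
  calc j * (Polynomial.C (d : ℝ) * Polynomial.X + Polynomial.C (a : ℝ)).natDegree ≤ j * 1 :=
        Nat.mul_le_mul_left _ this
    _ ≤ i := by omega

theorem locP_coeff (M c : ℕ → ℕ) (D i a d : ℕ) (hi : 1 ≤ i) :
    (locP M c D i a d).coeff i = (c i : ℝ) * (d : ℝ) ^ i / (M i : ℝ) := by
  unfold locP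
  rw [Polynomial.coeff_add, Polynomial.coeff_C, if_neg (by omega), add_zero,
    Polynomial.finsetSum_coeff]
  rw [Finset.sum_eq_single i]
  · rw [Polynomial.coeff_C_mul]
    have h1 := Polynomial.coeff_pow_of_natDegree_le (m := i) (lin_natDegree_le (a : ℝ) (d : ℝ))
    rw [mul_one] at h1
    rw [h1]
    simp
    ring
  · intro j hj hji
    rw [Finset.mem_Icc] at hj
    rw [Polynomial.coeff_C_mul]
    rw [Polynomial.coeff_eq_zero_of_natDegree_lt, mul_zero]
    refine lt_of_le_of_lt Polynomial.natDegree_pow_le ?_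
    have := lin_natDegree_le (a : ℝ) (d : ℝ)
    calc j * (Polynomial.C (d : ℝ) * Polynomial.X + Polynomial.C (a : ℝ)).natDegree ≤ j * 1 :=
          Nat.mul_le_mul_left _ this
      _ < i := by omega
  · intro h
    exact absurd (Finset.mem_Icc.mpr ⟨hi, le_refl _⟩) h

/-- PART G (main reduction), uses P, N, D, E. Colour `n` by `Ψ (cell R (∑ i, c_i n^i / M_i))`. For a
progression with difference `d` take the largest `i` with `¬ M_i ∣ d`. -/
theorem reduction (r R k D s0 : ℕ) (β : ℝ) (hR : 1 ≤ R) (hβ : 1 ≤ β) (hD : 1 ≤ D) (hk : D + 1 ≤ k)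
    (hs0 : 2 ≤ s0) (hs0k : s0 * D ≤ k) (hs0' : k < (s0 + 1) * D)
    (hmain : β + k * ∑ s ∈ Icc s0 k, (EE k D : ℝ) * (R : ℝ) ^ (s * D / k) * (β ^ (s - 2))⁻¹ ≤ r)
    (M : ℕ → ℕ) (hM0 : ∀ i ∈ Icc 1 D, NeZero (M i)) (hsq : ∀ i ∈ Icc 1 D, Squarefree (M i))
    (hpf : ∀ i ∈ Icc 1 D, ∀ p : ℕ, p.Prime → p ∣ M i → k ≤ p)
    (hinv : ∀ i ∈ Icc 1 D, ∑ p ∈ (M i).primeFactors, (1 : ℝ) / p ≤ 1 / 4)
    (hco : ∀ i ∈ Icc 1 D, ∀ j ∈ Icc 1 D, i ≠ j → (M i).Coprime (M j))
    (hpc : ∀ i (hi : i ∈ Icc 1 D), haveI := hM0 i hi;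
      4 * k ^ (D * D) * pc (M i) i * ((D + 1) * k ^ (D * D)) ≤ R) :
    ¬ VW r k (∏ i ∈ Icc 1 D, M i) := by
  classical
  have hRne : NeZero R := ⟨by omega⟩
  have hR0 : (0 : ℝ) < R := by exact_mod_cast hR
  have hk1 : 1 ≤ k := by omega
  obtain ⟨Ψ, hΨ⟩ := exists_Psi r R k D s0 β hβ hk hs0 hmain
  -- the multipliers
  have hexc : ∀ i : ℕ, ∃ c : ℕ, i ∈ Icc 1 D → ∀ h : ℕ, 1 ≤ h → h ≤ k ^ (i * i) →
      h.Coprime (M i) → ∀ d : ℕ, ¬ M i ∣ d → ∀ z : ℤ,
      ((i : ℝ) + 1) * (k : ℝ) ^ (i * i) / R < |(h : ℝ) * ((c : ℝ) * (d : ℝ) ^ i / M i) - z| := by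
    intro i
    by_cases hi : i ∈ Icc 1 D
    · have := hM0 i hi
      have hi' := Finset.mem_Icc.mp hi
      have h4 : 4 * ((k ^ (i * i) : ℕ) : ℝ) * (pc (M i) i : ℝ) *
          (((i : ℝ) + 1) * (k : ℝ) ^ (i * i) / R) ≤ 1 := by
        have h1 := hpc i hi
        have h2 : 4 * k ^ (i * i) * pc (M i) i * ((i + 1) * k ^ (i * i)) ≤ R := by
          refine le_trans ?_ h1
          have h3 : k ^ (i * i) ≤ k ^ (D * D) :=
            Nat.pow_le_pow_right hk1 (Nat.mul_le_mul hi'.2 hi'.2)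
          gcongr
          · exact hi'.2
        have h3 : (4 * (k : ℝ) ^ (i * i) * pc (M i) i * ((i + 1) * (k : ℝ) ^ (i * i))) ≤ R := by
          exact_mod_cast h2
        push_cast
        have h5 : 4 * (k : ℝ) ^ (i * i) * (pc (M i) i : ℝ) *
          (((i : ℝ) + 1) * (k : ℝ) ^ (i * i) / R) =
          (4 * (k : ℝ) ^ (i * i) * pc (M i) i * ((i + 1) * (k : ℝ) ^ (i * i))) / R := by ring
        rw [h5, div_le_one hR0]
        exact h3
      obtain ⟨c, hc⟩ := exists_multiplier (M i) i (k ^ (i * i)) (hsq i hi) hi'.1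
        (((i : ℝ) + 1) * (k : ℝ) ^ (i * i) / R) (by positivity) (hinv i hi) h4
      exact ⟨c, fun _ => hc⟩
    · exact ⟨0, fun h => absurd h hi⟩
  choose c hc using hexc
  intro hVW
  obtain ⟨a, d, ha, hd, hle, hmono⟩ :=
    hVW (fun n => Ψ (cell R (∑ j ∈ Icc 1 D, (c j : ℝ) * (n : ℝ) ^ j / (M j : ℝ))))
  -- the largest index
  set F : Finset ℕ := (Icc 1 D).filter (fun i => ¬ M i ∣ d) with hF
  have hFne : F.Nonempty := by
    by_contra hcon
    rw [Finset.not_nonempty_iff_eq_empty] at hcon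
    have hall : ∀ i ∈ Icc 1 D, M i ∣ d := by
      intro i hi
      by_contra hnd
      have : i ∈ F := Finset.mem_filter.mpr ⟨hi, hnd⟩
      rw [hcon] at this
      exact absurd this (Finset.notMem_empty _)
    have hprod : (∏ i ∈ Icc 1 D, M i) ∣ d := by
      apply Finset.prod_dvd_of_isRelPrime
      · intro i hi j hj hij
        exact Nat.coprime_iff_isRelPrime.mp (hco i hi j hj hij)
      · exact hall
    have h1 := Nat.le_of_dvd hd hprod
    have h2 : d ≤ (k - 1) * d := Nat.le_mul_of_pos_left _ (by omega)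
    omega
  set i : ℕ := F.max' hFne with hi_def
  have hiF : i ∈ F := F.max'_mem hFne
  obtain ⟨hiI, hid⟩ := Finset.mem_filter.mp hiF
  obtain ⟨hi1, hiD⟩ := Finset.mem_Icc.mp hiI
  have hbig : ∀ j ∈ Icc (i + 1) D, M j ∣ d := by
    intro j hj
    rw [Finset.mem_Icc] at hj
    by_contra hnd
    have h1 : j ∈ F := Finset.mem_filter.mpr ⟨Finset.mem_Icc.mpr ⟨by omega, hj.2⟩, hnd⟩
    have h2 := F.le_max' j h1
    rw [← hi_def] at h2
    omega
  -- the pattern
  set p := locP M c D i a d with hp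
  have hpdeg : p.natDegree ≤ i := locP_natDegree M c D i a d
  have hpco : p.coeff i = (c i : ℝ) * (d : ℝ) ^ i / (M i : ℝ) := locP_coeff M c D i a d hi1
  obtain ⟨e, he⟩ := exists_newt D p (hpdeg.trans hiD)
  set π : Fin k → ZMod R := fun t => cell R (p.eval ((t : ℕ) : ℝ)) with hπ
  have hpat : IsPat R k D π := ⟨e, fun t => by rw [hπ]; simp only; rw [he]⟩
  have hQ : ∀ t : ℕ, cell R (∑ j ∈ Icc 1 D, (c j : ℝ) * ((a + t * d : ℕ) : ℝ) ^ j / (M j : ℝ)) =
      cell R (p.eval (t : ℝ)) := by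
    intro t
    have hint : ∀ j : ℕ, ∃ n : ℤ, j ∈ Icc (i + 1) D →
        (c j : ℝ) * ((a + t * d : ℕ) : ℝ) ^ j / (M j : ℝ) =
          (c j : ℝ) * (a : ℝ) ^ j / (M j : ℝ) + n := by
      intro j
      by_cases hj : j ∈ Icc (i + 1) D
      · have hjD : j ∈ Icc 1 D := by
          rw [Finset.mem_Icc] at hj ⊢
          exact ⟨by omega, hj.2⟩
        have h1 : (M j : ℤ) ∣ (d : ℤ) := by exact_mod_cast hbig j hj
        have h2 : ((a + t * d : ℕ) : ℤ) - (a : ℤ) ∣ ((a + t * d : ℕ) : ℤ) ^ j - (a : ℤ) ^ j :=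
          sub_dvd_pow_sub_pow _ _ _
        have h3 : (M j : ℤ) ∣ ((a + t * d : ℕ) : ℤ) ^ j - (a : ℤ) ^ j := by
          refine dvd_trans ?_ h2
          push_cast
          have : (a : ℤ) + t * d - a = t * d := by ring
          rw [this]
          exact dvd_mul_of_dvd_right h1 _
        obtain ⟨w, hw⟩ := h3
        refine ⟨c j * w, fun _ => ?_⟩
        have h4 : ((a + t * d : ℕ) : ℝ) ^ j - (a : ℝ) ^ j = (M j : ℝ) * w := by
          have : ((((a + t * d : ℕ) : ℤ) ^ j - (a : ℤ) ^ j : ℤ) : ℝ) = (((M j : ℤ) * w : ℤ) : ℝ) := by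
            rw [hw]
          push_cast at this ⊢
          exact this
        have h5 : ((a + t * d : ℕ) : ℝ) ^ j = (a : ℝ) ^ j + (M j : ℝ) * w := by linarith
        have h6 : (M j : ℝ) ≠ 0 := by
          have := (hM0 j hjD).out
          exact_mod_cast this
        rw [h5]
        push_cast
        field_simp
      · exact ⟨0, fun h => absurd h hj⟩
    choose n hn using hint
    have hsplit : ∑ j ∈ Icc 1 D, (c j : ℝ) * ((a + t * d : ℕ) : ℝ) ^ j / (M j : ℝ) =
        p.eval (t : ℝ) + ((∑ j ∈ Icc (i + 1) D, n j : ℤ) : ℝ) := by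
      rw [hp, locP_eval]
      have h1 : Icc 1 D = Icc 1 i ∪ Icc (i + 1) D := by
        ext x
        simp only [Finset.mem_union, Finset.mem_Icc]
        omega
      have h2 : Disjoint (Icc 1 i) (Icc (i + 1) D) := by
        rw [Finset.disjoint_left]
        intro x hx hx'
        rw [Finset.mem_Icc] at hx hx'
        omega
      rw [h1, Finset.sum_union h2, add_assoc]
      congr 1
      · apply Finset.sum_congr rfl
        intro j _
        push_cast
        ring
      · push_cast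
        rw [← Finset.sum_add_distrib]
        apply Finset.sum_congr rfl
        intro j hj
        have := hn j hj
        push_cast at this
        exact this
    rw [hsplit, cell_add_int]
  -- many cells
  have hfib : ∀ x : ZMod R, (univ.filter (fun t : Fin k => π t = x)).card ≤ i := by
    intro x
    apply fibre_le R k i hR hi1 p hpdeg
    intro L hL1 hL2 hLq z
    have hcop : L.Coprime (M i) := by
      by_contra hnc
      obtain ⟨q, hq, hqL, hqM⟩ := Nat.Prime.not_coprime_iff_dvd.mp hnc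
      have h1 := hLq q hq hqL
      have h2 := hpf i hiI q hq hqM
      omega
    have h1 := hc i hiI L hL1 hL2 hcop d hid z
    rw [hpco]
    rw [div_lt_iff₀ hR0] at h1
    linarith
  have hcard : s0 ≤ (im π).card := by
    have h1 : (univ : Finset (Fin k)).card ≤ i * (univ.image π).card :=
      Finset.card_le_mul_card_image _ _ (fun b _ => hfib b)
    rw [Finset.card_univ, Fintype.card_fin] at h1
    have h2 : k ≤ D * (im π).card := h1.trans (Nat.mul_le_mul_right _ hiD)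
    have h3 : D * s0 ≤ D * (im π).card := by
      rw [Nat.mul_comm D s0]
      exact hs0k.trans h2
    exact Nat.le_of_mul_le_mul_left h3 hD
  obtain ⟨t, t', htt⟩ := hΨ π hpat hcard
  apply htt
  have h1 := hmono t t.isLt
  have h2 := hmono t' t'.isLt
  beta_reduce at h1 h2
  rw [hQ] at h1 h2
  have h3 : Ψ (π t) = Ψ (π t') := h1.trans h2.symm
  exact h3

end Vale.Agent.VdW
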