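import Mathlib

/-!
# P053, part H1: the abstract Selberg upper bound sieve with a crude error term
-/

namespace Vale.Agent.VdW

open Finset ArithmeticFunction BoundingSieve
open scoped ArithmeticFunction.Moebius ArithmeticFunction.zeta

/-- sum of the Moebius function over the divisors of `m` divisible by `l` -/
theorem selberg_moebius (m l : ℕ) (hm : Squarefree m) (hl : l ∣ m) :
    ∑ d ∈ m.divisors with l ∣ d, (μ d : ℝ) = if m = l then (μ l : ℝ) else 0 := by
  obtain ⟨n, rfl⟩ := hl
  have hln : l.Coprime n := Nat.coprime_of_squarefree_mul hm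
  have hl0 : l ≠ 0 := by
    rintro rfl
    simp at hm
  have hn0 : n ≠ 0 := by
    rintro rfl
    simp at hm
  have himg : (l * n).divisors.filter (l ∣ ·) = n.divisors.image (l * ·) := by
    ext d
    simp only [mem_filter, Nat.mem_divisors, mem_image]
    constructor
    · rintro ⟨⟨h1, -⟩, e, rfl⟩
      exact ⟨e, ⟨(Nat.mul_dvd_mul_iff_left (Nat.pos_of_ne_zero hl0)).1 h1, hn0⟩, rfl⟩
    · rintro ⟨e, ⟨he, -⟩, rfl⟩
      exact ⟨⟨Nat.mul_dvd_mul_left l he, mul_ne_zero hl0 hn0⟩, dvd_mul_right l e⟩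
  rw [himg, sum_image (by
    intro a _ b _ hab
    exact Nat.eq_of_mul_eq_mul_left (Nat.pos_of_ne_zero hl0) hab)]
  have h1 : ∀ e ∈ n.divisors, (μ (l * e) : ℝ) = (μ l : ℝ) * (μ e : ℝ) := by
    intro e he
    have hcop : l.Coprime e := Nat.Coprime.coprime_dvd_right (Nat.dvd_of_mem_divisors he) hln
    rw [isMultiplicative_moebius.map_mul_of_coprime hcop]
    push_cast
    ring
  rw [sum_congr rfl h1, ← mul_sum]
  have h2 : ∑ e ∈ n.divisors, (μ e : ℝ) = if n = 1 then 1 else 0 := by
    have h3 : ∑ e ∈ n.divisors, μ e = if n = 1 then 1 else 0 := by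
      have h4 := congrArg (fun f : ArithmeticFunction ℤ => f n) coe_zeta_mul_moebius
      simp only [coe_zeta_mul_apply, ArithmeticFunction.one_apply] at h4
      exact h4
    have h5 := congrArg (fun z : ℤ => (z : ℝ)) h3
    simp only [Int.cast_sum, Int.cast_ite, Int.cast_one, Int.cast_zero] at h5
    exact h5
  rw [h2]
  by_cases hn : n = 1
  · simp [hn]
  · have : l * n ≠ l := by
      intro h
      apply hn
      have : l * n = l * 1 := by rw [h, mul_one]
      exact Nat.eq_of_mul_eq_mul_left (Nat.pos_of_ne_zero hl0) this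
    simp [hn, this]

/-- the Selberg denominator -/
noncomputable def selG (s : BoundingSieve) (Q : ℕ) : ℝ :=
  ∑ l ∈ s.prodPrimes.divisors with l ≤ Q, s.selbergTerms l

/-- the Selberg weights -/
noncomputable def selW (s : BoundingSieve) (Q : ℕ) (d : ℕ) : ℝ :=
  (μ d : ℝ) * (s.nu d)⁻¹ * (selG s Q)⁻¹ *
    ∑ l ∈ s.prodPrimes.divisors with d ∣ l ∧ l ≤ Q, s.selbergTerms l

theorem selG_pos (s : BoundingSieve) (Q : ℕ) (hQ : 1 ≤ Q) : 0 < selG s Q := by
  unfold selG
  apply sum_pos
  · intro l hl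
    rw [mem_filter] at hl
    exact selbergTerms_pos (Nat.dvd_of_mem_divisors hl.1)
  · exact ⟨1, by simp [hQ, prodPrimes_ne_zero]⟩

theorem selW_one (s : BoundingSieve) (Q : ℕ) (hQ : 1 ≤ Q) : selW s Q 1 = 1 := by
  have hG := selG_pos s Q hQ
  unfold selW
  have h1 : (s.prodPrimes.divisors.filter (fun l => 1 ∣ l ∧ l ≤ Q)) =
      s.prodPrimes.divisors.filter (· ≤ Q) := by
    ext l; simp
  rw [h1, s.nu_mult.map_one]
  have h2 : ∑ l ∈ s.prodPrimes.divisors with l ≤ Q, s.selbergTerms l = selG s Q := rfl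
  rw [h2]
  simp only [moebius_apply_one, Int.cast_one, inv_one, mul_one, one_mul]
  exact inv_mul_cancel₀ hG.ne'

theorem selW_abs_le (s : BoundingSieve) (Q : ℕ) (hQ : 1 ≤ Q) (d : ℕ) (hd : d ∣ s.prodPrimes) :
    |selW s Q d| ≤ (s.nu d)⁻¹ := by
  have hG := selG_pos s Q hQ
  have hν := nu_pos_of_dvd_prodPrimes hd
  unfold selW
  have h1 : 0 ≤ ∑ l ∈ s.prodPrimes.divisors with d ∣ l ∧ l ≤ Q, s.selbergTerms l := by
    apply sum_nonneg
    intro l hl
    rw [mem_filter] at hl
    exact (selbergTerms_pos (Nat.dvd_of_mem_divisors hl.1)).le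
  have h2 : ∑ l ∈ s.prodPrimes.divisors with d ∣ l ∧ l ≤ Q, s.selbergTerms l ≤ selG s Q := by
    unfold selG
    apply sum_le_sum_of_subset_of_nonneg
    · intro l hl
      rw [mem_filter] at hl ⊢
      exact ⟨hl.1, hl.2.2⟩
    · intro l hl _
      rw [mem_filter] at hl
      exact (selbergTerms_pos (Nat.dvd_of_mem_divisors hl.1)).le
  rw [abs_mul, abs_mul, abs_mul, abs_of_nonneg h1, abs_of_pos (inv_pos.2 hν),
    abs_of_pos (inv_pos.2 hG)]
  have h3 : |(μ d : ℝ)| ≤ 1 := by
    have := abs_moebius_le_one (n := d)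
    have h := (Int.cast_le (R := ℝ)).2 this
    rwa [Int.cast_abs, Int.cast_one] at h
  have h4 : (selG s Q)⁻¹ * ∑ l ∈ s.prodPrimes.divisors with d ∣ l ∧ l ≤ Q, s.selbergTerms l
      ≤ 1 := by
    rw [inv_mul_le_iff₀ hG, mul_one]
    exact h2
  have h5 : 0 ≤ (selG s Q)⁻¹ *
      ∑ l ∈ s.prodPrimes.divisors with d ∣ l ∧ l ≤ Q, s.selbergTerms l := by positivity
  calc |(μ d : ℝ)| * (s.nu d)⁻¹ * (selG s Q)⁻¹ *
        ∑ l ∈ s.prodPrimes.divisors with d ∣ l ∧ l ≤ Q, s.selbergTerms l
      = (|(μ d : ℝ)| * ((selG s Q)⁻¹ *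
        ∑ l ∈ s.prodPrimes.divisors with d ∣ l ∧ l ≤ Q, s.selbergTerms l)) * (s.nu d)⁻¹ := by ring
    _ ≤ (1 * 1) * (s.nu d)⁻¹ := by gcongr
    _ = (s.nu d)⁻¹ := by ring

theorem selW_eq_zero (s : BoundingSieve) (Q : ℕ) (d : ℕ) (hd : Q < d) : selW s Q d = 0 := by
  unfold selW
  have : (s.prodPrimes.divisors.filter (fun l => d ∣ l ∧ l ≤ Q)) = ∅ := by
    rw [filter_eq_empty_iff]
    intro l hl h
    have := Nat.le_of_dvd (Nat.pos_of_mem_divisors hl) h.1
    omega
  rw [this]
  simp

/-- the diagonal variables -/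
theorem selW_diag (s : BoundingSieve) (Q : ℕ) (l : ℕ) (hl : l ∣ s.prodPrimes) :
    (∑ d ∈ s.prodPrimes.divisors, if l ∣ d then s.nu d * selW s Q d else 0) =
      if l ≤ Q then (μ l : ℝ) * s.selbergTerms l * (selG s Q)⁻¹ else 0 := by
  have h1 : ∀ d ∈ s.prodPrimes.divisors, (if l ∣ d then s.nu d * selW s Q d else 0) =
      ∑ m ∈ s.prodPrimes.divisors with m ≤ Q, (selG s Q)⁻¹ * s.selbergTerms m *
        (if l ∣ d ∧ d ∣ m then (μ d : ℝ) else 0) := by
    intro d hd
    have hν := nu_ne_zero (Nat.dvd_of_mem_divisors hd)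
    by_cases hld : l ∣ d
    · rw [if_pos hld]
      unfold selW
      have h2 : s.nu d * ((μ d : ℝ) * (s.nu d)⁻¹ * (selG s Q)⁻¹ *
          ∑ l ∈ s.prodPrimes.divisors with d ∣ l ∧ l ≤ Q, s.selbergTerms l) =
          (μ d : ℝ) * (selG s Q)⁻¹ *
          ∑ l ∈ s.prodPrimes.divisors with d ∣ l ∧ l ≤ Q, s.selbergTerms l := by
        field_simp
      rw [h2, mul_sum]
      rw [sum_filter, sum_filter]
      apply sum_congr rfl
      intro m _
      by_cases hm : m ≤ Q <;> by_cases hdm : d ∣ m <;> simp [hm, hdm, hld]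
      ring
    · rw [if_neg hld]
      symm
      apply sum_eq_zero
      intro m _
      simp [hld]
  rw [sum_congr rfl h1, sum_comm]
  have h3 : ∀ m ∈ s.prodPrimes.divisors.filter (· ≤ Q),
      ∑ d ∈ s.prodPrimes.divisors, (selG s Q)⁻¹ * s.selbergTerms m *
        (if l ∣ d ∧ d ∣ m then (μ d : ℝ) else 0) =
      (selG s Q)⁻¹ * s.selbergTerms m * (if m = l then (μ l : ℝ) else 0) := by
    intro m hm
    rw [mem_filter] at hm
    rw [← mul_sum]
    congr 1
    have hmP := Nat.dvd_of_mem_divisors hm.1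
    have hm0 : m ≠ 0 := (Nat.pos_of_mem_divisors hm.1).ne'
    rw [← sum_filter]
    have h4 : s.prodPrimes.divisors.filter (fun d => l ∣ d ∧ d ∣ m) =
        m.divisors.filter (l ∣ ·) := by
      ext d
      simp only [mem_filter, Nat.mem_divisors]
      constructor
      · rintro ⟨-, h5, h6⟩
        exact ⟨⟨h6, hm0⟩, h5⟩
      · rintro ⟨⟨h6, -⟩, h5⟩
        exact ⟨⟨h6.trans hmP, prodPrimes_ne_zero⟩, h5, h6⟩
    rw [h4]
    by_cases hlm : l ∣ m
    · exact selberg_moebius m l (squarefree_of_dvd_prodPrimes hmP) hlm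
    · have h5 : m.divisors.filter (l ∣ ·) = ∅ := by
        rw [filter_eq_empty_iff]
        intro d hd h
        exact hlm (h.trans (Nat.dvd_of_mem_divisors hd))
      have h6 : m ≠ l := by
        rintro rfl
        exact hlm dvd_rfl
      rw [h5, if_neg h6, sum_empty]
  rw [sum_congr rfl h3]
  simp only [mul_ite, mul_zero]
  rw [sum_ite_eq']
  by_cases hlQ : l ≤ Q
  · rw [if_pos (mem_filter.2 ⟨Nat.mem_divisors.2 ⟨hl, prodPrimes_ne_zero⟩, hlQ⟩), if_pos hlQ]
    ring
  · have hnot : l ∉ s.prodPrimes.divisors.filter (· ≤ Q) := fun h => hlQ (mem_filter.1 h).2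
    rw [if_neg hnot, if_neg hlQ]

theorem selW_mainSum (s : BoundingSieve) (Q : ℕ) (hQ : 1 ≤ Q) :
    s.mainSum (lambdaSquared (selW s Q)) = (selG s Q)⁻¹ := by
  have hG := selG_pos s Q hQ
  rw [mainSum_lambdaSquared_eq_sum_mul_sum_sq]
  have h1 : ∀ l ∈ s.prodPrimes.divisors, (s.selbergTerms l)⁻¹ *
      (∑ d ∈ s.prodPrimes.divisors, if l ∣ d then s.nu d * selW s Q d else 0) ^ 2 =
      if l ≤ Q then s.selbergTerms l * ((selG s Q)⁻¹) ^ 2 else 0 := by
    intro l hl
    have hlP := Nat.dvd_of_mem_divisors hl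
    have hg := selbergTerms_pos hlP
    rw [selW_diag s Q l hlP]
    by_cases hlQ : l ≤ Q
    · rw [if_pos hlQ, if_pos hlQ]
      have hμ : ((μ l : ℝ)) ^ 2 = 1 := by
        have := moebius_sq_eq_one_of_squarefree (squarefree_of_dvd_prodPrimes hlP)
        exact_mod_cast this
      rw [mul_pow, mul_pow, hμ]
      field_simp
    · rw [if_neg hlQ, if_neg hlQ]
      simp
  rw [sum_congr rfl h1, ← sum_filter, ← sum_mul]
  change selG s Q * _ = _
  field_simp

/-- PART H1 (abstract Selberg sieve with crude error). -/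
theorem selberg (s : BoundingSieve) (htm : 0 ≤ s.totalMass) (Q : ℕ) (hQ : 1 ≤ Q) :
    s.siftedSum ≤ s.totalMass / (∑ l ∈ s.prodPrimes.divisors with l ≤ Q, s.selbergTerms l) +
      ∑ d1 ∈ s.prodPrimes.divisors with d1 ≤ Q, ∑ d2 ∈ s.prodPrimes.divisors with d2 ≤ Q,
        (s.nu d1)⁻¹ * (s.nu d2)⁻¹ * |s.rem (Nat.lcm d1 d2)| := by
  have h0 := siftedSum_le_mainSum_errSum_of_upperMoebius (s := s) (lambdaSquared (selW s Q))
    (upperMoebius_lambdaSquared _ (selW_one s Q hQ))
  rw [selW_mainSum s Q hQ] at h0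
  refine h0.trans ?_
  have hmain : s.totalMass * (selG s Q)⁻¹ =
      s.totalMass / (∑ l ∈ s.prodPrimes.divisors with l ≤ Q, s.selbergTerms l) := by
    rw [div_eq_mul_inv]; rfl
  rw [hmain]
  gcongr
  unfold errSum
  have h1 : ∀ d ∈ s.prodPrimes.divisors, |lambdaSquared (selW s Q) d| * |s.rem d| ≤
      ∑ d1 ∈ s.prodPrimes.divisors with d1 ≤ Q, ∑ d2 ∈ s.prodPrimes.divisors with d2 ≤ Q,
        if d = Nat.lcm d1 d2 then (s.nu d1)⁻¹ * (s.nu d2)⁻¹ * |s.rem (Nat.lcm d1 d2)| else 0 := by
    intro d hd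
    have hdP := Nat.dvd_of_mem_divisors hd
    have h2 : |lambdaSquared (selW s Q) d| ≤ ∑ d1 ∈ s.prodPrimes.divisors with d1 ≤ Q,
        ∑ d2 ∈ s.prodPrimes.divisors with d2 ≤ Q,
        if d = Nat.lcm d1 d2 then (s.nu d1)⁻¹ * (s.nu d2)⁻¹ else 0 := by
      unfold lambdaSquared
      refine (abs_sum_le_sum_abs _ _).trans ?_
      have hstep : ∀ F : ℕ → ℝ, (∀ a ∈ s.prodPrimes.divisors, 0 ≤ F a) →
          (∀ a, a ∣ d → Q < a → F a = 0) →
          ∑ a ∈ d.divisors, F a ≤ ∑ a ∈ s.prodPrimes.divisors with a ≤ Q, F a := by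
        intro F hF0 hF1
        have h3 : ∑ a ∈ d.divisors, F a = ∑ a ∈ d.divisors with a ≤ Q, F a := by
          symm
          apply sum_filter_of_ne
          intro a ha hne
          by_contra hlt
          exact hne (hF1 a (Nat.dvd_of_mem_divisors ha) (by omega))
        rw [h3]
        apply sum_le_sum_of_subset_of_nonneg
        · intro a ha
          rw [mem_filter, Nat.mem_divisors] at ha ⊢
          exact ⟨⟨ha.1.1.trans hdP, prodPrimes_ne_zero⟩, ha.2⟩
        · intro a ha _
          exact hF0 a (mem_filter.1 ha).1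
      calc ∑ d1 ∈ d.divisors, |∑ d2 ∈ d.divisors,
            if d = Nat.lcm d1 d2 then selW s Q d1 * selW s Q d2 else 0|
          ≤ ∑ d1 ∈ d.divisors, ∑ d2 ∈ d.divisors,
            if d = Nat.lcm d1 d2 then |selW s Q d1| * |selW s Q d2| else 0 := by
            apply sum_le_sum
            intro d1 _
            refine (abs_sum_le_sum_abs _ _).trans (le_of_eq ?_)
            apply sum_congr rfl
            intro d2 _
            split_ifs
            · rw [abs_mul]
            · rw [abs_zero]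
        _ ≤ ∑ d1 ∈ s.prodPrimes.divisors with d1 ≤ Q, ∑ d2 ∈ d.divisors,
            (if d = Nat.lcm d1 d2 then |selW s Q d1| * |selW s Q d2| else 0) := by
            apply hstep (fun d1 => ∑ d2 ∈ d.divisors,
              (if d = Nat.lcm d1 d2 then |selW s Q d1| * |selW s Q d2| else 0))
            · intro a _
              apply sum_nonneg
              intro b _
              split_ifs <;> positivity
            · intro a _ ha
              apply sum_eq_zero
              intro b _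
              rw [selW_eq_zero s Q a ha]
              simp
        _ ≤ ∑ d1 ∈ s.prodPrimes.divisors with d1 ≤ Q, ∑ d2 ∈ s.prodPrimes.divisors with d2 ≤ Q,
            (if d = Nat.lcm d1 d2 then |selW s Q d1| * |selW s Q d2| else 0) := by
            apply sum_le_sum
            intro d1 _
            apply hstep (fun d2 =>
              (if d = Nat.lcm d1 d2 then |selW s Q d1| * |selW s Q d2| else 0))
            · intro b _
              show (0 : ℝ) ≤ (if d = Nat.lcm d1 b then |selW s Q d1| * |selW s Q b| else 0)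
              split_ifs <;> positivity
            · intro b _ hb
              show (if d = Nat.lcm d1 b then |selW s Q d1| * |selW s Q b| else 0) = 0
              rw [selW_eq_zero s Q b hb]
              simp
        _ ≤ ∑ d1 ∈ s.prodPrimes.divisors with d1 ≤ Q, ∑ d2 ∈ s.prodPrimes.divisors with d2 ≤ Q,
            (if d = Nat.lcm d1 d2 then (s.nu d1)⁻¹ * (s.nu d2)⁻¹ else 0) := by
            apply sum_le_sum
            intro d1 hd1
            apply sum_le_sum
            intro d2 hd2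
            have hd1' := Nat.dvd_of_mem_divisors (mem_filter.1 hd1).1
            have hd2' := Nat.dvd_of_mem_divisors (mem_filter.1 hd2).1
            have hν1 := nu_pos_of_dvd_prodPrimes hd1'
            split_ifs
            · apply mul_le_mul (selW_abs_le s Q hQ d1 hd1') (selW_abs_le s Q hQ d2 hd2')
                (abs_nonneg _)
              positivity
            · exact le_rfl
    calc |lambdaSquared (selW s Q) d| * |s.rem d|
        ≤ (∑ d1 ∈ s.prodPrimes.divisors with d1 ≤ Q,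
          ∑ d2 ∈ s.prodPrimes.divisors with d2 ≤ Q,
          if d = Nat.lcm d1 d2 then (s.nu d1)⁻¹ * (s.nu d2)⁻¹ else 0) * |s.rem d| := by
          gcongr
      _ = _ := by
          rw [sum_mul]
          apply sum_congr rfl
          intro d1 _
          rw [sum_mul]
          apply sum_congr rfl
          intro d2 _
          split_ifs with h
          · rw [h]
          · simp
  refine (sum_le_sum h1).trans (le_of_eq ?_)
  rw [sum_comm]
  apply sum_congr rfl
  intro d1 hd1
  rw [sum_comm]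
  apply sum_congr rfl
  intro d2 hd2
  have hd1' := Nat.dvd_of_mem_divisors (mem_filter.1 hd1).1
  have hd2' := Nat.dvd_of_mem_divisors (mem_filter.1 hd2).1
  rw [sum_ite_eq_of_mem']
  rw [Nat.mem_divisors]
  exact ⟨Nat.lcm_dvd hd1' hd2', prodPrimes_ne_zero⟩

end Vale.Agent.VdW
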