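import Mathlib
import Vale.Agent.VdW.PartH1

/-!
# P053, part H2: sieving two residue classes
-/

namespace Vale.Agent.VdW

open Finset ArithmeticFunction BoundingSieve

/-- number of elements of a residue class in an initial segment -/
theorem h2_class_count (x d v : ℕ) (hd : 0 < d) :
    |(((Ioc 0 x).filter (fun n => n ≡ v [MOD d])).card : ℝ) - x / d| ≤ 1 := by
  have h := Nat.Ioc_filter_modEq_card 0 x hd v
  have hdq : (0 : ℚ) < d := by exact_mod_cast hd
  have hmono : ⌊((0 : ℕ) - v : ℚ) / d⌋ ≤ ⌊((x : ℕ) - v : ℚ) / d⌋ := by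
    apply Int.floor_mono
    apply div_le_div_of_nonneg_right _ hdq.le
    have : (0 : ℚ) ≤ x := by positivity
    push_cast
    linarith
  rw [max_eq_left (by
    have := hmono
    linarith)] at h
  have h1 : ((((Ioc 0 x).filter (fun n => n ≡ v [MOD d])).card : ℤ) : ℚ) =
      ((⌊((x : ℕ) - v : ℚ) / d⌋ - ⌊((0 : ℕ) - v : ℚ) / d⌋ : ℤ) : ℚ) := by
    rw [h]
  have h2 : |((((Ioc 0 x).filter (fun n => n ≡ v [MOD d])).card : ℤ) : ℚ) - x / d| ≤ 1 := by
    rw [h1]
    push_cast
    have a1 := Int.floor_le (((x : ℕ) - v : ℚ) / d)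
    have a2 := Int.lt_floor_add_one (((x : ℕ) - v : ℚ) / d)
    have a3 := Int.floor_le (((0 : ℕ) - v : ℚ) / d)
    have a4 := Int.lt_floor_add_one (((0 : ℕ) - v : ℚ) / d)
    have a5 : ((x : ℕ) - v : ℚ) / d - ((0 : ℕ) - v : ℚ) / d = x / d := by
      push_cast
      field_simp
      ring
    push_cast at a1 a2 a3 a4 a5
    rw [abs_le]
    constructor <;> linarith
  have h3 := (Rat.cast_le (K := ℝ)).2 h2
  push_cast at h3
  simpa using h3

/-- the number which encodes the two residue classes -/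
def h2M (B : Finset ℕ) (n : ℕ) : ℕ := n * ∏ q ∈ B.filter (· ∣ n - 1), q

/-- one class of the partition -/
theorem h2_piece (x : ℕ) (B : Finset ℕ) (hB : ∀ q ∈ B, q.Prime) (d : ℕ) (hd : Squarefree d)
    (T : Finset ℕ) (hT : T ⊆ B.filter (· ∣ d)) :
    ∃ v : ℕ, (Ioc 0 x).filter (fun n => d ∣ h2M B n ∧ (B.filter (· ∣ d)).filter (· ∣ n - 1) = T) =
      (Ioc 0 x).filter (fun n => n ≡ v [MOD d]) := by
  have hTB : ∀ p ∈ T, p ∈ B ∧ p ∣ d := fun p hp => by
    have := hT hp
    rwa [mem_filter] at this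
  have hTp : ∀ p ∈ T, p.Prime := fun p hp => hB p (hTB p hp).1
  have he : (∏ p ∈ T, p) ∣ d := by
    apply Finset.prod_primes_dvd
    · intro p hp
      exact (hTp p hp).prime
    · intro p hp
      exact (hTB p hp).2
  obtain ⟨f, hf⟩ := he
  set e := ∏ p ∈ T, p with he
  have hsq : Squarefree (e * f) := hf ▸ hd
  have hef : e.Coprime f := Nat.coprime_of_squarefree_mul hsq
  have hfsq : Squarefree f := hsq.of_mul_right
  obtain ⟨v, hv1, hv0⟩ := Nat.chineseRemainder hef 1 0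
  refine ⟨v, ?_⟩
  ext n
  simp only [mem_filter, mem_Ioc]
  constructor
  · rintro ⟨⟨hn0, hnx⟩, hdn, hTn⟩
    refine ⟨⟨hn0, hnx⟩, ?_⟩
    have hTn' : ∀ p ∈ T, p ∣ n - 1 := by
      intro p hp
      rw [← hTn, mem_filter] at hp
      exact hp.2
    have h1 : e ∣ n - 1 := by
      apply Finset.prod_primes_dvd
      · intro p hp
        exact (hTp p hp).prime
      · exact hTn'
    have h2 : f ∣ n := by
      rw [← Nat.prod_primeFactors_of_squarefree hfsq]
      apply Finset.prod_primes_dvd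
      · intro p hp
        exact (Nat.prime_of_mem_primeFactors hp).prime
      · intro p hp
        have hpp := Nat.prime_of_mem_primeFactors hp
        have hpf := Nat.dvd_of_mem_primeFactors hp
        have hpd : p ∣ d := hf ▸ (hpf.trans (dvd_mul_left f e))
        have hpm : p ∣ h2M B n := hpd.trans hdn
        unfold h2M at hpm
        rcases (Nat.Prime.dvd_mul hpp).1 hpm with h3 | h3
        · exact h3
        · exfalso
          rw [hpp.prime.dvd_finsetProd_iff] at h3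
          obtain ⟨q, hq, hpq⟩ := h3
          rw [mem_filter] at hq
          have hpq' : p = q := (Nat.prime_dvd_prime_iff_eq hpp (hB q hq.1)).1 hpq
          have hpT : p ∈ T := by
            rw [← hTn, mem_filter, mem_filter]
            exact ⟨⟨hpq' ▸ hq.1, hpd⟩, hpq' ▸ hq.2⟩
          have hpe : p ∣ e := Finset.dvd_prod_of_mem _ hpT
          have := Nat.dvd_gcd hpe hpf
          rw [hef.gcd_eq_one] at this
          exact hpp.one_lt.ne' (Nat.dvd_one.1 this)
    rw [hf, ← Nat.modEq_and_modEq_iff_modEq_mul hef]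
    constructor
    · refine Nat.ModEq.trans ?_ hv1.symm
      exact ((Nat.modEq_iff_dvd' hn0).2 h1).symm
    · refine Nat.ModEq.trans ?_ hv0.symm
      exact (Nat.modEq_zero_iff_dvd).2 h2
  · rintro ⟨⟨hn0, hnx⟩, hnv⟩
    rw [hf, ← Nat.modEq_and_modEq_iff_modEq_mul hef] at hnv
    have h1 : e ∣ n - 1 := (Nat.modEq_iff_dvd' hn0).1 (hnv.1.trans hv1).symm
    have h2 : f ∣ n := (Nat.modEq_zero_iff_dvd).1 (hnv.2.trans hv0)
    refine ⟨⟨hn0, hnx⟩, ?_, ?_⟩
    · rw [hf, mul_comm e f]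
      unfold h2M
      apply mul_dvd_mul h2
      apply Finset.prod_dvd_prod_of_subset
      intro p hp
      rw [mem_filter]
      exact ⟨(hTB p hp).1, (Finset.dvd_prod_of_mem _ hp).trans h1⟩
    · ext p
      simp only [mem_filter]
      constructor
      · rintro ⟨⟨hpB, hpd⟩, hpn⟩
        have hpp := hB p hpB
        rw [hf] at hpd
        rcases (Nat.Prime.dvd_mul hpp).1 hpd with h3 | h3
        · rw [he, hpp.prime.dvd_finsetProd_iff] at h3
          obtain ⟨q, hq, hpq⟩ := h3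
          have hpq' : p = q := (Nat.prime_dvd_prime_iff_eq hpp (hTp q hq)).1 hpq
          exact hpq' ▸ hq
        · exfalso
          have h4 : p ∣ n := h3.trans h2
          have h5 : p ∣ 1 := by
            have := (Nat.dvd_sub h4 hpn)
            have h6 : n - (n - 1) = 1 := by omega
            rwa [h6] at this
          exact hpp.one_lt.ne' (Nat.dvd_one.1 h5)
      · intro hp
        exact ⟨⟨(hTB p hp).1, (hTB p hp).2⟩, (Finset.dvd_prod_of_mem _ hp).trans h1⟩

/-- the counting function of the sieve -/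
theorem h2_count (x : ℕ) (B : Finset ℕ) (hB : ∀ q ∈ B, q.Prime) (d : ℕ) (hd : Squarefree d) :
    |(((Ioc 0 x).filter (fun n => d ∣ h2M B n)).card : ℝ) -
      (2 : ℝ) ^ (B.filter (· ∣ d)).card / d * x| ≤ (2 : ℝ) ^ (B.filter (· ∣ d)).card := by
  set S := B.filter (· ∣ d) with hS
  have h1 : ((Ioc 0 x).filter (fun n => d ∣ h2M B n)).card =
      ∑ T ∈ S.powerset, (((Ioc 0 x).filter (fun n => d ∣ h2M B n)).filter
        (fun n => S.filter (· ∣ n - 1) = T)).card := by
    apply card_eq_sum_card_fiberwise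
    intro n _
    simp only [coe_powerset, Set.mem_preimage, Set.mem_powerset_iff, coe_subset]
    exact filter_subset _ _
  have hd0 : 0 < d := Nat.pos_of_ne_zero hd.ne_zero
  have h2 : ∀ T ∈ S.powerset, |((((Ioc 0 x).filter (fun n => d ∣ h2M B n)).filter
        (fun n => S.filter (· ∣ n - 1) = T)).card : ℝ) - x / d| ≤ 1 := by
    intro T hT
    rw [mem_powerset] at hT
    rw [filter_filter]
    obtain ⟨v, hv⟩ := h2_piece x B hB d hd T hT
    rw [hv]
    exact h2_class_count x d v hd0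
  rw [h1]
  push_cast
  have h3 : (2 : ℝ) ^ S.card / d * x = ∑ T ∈ S.powerset, (x : ℝ) / d := by
    rw [sum_const, card_powerset, nsmul_eq_mul]
    push_cast
    ring
  rw [h3, ← sum_sub_distrib]
  refine (abs_sum_le_sum_abs _ _).trans ((sum_le_sum h2).trans ?_)
  rw [sum_const, card_powerset, nsmul_eq_mul]
  push_cast
  simp

/-- the density of the sieve -/
noncomputable def h2nu (B : Finset ℕ) : ArithmeticFunction ℝ :=
  ⟨fun d => (2 : ℝ) ^ (B.filter (· ∣ d)).card / d, by simp⟩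

theorem h2nu_apply (B : Finset ℕ) (d : ℕ) :
    h2nu B d = (2 : ℝ) ^ (B.filter (· ∣ d)).card / d := rfl

theorem h2_card_mul (B : Finset ℕ) (hB : ∀ q ∈ B, q.Prime) (m n : ℕ) (h : m.Coprime n) :
    (B.filter (· ∣ m * n)).card = (B.filter (· ∣ m)).card + (B.filter (· ∣ n)).card := by
  rw [← card_union_of_disjoint]
  · congr 1
    ext q
    simp only [mem_filter, mem_union]
    constructor
    · rintro ⟨hq, hqd⟩
      rcases (Nat.Prime.dvd_mul (hB q hq)).1 hqd with h1 | h1
      · exact Or.inl ⟨hq, h1⟩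
      · exact Or.inr ⟨hq, h1⟩
    · rintro (⟨hq, h1⟩ | ⟨hq, h1⟩)
      · exact ⟨hq, h1.mul_right n⟩
      · exact ⟨hq, h1.mul_left m⟩
  · rw [disjoint_left]
    intro q hq1 hq2
    rw [mem_filter] at hq1 hq2
    have := Nat.dvd_gcd hq1.2 hq2.2
    rw [h.gcd_eq_one] at this
    exact (hB q hq1.1).one_lt.ne' (Nat.dvd_one.1 this)

theorem h2nu_mult (B : Finset ℕ) (hB : ∀ q ∈ B, q.Prime) : (h2nu B).IsMultiplicative := by
  constructor
  · rw [h2nu_apply]
    have : B.filter (· ∣ 1) = ∅ := by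
      rw [filter_eq_empty_iff]
      intro q hq h
      exact (hB q hq).one_lt.ne' (Nat.dvd_one.1 h)
    rw [this]
    simp
  · intro m n h
    rw [h2nu_apply, h2nu_apply, h2nu_apply, h2_card_mul B hB m n h, pow_add]
    push_cast
    rw [div_mul_div_comm]

theorem h2_card_le_one (B : Finset ℕ) (hB : ∀ q ∈ B, q.Prime) (p : ℕ) (hp : p.Prime) :
    (B.filter (· ∣ p)).card ≤ 1 ∧ (p ∉ B → (B.filter (· ∣ p)).card = 0) := by
  have h : B.filter (· ∣ p) ⊆ {p} := by
    intro q hq
    rw [mem_filter] at hq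
    rw [mem_singleton]
    exact (Nat.prime_dvd_prime_iff_eq (hB q hq.1) hp).1 hq.2
  refine ⟨(card_le_card h).trans (by simp), ?_⟩
  intro hpB
  rw [card_eq_zero, filter_eq_empty_iff]
  intro q hq hqp
  have := (Nat.prime_dvd_prime_iff_eq (hB q hq) hp).1 hqp
  exact hpB (this ▸ hq)

/-- the product of the primes up to `Q` -/
def h2P (Q : ℕ) : ℕ := ∏ p ∈ (range (Q + 1)).filter Nat.Prime, p

theorem h2P_sqf (Q : ℕ) : Squarefree (h2P Q) := by
  unfold h2P
  refine Finset.squarefree_prod_of_pairwise_isCoprime (fun p hp q hq hpq ↦ ?_) ?_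
  · have hp' := (mem_filter.1 hp).2
    have hq' := (mem_filter.1 hq).2
    exact Nat.coprime_iff_isRelPrime.1 ((Nat.coprime_primes hp' hq').2 hpq)
  · intro p hp
    exact (mem_filter.1 hp).2.prime.squarefree

theorem h2P_prime_dvd (Q p : ℕ) (hp : p.Prime) : p ∣ h2P Q ↔ p ≤ Q := by
  unfold h2P
  rw [hp.prime.dvd_finsetProd_iff]
  constructor
  · rintro ⟨q, hq, hpq⟩
    rw [mem_filter, mem_range] at hq
    rw [(Nat.prime_dvd_prime_iff_eq hp hq.2).1 hpq]
    omega
  · intro h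
    exact ⟨p, by rw [mem_filter, mem_range]; exact ⟨by omega, hp⟩, dvd_rfl⟩

theorem h2P_dvd (Q m : ℕ) (hm : Squarefree m) (hmQ : m ≤ Q) : m ∣ h2P Q := by
  rw [← Nat.prod_primeFactors_of_squarefree hm]
  apply Finset.prod_primes_dvd
  · intro p hp
    exact (Nat.prime_of_mem_primeFactors hp).prime
  · intro p hp
    have hpp := Nat.prime_of_mem_primeFactors hp
    rw [h2P_prime_dvd Q p hpp]
    exact (Nat.le_of_dvd (Nat.pos_of_ne_zero hm.ne_zero) (Nat.dvd_of_mem_primeFactors hp)).trans hmQ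

/-- the sieve problem -/
noncomputable def h2S (x Q : ℕ) (B : Finset ℕ) (hB : ∀ q ∈ B, q.Prime ∧ 3 ≤ q ∧ q ≤ Q) :
    BoundingSieve where
  support := (Ioc 0 x).image (h2M B)
  prodPrimes := h2P Q
  prodPrimes_squarefree := h2P_sqf Q
  weights m := (((Ioc 0 x).filter (fun n => h2M B n = m)).card : ℝ)
  weights_nonneg m := Nat.cast_nonneg _
  totalMass := x
  nu := h2nu B
  nu_mult := h2nu_mult B (fun q hq => (hB q hq).1)
  nu_pos_of_prime p hp _ := by
    rw [h2nu_apply]
    have : (0 : ℝ) < p := by exact_mod_cast hp.pos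
    positivity
  nu_lt_one_of_prime p hp _ := by
    have hB' : ∀ q ∈ B, q.Prime := fun q hq => (hB q hq).1
    rw [h2nu_apply]
    have hp0 : (0 : ℝ) < p := by exact_mod_cast hp.pos
    rw [div_lt_one hp0]
    by_cases hpB : p ∈ B
    · have h1 := (h2_card_le_one B hB' p hp).1
      have h3 : 3 ≤ p := (hB p hpB).2.1
      calc (2 : ℝ) ^ (B.filter (· ∣ p)).card ≤ 2 ^ 1 := by
            apply pow_le_pow_right₀ (by norm_num) h1
        _ < 3 := by norm_num
        _ ≤ p := by exact_mod_cast h3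
    · rw [(h2_card_le_one B hB' p hp).2 hpB, pow_zero]
      exact_mod_cast hp.one_lt

theorem h2_sum (x : ℕ) (B : Finset ℕ) (f : ℕ → ℝ) :
    ∑ m ∈ (Ioc 0 x).image (h2M B), f m * (((Ioc 0 x).filter (fun n => h2M B n = m)).card : ℝ) =
      ∑ n ∈ Ioc 0 x, f (h2M B n) := by
  rw [Finset.sum_comp f (h2M B)]
  apply sum_congr rfl
  intro m _
  rw [nsmul_eq_mul]
  ring

theorem h2_multSum (x Q : ℕ) (B : Finset ℕ) (hB : ∀ q ∈ B, q.Prime ∧ 3 ≤ q ∧ q ≤ Q) (d : ℕ) :
    (h2S x Q B hB).multSum d = (((Ioc 0 x).filter (fun n => d ∣ h2M B n)).card : ℝ) := by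
  have h := h2_sum x B (fun m => if d ∣ m then (1 : ℝ) else 0)
  have h2 : (h2S x Q B hB).multSum d = ∑ m ∈ (Ioc 0 x).image (h2M B),
      (if d ∣ m then (1 : ℝ) else 0) * (((Ioc 0 x).filter (fun n => h2M B n = m)).card : ℝ) := by
    unfold BoundingSieve.multSum
    apply sum_congr rfl
    intro m _
    split_ifs
    · rw [one_mul]; rfl
    · rw [zero_mul]
  rw [h2, h, ← sum_filter, sum_const, nsmul_eq_mul, mul_one]

theorem h2_siftedSum (x Q : ℕ) (B : Finset ℕ) (hB : ∀ q ∈ B, q.Prime ∧ 3 ≤ q ∧ q ≤ Q) :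
    (h2S x Q B hB).siftedSum =
      (((Ioc 0 x).filter (fun n => (h2P Q).Coprime (h2M B n))).card : ℝ) := by
  have h := h2_sum x B (fun m => if (h2P Q).Coprime m then (1 : ℝ) else 0)
  have h2 : (h2S x Q B hB).siftedSum = ∑ m ∈ (Ioc 0 x).image (h2M B),
      (if (h2P Q).Coprime m then (1 : ℝ) else 0) *
        (((Ioc 0 x).filter (fun n => h2M B n = m)).card : ℝ) := by
    unfold BoundingSieve.siftedSum
    apply sum_congr rfl
    intro m _
    change (if (h2P Q).Coprime m then _ else _) = _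
    split_ifs
    · rw [one_mul]; rfl
    · rw [zero_mul]
  rw [h2, h, ← sum_filter, sum_const, nsmul_eq_mul, mul_one]

theorem h2_rem (x Q : ℕ) (B : Finset ℕ) (hB : ∀ q ∈ B, q.Prime ∧ 3 ≤ q ∧ q ≤ Q) (d : ℕ)
    (hd : Squarefree d) :
    |(h2S x Q B hB).rem d| ≤ (2 : ℝ) ^ (B.filter (· ∣ d)).card := by
  have h := h2_count x B (fun q hq => (hB q hq).1) d hd
  have h1 : (h2S x Q B hB).rem d = (h2S x Q B hB).multSum d - h2nu B d * x := rfl
  rw [h1, h2_multSum, h2nu_apply]
  exact h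

theorem h2_card_lcm (B : Finset ℕ) (hB : ∀ q ∈ B, q.Prime) (m n : ℕ) :
    (B.filter (· ∣ Nat.lcm m n)).card ≤ (B.filter (· ∣ m)).card + (B.filter (· ∣ n)).card := by
  refine (card_le_card ?_).trans (card_union_le _ _)
  intro q hq
  rw [mem_filter] at hq
  rw [mem_union, mem_filter, mem_filter]
  rcases ((Nat.Prime.dvd_lcm (hB q hq.1)).1 hq.2) with h | h
  · exact Or.inl ⟨hq.1, h⟩
  · exact Or.inr ⟨hq.1, h⟩

/-- PART H2 (two residue classes at the primes of `B`). -/
theorem sieve_count (x Q : ℕ) (hQ : 1 ≤ Q) (B : Finset ℕ)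
    (hB : ∀ q ∈ B, q.Prime ∧ 3 ≤ q ∧ q ≤ Q) :
    (((range (x + 1)).filter (fun p => p.Prime ∧ ∀ q ∈ B, ¬ q ∣ p - 1)).card : ℝ) ≤
      x / (∑ m ∈ (range (Q + 1)).filter Squarefree, (2 : ℝ) ^ (B.filter (· ∣ m)).card / m) +
        Q ^ 6 + Q := by
  have hB' : ∀ q ∈ B, q.Prime := fun q hq => (hB q hq).1
  have hsel := selberg (h2S x Q B hB) (by change (0 : ℝ) ≤ (x : ℝ); positivity) Q hQ
  rw [h2_siftedSum] at hsel
  -- the count of primes
  have hcount : (((range (x + 1)).filter (fun p => p.Prime ∧ ∀ q ∈ B, ¬ q ∣ p - 1)).card : ℝ) ≤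
      (((Ioc 0 x).filter (fun n => (h2P Q).Coprime (h2M B n))).card : ℝ) + Q := by
    have h1 : (range (x + 1)).filter (fun p => p.Prime ∧ ∀ q ∈ B, ¬ q ∣ p - 1) ⊆
        (Ioc 0 x).filter (fun n => (h2P Q).Coprime (h2M B n)) ∪ Ioc 0 Q := by
      intro p hp
      rw [mem_filter, mem_range] at hp
      obtain ⟨hpx, hpp, hpB⟩ := hp
      rw [mem_union]
      by_cases hpQ : p ≤ Q
      · right
        rw [mem_Ioc]
        exact ⟨hpp.pos, hpQ⟩
      · left
        rw [mem_filter, mem_Ioc]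
        refine ⟨⟨hpp.pos, by omega⟩, ?_⟩
        have h2 : h2M B p = p := by
          unfold h2M
          have : B.filter (· ∣ p - 1) = ∅ := by
            rw [filter_eq_empty_iff]
            exact fun q hq => hpB q hq
          rw [this, prod_empty, mul_one]
        rw [h2, Nat.coprime_comm, Nat.Prime.coprime_iff_not_dvd hpp, h2P_prime_dvd Q p hpp]
        exact hpQ
    have h2 := (card_le_card h1).trans (card_union_le _ _)
    rw [Nat.card_Ioc] at h2
    have h3 : (((range (x + 1)).filter (fun p => p.Prime ∧ ∀ q ∈ B, ¬ q ∣ p - 1)).card : ℝ) ≤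
      ((((Ioc 0 x).filter (fun n => (h2P Q).Coprime (h2M B n))).card + (Q - 0) : ℕ) : ℝ) := by
      exact_mod_cast h2
    simpa using h3
  refine hcount.trans ?_
  have hG0 : 0 < ∑ m ∈ (range (Q + 1)).filter Squarefree,
      (2 : ℝ) ^ (B.filter (· ∣ m)).card / m := by
    apply sum_pos
    · intro m hm
      rw [mem_filter] at hm
      have : (0 : ℝ) < m := by exact_mod_cast Nat.pos_of_ne_zero hm.2.ne_zero
      positivity
    · exact ⟨1, by rw [mem_filter, mem_range]; exact ⟨by omega, squarefree_one⟩⟩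
  -- main term
  have hG : ∑ m ∈ (range (Q + 1)).filter Squarefree, (2 : ℝ) ^ (B.filter (· ∣ m)).card / m ≤
      ∑ l ∈ (h2S x Q B hB).prodPrimes.divisors with l ≤ Q, (h2S x Q B hB).selbergTerms l := by
    have hsub : (range (Q + 1)).filter Squarefree ⊆
        (h2S x Q B hB).prodPrimes.divisors.filter (· ≤ Q) := by
      intro m hm
      rw [mem_filter, mem_range] at hm
      rw [mem_filter, Nat.mem_divisors]
      exact ⟨⟨h2P_dvd Q m hm.2 (by omega), prodPrimes_ne_zero⟩, by omega⟩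
    refine le_trans ?_ (sum_le_sum_of_subset_of_nonneg hsub ?_)
    · apply sum_le_sum
      intro m hm
      have hmP := Nat.dvd_of_mem_divisors (mem_filter.1 (hsub hm)).1
      rw [selbergTerms_apply]
      have h1 : (h2S x Q B hB).nu m = (2 : ℝ) ^ (B.filter (· ∣ m)).card / m := rfl
      rw [h1]
      have h2 : (1 : ℝ) ≤ ∏ p ∈ m.primeFactors, (1 - (h2S x Q B hB).nu p)⁻¹ := by
        have : (1 : ℝ) = ∏ p ∈ m.primeFactors, (1 : ℝ) := by simp
        rw [this]
        apply prod_le_prod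
        · intro p _
          norm_num
        · intro p hp
          have hpp := Nat.prime_of_mem_primeFactors hp
          have hpP := (Nat.dvd_of_mem_primeFactors hp).trans hmP
          have h3 := (h2S x Q B hB).nu_pos_of_prime p hpp hpP
          have h4 := (h2S x Q B hB).nu_lt_one_of_prime p hpp hpP
          rw [one_le_inv₀ (by linarith)]
          linarith
      have h5 : (0 : ℝ) ≤ (2 : ℝ) ^ (B.filter (· ∣ m)).card / m := by positivity
      nlinarith
    · intro l hl _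
      exact (selbergTerms_pos (Nat.dvd_of_mem_divisors (mem_filter.1 hl).1)).le
  have hmain : (h2S x Q B hB).totalMass /
      (∑ l ∈ (h2S x Q B hB).prodPrimes.divisors with l ≤ Q, (h2S x Q B hB).selbergTerms l) ≤
      x / (∑ m ∈ (range (Q + 1)).filter Squarefree, (2 : ℝ) ^ (B.filter (· ∣ m)).card / m) := by
    change (x : ℝ) / _ ≤ _
    apply div_le_div_of_nonneg_left (by positivity) hG0 hG
  -- error term
  have herr : ∑ d1 ∈ (h2S x Q B hB).prodPrimes.divisors with d1 ≤ Q,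
      ∑ d2 ∈ (h2S x Q B hB).prodPrimes.divisors with d2 ≤ Q,
        ((h2S x Q B hB).nu d1)⁻¹ * ((h2S x Q B hB).nu d2)⁻¹ *
          |(h2S x Q B hB).rem (Nat.lcm d1 d2)| ≤ (Q : ℝ) ^ 4 := by
    have hcard : ((h2S x Q B hB).prodPrimes.divisors.filter (· ≤ Q)).card ≤ Q := by
      have : (h2S x Q B hB).prodPrimes.divisors.filter (· ≤ Q) ⊆ Ioc 0 Q := by
        intro d hd
        rw [mem_filter] at hd
        rw [mem_Ioc]
        exact ⟨Nat.pos_of_mem_divisors hd.1, hd.2⟩
      have h := card_le_card this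
      rwa [Nat.card_Ioc, Nat.sub_zero] at h
    have hterm : ∀ d1 ∈ (h2S x Q B hB).prodPrimes.divisors.filter (· ≤ Q),
        ∀ d2 ∈ (h2S x Q B hB).prodPrimes.divisors.filter (· ≤ Q),
        ((h2S x Q B hB).nu d1)⁻¹ * ((h2S x Q B hB).nu d2)⁻¹ *
          |(h2S x Q B hB).rem (Nat.lcm d1 d2)| ≤ (Q : ℝ) ^ 2 := by
      intro d1 hd1 d2 hd2
      rw [mem_filter] at hd1 hd2
      have hd1' := Nat.dvd_of_mem_divisors hd1.1
      have hd2' := Nat.dvd_of_mem_divisors hd2.1
      have hlcm : Nat.lcm d1 d2 ∣ (h2S x Q B hB).prodPrimes := Nat.lcm_dvd hd1' hd2'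
      have h1 := h2_rem x Q B hB (Nat.lcm d1 d2) (squarefree_of_dvd_prodPrimes hlcm)
      have h2 : (2 : ℝ) ^ (B.filter (· ∣ Nat.lcm d1 d2)).card ≤
          (2 : ℝ) ^ (B.filter (· ∣ d1)).card * (2 : ℝ) ^ (B.filter (· ∣ d2)).card := by
        rw [← pow_add]
        exact pow_le_pow_right₀ (by norm_num) (h2_card_lcm B hB' d1 d2)
      have hn1 : ((h2S x Q B hB).nu d1)⁻¹ = d1 / (2 : ℝ) ^ (B.filter (· ∣ d1)).card := by
        change (h2nu B d1)⁻¹ = _
        rw [h2nu_apply, inv_div]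
      have hn2 : ((h2S x Q B hB).nu d2)⁻¹ = d2 / (2 : ℝ) ^ (B.filter (· ∣ d2)).card := by
        change (h2nu B d2)⁻¹ = _
        rw [h2nu_apply, inv_div]
      rw [hn1, hn2]
      calc (d1 : ℝ) / (2 : ℝ) ^ (B.filter (· ∣ d1)).card *
            (d2 / (2 : ℝ) ^ (B.filter (· ∣ d2)).card) * |(h2S x Q B hB).rem (Nat.lcm d1 d2)|
          ≤ (d1 : ℝ) / (2 : ℝ) ^ (B.filter (· ∣ d1)).card *
            (d2 / (2 : ℝ) ^ (B.filter (· ∣ d2)).card) *
            ((2 : ℝ) ^ (B.filter (· ∣ d1)).card * (2 : ℝ) ^ (B.filter (· ∣ d2)).card) := by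
            apply mul_le_mul_of_nonneg_left (h1.trans h2)
            positivity
        _ = (d1 : ℝ) * d2 := by
            field_simp
        _ ≤ (Q : ℝ) * Q := by
            have e1 : (d1 : ℝ) ≤ Q := by exact_mod_cast hd1.2
            have e2 : (d2 : ℝ) ≤ Q := by exact_mod_cast hd2.2
            gcongr
        _ = (Q : ℝ) ^ 2 := by ring
    calc ∑ d1 ∈ (h2S x Q B hB).prodPrimes.divisors with d1 ≤ Q,
        ∑ d2 ∈ (h2S x Q B hB).prodPrimes.divisors with d2 ≤ Q,
        ((h2S x Q B hB).nu d1)⁻¹ * ((h2S x Q B hB).nu d2)⁻¹ *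
          |(h2S x Q B hB).rem (Nat.lcm d1 d2)|
        ≤ ∑ d1 ∈ (h2S x Q B hB).prodPrimes.divisors with d1 ≤ Q,
        ∑ d2 ∈ (h2S x Q B hB).prodPrimes.divisors with d2 ≤ Q, (Q : ℝ) ^ 2 := by
          apply sum_le_sum
          intro d1 hd1
          apply sum_le_sum
          intro d2 hd2
          exact hterm d1 hd1 d2 hd2
      _ = (((h2S x Q B hB).prodPrimes.divisors.filter (· ≤ Q)).card : ℝ) *
          ((((h2S x Q B hB).prodPrimes.divisors.filter (· ≤ Q)).card : ℝ) * (Q : ℝ) ^ 2) := by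
          rw [sum_const, sum_const, nsmul_eq_mul, nsmul_eq_mul]
      _ ≤ (Q : ℝ) * ((Q : ℝ) * (Q : ℝ) ^ 2) := by
          have : (((h2S x Q B hB).prodPrimes.divisors.filter (· ≤ Q)).card : ℝ) ≤ Q := by
            exact_mod_cast hcard
          gcongr
      _ = (Q : ℝ) ^ 4 := by ring
  have hQ4 : (Q : ℝ) ^ 4 ≤ (Q : ℝ) ^ 6 := by
    apply pow_le_pow_right₀ (by exact_mod_cast hQ) (by norm_num)
  linarith

end Vale.Agent.VdW
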