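import Mathlib

/-!
# P053, part H3: lower bound for the denominator of the sieve
-/

namespace Vale.Agent.VdW

open Finset

/-- sum of reciprocals of the squarefree numbers up to `y` -/
noncomputable def h3T (y : ℕ) : ℝ := ∑ a ∈ (Ioc 0 y).filter Squarefree, (1 : ℝ) / a

theorem h3T_mono {y z : ℕ} (h : y ≤ z) : h3T y ≤ h3T z := by
  unfold h3T
  apply sum_le_sum_of_subset_of_nonneg
  · apply filter_subset_filter
    exact Ioc_subset_Ioc_right h
  · intro a _ _
    positivity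

theorem h3_sq (y : ℕ) : ∑ b ∈ Ioc 0 y, (1 : ℝ) / (b : ℝ) ^ 2 ≤ 2 := by
  have h : ∀ n : ℕ, ∑ b ∈ Ioc 0 (n + 1), (1 : ℝ) / (b : ℝ) ^ 2 ≤ 2 - 1 / ((n : ℝ) + 1) := by
    intro n
    induction n with
    | zero => simp; norm_num
    | succ n ih =>
      rw [Finset.sum_Ioc_succ_top (by omega)]
      have h1 : (1 : ℝ) / (((n + 1 + 1 : ℕ)) : ℝ) ^ 2 ≤
          1 / ((n : ℝ) + 1) - 1 / ((n : ℝ) + 1 + 1) := by
        have hn : (0 : ℝ) < (n : ℝ) + 1 := by positivity
        have hn2 : (0 : ℝ) < (n : ℝ) + 1 + 1 := by positivity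
        have : (1 : ℝ) / ((n : ℝ) + 1) - 1 / ((n : ℝ) + 1 + 1) =
            1 / (((n : ℝ) + 1) * ((n : ℝ) + 1 + 1)) := by
          field_simp
          ring
        rw [this]
        push_cast
        apply one_div_le_one_div_of_le (by positivity)
        nlinarith
      push_cast at h1 ⊢
      linarith
  rcases y with _ | n
  · simp
  · have h1 := h n
    have : (0 : ℝ) < 1 / ((n : ℝ) + 1) := by positivity
    linarith

theorem h3T_ge (y : ℕ) (hy : 1 ≤ y) : Real.log y / 2 ≤ h3T y := by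
  have hex : ∀ n : ℕ, ∃ p : ℕ × ℕ, p.1 ^ 2 * p.2 = n ∧ Squarefree p.2 := by
    intro n
    obtain ⟨a, b, h, hs⟩ := Nat.sq_mul_squarefree n
    exact ⟨(b, a), h, hs⟩
  choose φ hφ hsq using hex
  have h1 : ∑ n ∈ Ioc 0 y, (1 : ℝ) / n ≤
      ∑ p ∈ (Ioc 0 y) ×ˢ ((Ioc 0 y).filter Squarefree), (1 : ℝ) / ((p.1 : ℝ) ^ 2 * p.2) := by
    have h2 : ∑ n ∈ Ioc 0 y, (1 : ℝ) / n =
        ∑ p ∈ (Ioc 0 y).image φ, (1 : ℝ) / ((p.1 : ℝ) ^ 2 * p.2) := by
      rw [sum_image]
      · apply sum_congr rfl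
        intro n _
        rw [← Nat.cast_pow, ← Nat.cast_mul, hφ n]
      · intro a _ b _ hab
        rw [← hφ a, ← hφ b, hab]
    rw [h2]
    apply sum_le_sum_of_subset_of_nonneg
    · intro p hp
      rw [mem_image] at hp
      obtain ⟨n, hn, rfl⟩ := hp
      rw [mem_Ioc] at hn
      have h3 := hφ n
      have hb : (φ n).1 ≠ 0 := by
        intro h0
        rw [h0] at h3
        simp at h3
        omega
      have ha : (φ n).2 ≠ 0 := (hsq n).ne_zero
      rw [mem_product, mem_filter, mem_Ioc, mem_Ioc]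
      refine ⟨⟨Nat.pos_of_ne_zero hb, ?_⟩, ⟨Nat.pos_of_ne_zero ha, ?_⟩, hsq n⟩
      · have h4 : (φ n).1 ≤ (φ n).1 ^ 2 * (φ n).2 := by
          calc (φ n).1 = (φ n).1 * 1 * 1 := by ring
            _ ≤ (φ n).1 * (φ n).1 * (φ n).2 := by
              apply Nat.mul_le_mul
              · apply Nat.mul_le_mul_left
                exact Nat.pos_of_ne_zero hb
              · exact Nat.pos_of_ne_zero ha
            _ = (φ n).1 ^ 2 * (φ n).2 := by ring
        omega
      · have h4 : (φ n).2 ≤ (φ n).1 ^ 2 * (φ n).2 := by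
          apply Nat.le_mul_of_pos_left
          exact Nat.pow_pos (Nat.pos_of_ne_zero hb)
        omega
    · intro p _ _
      positivity
  have h5 : ∑ p ∈ (Ioc 0 y) ×ˢ ((Ioc 0 y).filter Squarefree), (1 : ℝ) / ((p.1 : ℝ) ^ 2 * p.2) =
      (∑ b ∈ Ioc 0 y, (1 : ℝ) / (b : ℝ) ^ 2) * h3T y := by
    unfold h3T
    rw [sum_product, sum_mul_sum]
    apply sum_congr rfl
    intro b _
    apply sum_congr rfl
    intro a _
    rw [div_mul_div_comm, one_mul]
  have hT0 : 0 ≤ h3T y := by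
    unfold h3T
    apply sum_nonneg
    intro a _
    positivity
  have h6 : Real.log y ≤ ∑ n ∈ Ioc 0 y, (1 : ℝ) / n := by
    have h7 := log_add_one_le_harmonic y
    have h8 : ((harmonic y : ℚ) : ℝ) = ∑ n ∈ Ioc 0 y, (1 : ℝ) / n := by
      rw [harmonic_eq_sum_Icc]
      push_cast
      have : Icc 1 y = Ioc 0 y := by
        ext n; simp [Nat.succ_le_iff]
      rw [this]
      apply sum_congr rfl
      intro n _
      rw [one_div]
    rw [← h8]
    refine le_trans ?_ h7
    apply Real.log_le_log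
    · exact_mod_cast hy
    · push_cast; linarith
  rw [h5] at h1
  have h9 := mul_le_mul_of_nonneg_right (h3_sq y) hT0
  linarith

/-- the part of the sum over multiples of `q` -/
theorem h3_mult (y Q q : ℕ) (hQ : y * y ≤ Q) (hq : q.Prime) (hq3 : 3 ≤ q) (hqy : q ≤ y) :
    h3T y / (2 * q) ≤ ∑ m ∈ ((range (Q + 1)).filter Squarefree).filter (q ∣ ·), (1 : ℝ) / m := by
  have hq0 : (0 : ℝ) < q := by exact_mod_cast hq.pos
  -- first: the sum over a ≤ y squarefree, coprime to q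
  have h1 : ∑ a ∈ ((Ioc 0 y).filter Squarefree).filter (fun a => ¬ q ∣ a), (1 : ℝ) / (q * a) ≤
      ∑ m ∈ ((range (Q + 1)).filter Squarefree).filter (q ∣ ·), (1 : ℝ) / m := by
    have h2 : ∑ a ∈ ((Ioc 0 y).filter Squarefree).filter (fun a => ¬ q ∣ a), (1 : ℝ) / (q * a) =
        ∑ m ∈ (((Ioc 0 y).filter Squarefree).filter (fun a => ¬ q ∣ a)).image (q * ·),
          (1 : ℝ) / m := by
      rw [sum_image]
      · apply sum_congr rfl
        intro a _
        push_cast
        rfl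
      · intro a _ b _ hab
        exact Nat.eq_of_mul_eq_mul_left hq.pos hab
    rw [h2]
    apply sum_le_sum_of_subset_of_nonneg
    · intro m hm
      rw [mem_image] at hm
      obtain ⟨a, ha, rfl⟩ := hm
      rw [mem_filter, mem_filter, mem_Ioc] at ha
      obtain ⟨⟨⟨ha0, hay⟩, hasq⟩, hqa⟩ := ha
      rw [mem_filter, mem_filter, mem_range]
      refine ⟨⟨?_, ?_⟩, dvd_mul_right q a⟩
      · have : q * a ≤ y * y := Nat.mul_le_mul hqy hay
        omega
      · rw [Nat.squarefree_mul_iff]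
        exact ⟨(Nat.Prime.coprime_iff_not_dvd hq).2 hqa, hq.prime.squarefree, hasq⟩
    · intro m _ _
      positivity
  refine le_trans ?_ h1
  -- second: the sum over multiples of q is at most T y / q
  have h3 : ∑ a ∈ ((Ioc 0 y).filter Squarefree).filter (fun a => q ∣ a), (1 : ℝ) / a ≤
      h3T y / q := by
    have h4 : ∀ a ∈ ((Ioc 0 y).filter Squarefree).filter (fun a => q ∣ a), (1 : ℝ) / a =
        (1 / q) * (1 / ((a / q : ℕ) : ℝ)) := by
      intro a ha
      rw [mem_filter] at ha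
      obtain ⟨b, rfl⟩ := ha.2
      rw [Nat.mul_div_cancel_left b hq.pos]
      push_cast
      rw [div_mul_div_comm, one_mul]
    rw [sum_congr rfl h4, ← mul_sum]
    have h5 : ∑ a ∈ ((Ioc 0 y).filter Squarefree).filter (fun a => q ∣ a),
        (1 : ℝ) / ((a / q : ℕ) : ℝ) ≤ h3T y := by
      have h6 : ∑ a ∈ ((Ioc 0 y).filter Squarefree).filter (fun a => q ∣ a),
        (1 : ℝ) / ((a / q : ℕ) : ℝ) =
        ∑ b ∈ (((Ioc 0 y).filter Squarefree).filter (fun a => q ∣ a)).image (· / q),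
          (1 : ℝ) / b := by
        rw [sum_image]
        intro a ha b hb hab
        rw [mem_coe, mem_filter] at ha hb
        obtain ⟨a', rfl⟩ := ha.2
        obtain ⟨b', rfl⟩ := hb.2
        simp only [Nat.mul_div_cancel_left _ hq.pos] at hab
        rw [hab]
      rw [h6]
      unfold h3T
      apply sum_le_sum_of_subset_of_nonneg
      · intro b hb
        rw [mem_image] at hb
        obtain ⟨a, ha, rfl⟩ := hb
        rw [mem_filter, mem_filter, mem_Ioc] at ha
        obtain ⟨⟨⟨ha0, hay⟩, hasq⟩, hqa⟩ := ha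
        obtain ⟨b, rfl⟩ := hqa
        rw [Nat.mul_div_cancel_left _ hq.pos, mem_filter, mem_Ioc]
        refine ⟨⟨?_, ?_⟩, hasq.of_mul_right⟩
        · rcases Nat.eq_zero_or_pos b with h | h
          · subst h; simp at ha0
          · exact h
        · exact (Nat.le_mul_of_pos_left b hq.pos).trans hay
      · intro b _ _
        positivity
    calc 1 / (q : ℝ) * ∑ a ∈ ((Ioc 0 y).filter Squarefree).filter (fun a => q ∣ a),
          (1 : ℝ) / ((a / q : ℕ) : ℝ) ≤ 1 / (q : ℝ) * h3T y := by gcongr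
      _ = h3T y / q := by ring
  have h7 : h3T y = ∑ a ∈ ((Ioc 0 y).filter Squarefree).filter (fun a => q ∣ a), (1 : ℝ) / a +
      ∑ a ∈ ((Ioc 0 y).filter Squarefree).filter (fun a => ¬ q ∣ a), (1 : ℝ) / a := by
    unfold h3T
    rw [sum_filter_add_sum_filter_not]
  have hT0 : 0 ≤ h3T y := by
    unfold h3T
    apply sum_nonneg
    intro a _
    positivity
  have h8 : h3T y / q ≤ h3T y / 3 := by
    apply div_le_div_of_nonneg_left hT0 (by norm_num)
    exact_mod_cast hq3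
  have h9 : h3T y / 2 ≤
      ∑ a ∈ ((Ioc 0 y).filter Squarefree).filter (fun a => ¬ q ∣ a), (1 : ℝ) / a := by
    linarith
  have h10 : ∑ a ∈ ((Ioc 0 y).filter Squarefree).filter (fun a => ¬ q ∣ a),
      (1 : ℝ) / (q * a) =
      (1 / q) * ∑ a ∈ ((Ioc 0 y).filter Squarefree).filter (fun a => ¬ q ∣ a), (1 : ℝ) / a := by
    rw [mul_sum]
    apply sum_congr rfl
    intro a _
    rw [div_mul_div_comm, one_mul]
  rw [h10]
  calc h3T y / (2 * q) = 1 / q * (h3T y / 2) := by field_simp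
    _ ≤ _ := by gcongr

/-- PART H3: lower bound for the denominator of H2. -/
theorem denominator (y Q : ℕ) (hy : 1 ≤ y) (hQ : y * y ≤ Q) (B : Finset ℕ)
    (hB : ∀ q ∈ B, q.Prime ∧ 3 ≤ q ∧ q ≤ y) :
    (1 + (∑ q ∈ B, (1 : ℝ) / q) / 2) * (Real.log y / 2) ≤
      ∑ m ∈ (range (Q + 1)).filter Squarefree, (2 : ℝ) ^ (B.filter (· ∣ m)).card / m := by
  have hT0 : 0 ≤ h3T y := by
    unfold h3T
    apply sum_nonneg
    intro a _
    positivity
  have h1 : ∀ m ∈ (range (Q + 1)).filter Squarefree,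
      (1 : ℝ) / m + ∑ q ∈ B, (if q ∣ m then (1 : ℝ) / m else 0) ≤
        (2 : ℝ) ^ (B.filter (· ∣ m)).card / m := by
    intro m hm
    rw [← sum_filter, sum_const, nsmul_eq_mul]
    have h2 : (1 : ℝ) + ((B.filter (· ∣ m)).card : ℝ) ≤ (2 : ℝ) ^ (B.filter (· ∣ m)).card := by
      have := one_add_mul_le_pow (show (-2 : ℝ) ≤ 1 by norm_num) (B.filter (· ∣ m)).card
      norm_num at this
      linarith
    have h3 : (1 : ℝ) / m + ((B.filter (· ∣ m)).card : ℝ) * (1 / m) =
        (1 + ((B.filter (· ∣ m)).card : ℝ)) / m := by ring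
    rw [h3]
    gcongr
  refine le_trans ?_ (sum_le_sum h1)
  rw [sum_add_distrib, sum_comm]
  have h4 : h3T y ≤ ∑ m ∈ (range (Q + 1)).filter Squarefree, (1 : ℝ) / m := by
    unfold h3T
    apply sum_le_sum_of_subset_of_nonneg
    · intro a ha
      rw [mem_filter, mem_Ioc] at ha
      rw [mem_filter, mem_range]
      have : y ≤ y * y := Nat.le_mul_of_pos_left y hy
      exact ⟨by omega, ha.2⟩
    · intro m _ _
      positivity
  have h5 : ∑ q ∈ B, h3T y / (2 * q) ≤
      ∑ q ∈ B, ∑ m ∈ (range (Q + 1)).filter Squarefree, (if q ∣ m then (1 : ℝ) / m else 0) := by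
    apply sum_le_sum
    intro q hq
    obtain ⟨hqp, hq3, hqy⟩ := hB q hq
    rw [← sum_filter]
    exact h3_mult y Q q hQ hqp hq3 hqy
  have h6 : ∑ q ∈ B, h3T y / (2 * q) = (∑ q ∈ B, (1 : ℝ) / q) / 2 * h3T y := by
    rw [sum_div, sum_mul]
    apply sum_congr rfl
    intro q _
    ring
  rw [h6] at h5
  have h7 := h3T_ge y hy
  have h8 : 0 ≤ ∑ q ∈ B, (1 : ℝ) / q := sum_nonneg (fun q _ => by positivity)
  calc (1 + (∑ q ∈ B, (1 : ℝ) / q) / 2) * (Real.log y / 2)
      ≤ (1 + (∑ q ∈ B, (1 : ℝ) / q) / 2) * h3T y := by gcongr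
    _ = h3T y + (∑ q ∈ B, (1 : ℝ) / q) / 2 * h3T y := by ring
    _ ≤ _ := by linarith

end Vale.Agent.VdW
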