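import Mathlib
import Vale.Agent.VdW.PartH2
import Vale.Agent.VdW.PartH3

/-!
# P053, part H4: conclusion of the sieve
-/

namespace Vale.Agent.VdW

open Finset

theorem h4_root (x : ℕ) : ∃ y : ℕ, y ^ 40 ≤ x ∧ x < (y + 1) ^ 40 := by
  refine ⟨Nat.findGreatest (fun y => y ^ 40 ≤ x) x, ?_, ?_⟩
  · have h := Nat.findGreatest_spec (P := fun y => y ^ 40 ≤ x) (m := 0) (n := x) (Nat.zero_le _)
      (by simp)
    exact h
  · by_contra hcon
    push Not at hcon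
    have h1 : Nat.findGreatest (fun y => y ^ 40 ≤ x) x + 1 ≤ x := by
      have h2 : Nat.findGreatest (fun y => y ^ 40 ≤ x) x + 1 ≤
          (Nat.findGreatest (fun y => y ^ 40 ≤ x) x + 1) ^ 40 :=
        Nat.le_self_pow (by norm_num) _
      omega
    have h3 := Nat.le_findGreatest (P := fun y => y ^ 40 ≤ x) h1 hcon
    omega

theorem h4_log (x y : ℝ) (hy : 40 ≤ y) (hx1 : 0 < x) (hx : x ≤ (y + 1) ^ 40) :
    Real.log x ≤ 41 * Real.log y := by
  have hy0 : (0 : ℝ) < y := by linarith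
  have hlogy : 1 ≤ Real.log y := by
    rw [Real.le_log_iff_exp_le hy0]
    have := Real.exp_one_lt_d9
    linarith
  have e1 : Real.log x ≤ Real.log ((y + 1) ^ 40) := Real.log_le_log hx1 hx
  rw [Real.log_pow] at e1
  have e2 : Real.log (y + 1) ≤ Real.log y + 1 / y := by
    have e3 : y + 1 = y * (1 + 1 / y) := by field_simp
    rw [e3, Real.log_mul hy0.ne' (by positivity)]
    have := Real.log_le_sub_one_of_pos (show (0 : ℝ) < 1 + 1 / y by positivity)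
    linarith
  have e4 : (1 : ℝ) / y ≤ 1 / 40 := one_div_le_one_div_of_le (by norm_num) hy
  push_cast at e1
  linarith

theorem h4_small (x y : ℝ) (hy : 40 ≤ y) (hx : y ^ 40 ≤ x) (hl0 : 0 < Real.log x)
    (hl : Real.log x ≤ 41 * Real.log y) : (y * y) ^ 6 + y * y ≤ x / (20 * Real.log x) := by
  have hy0 : (0 : ℝ) < y := by linarith
  rw [le_div_iff₀ (by positivity)]
  have e1 : Real.log y ≤ y := (Real.log_le_sub_one_of_pos hy0).trans (by linarith)
  have e2 : Real.log x ≤ 41 * y := by linarith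
  have e3 : (y * y) ^ 6 + y * y ≤ 2 * y ^ 12 := by
    have e4 : (y * y) ^ 6 = y ^ 12 := by ring
    have e5 : y * y ≤ y ^ 12 := by
      calc y * y = y ^ 2 := by ring
        _ ≤ y ^ 12 := pow_le_pow_right₀ (by linarith) (by norm_num)
    linarith
  have e6 : (1640 : ℝ) ≤ y ^ 27 := by
    calc (1640 : ℝ) ≤ 40 ^ 3 := by norm_num
      _ ≤ y ^ 3 := pow_le_pow_left₀ (by norm_num) hy 3
      _ ≤ y ^ 27 := pow_le_pow_right₀ (by linarith) (by norm_num)
  calc ((y * y) ^ 6 + y * y) * (20 * Real.log x)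
      ≤ (2 * y ^ 12) * (20 * (41 * y)) := by gcongr
    _ = 1640 * y ^ 13 := by ring
    _ ≤ y ^ 27 * y ^ 13 := by gcongr
    _ = y ^ 40 := by rw [← pow_add]
    _ ≤ x := hx

theorem h4_final (x G L σ l : ℝ) (hx0 : 0 < x) (hG0 : 0 < G) (hL : 0 < L) (hl : 1 ≤ l)
    (hLl : L ≤ 41 * l) (h2 : (1 + σ / 2) * (l / 2) ≤ G)
    (h3 : x / (4 * L) ≤ x / G + x / (20 * L)) : σ ≤ 1000 := by
  have h4 : x / (5 * L) ≤ x / G := by
    have e1 : x / (4 * L) - x / (20 * L) = x / (5 * L) := by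
      field_simp
      norm_num
    linarith
  have h5 : G ≤ 5 * L := by
    rw [div_le_div_iff₀ (by positivity) hG0] at h4
    exact le_of_mul_le_mul_left h4 hx0
  have h7 : (1 + σ / 2) / 2 ≤ 205 := by
    have e1 : (1 + σ / 2) / 2 * l ≤ 205 * l := by linarith
    exact le_of_mul_le_mul_right e1 (by linarith)
  linarith

/-- PART H4 (conclusion of the sieve). -/
theorem sum_inv_le : ∃ x0 : ℕ, ∀ x : ℕ, x0 ≤ x → ∀ B : Finset ℕ,
    (∀ q ∈ B, q.Prime ∧ 3 ≤ q ∧ q ^ 40 ≤ x) →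
    (x : ℝ) / (4 * Real.log x) ≤
      (((range (x + 1)).filter (fun p => p.Prime ∧ ∀ q ∈ B, ¬ q ∣ p - 1)).card : ℝ) →
    ∑ q ∈ B, (1 : ℝ) / q ≤ 1000 := by
  obtain ⟨e, he⟩ : ∃ e : ℕ, e = 40 := ⟨40, rfl⟩
  refine ⟨40 ^ e, ?_⟩
  intro x hx B hB hcount
  obtain ⟨y, hy1, hy2⟩ := h4_root x
  rw [← he] at hy1 hy2
  have hy40 : 40 ≤ y := by
    by_contra hlt
    push Not at hlt
    have h1 : (y + 1) ^ e ≤ 40 ^ e := Nat.pow_le_pow_left hlt e
    exact absurd (lt_of_lt_of_le hy2 (h1.trans hx)) (lt_irrefl _)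
  have hB' : ∀ q ∈ B, q.Prime ∧ 3 ≤ q ∧ q ≤ y := by
    intro q hq
    obtain ⟨h1, h2, h3⟩ := hB q hq
    refine ⟨h1, h2, ?_⟩
    by_contra hlt
    push Not at hlt
    rw [← he] at h3
    have h4 : (y + 1) ^ e ≤ q ^ e := Nat.pow_le_pow_left hlt e
    exact absurd (lt_of_lt_of_le hy2 (h4.trans h3)) (lt_irrefl _)
  have hyQ : y ≤ y * y := Nat.le_mul_of_pos_left y (by omega)
  have hBQ : ∀ q ∈ B, q.Prime ∧ 3 ≤ q ∧ q ≤ y * y := by
    intro q hq
    obtain ⟨h1, h2, h3⟩ := hB' q hq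
    exact ⟨h1, h2, h3.trans hyQ⟩
  have hy1' : 1 ≤ y := by omega
  have h1 := sieve_count x (y * y) (hy1'.trans hyQ) B hBQ
  have h2 := denominator y (y * y) hy1' le_rfl B hB'
  have hyR : (40 : ℝ) ≤ y := by exact_mod_cast hy40
  have hy0 : (0 : ℝ) < y := by linarith
  have hlogy : 1 ≤ Real.log y := by
    rw [Real.le_log_iff_exp_le hy0]
    have := Real.exp_one_lt_d9
    linarith
  have hxR : (y : ℝ) ^ 40 ≤ x := by rw [← he]; exact_mod_cast hy1
  have hxR2 : (x : ℝ) ≤ ((y : ℝ) + 1) ^ 40 := by rw [← he]; exact_mod_cast hy2.le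
  have hx0 : (0 : ℝ) < x := lt_of_lt_of_le (by positivity) hxR
  have hlogx := h4_log x y hyR hx0 hxR2
  have hlogx0 : 0 < Real.log x := by
    apply Real.log_pos
    have : (1 : ℝ) < (y : ℝ) ^ 40 := one_lt_pow₀ (by linarith) (by norm_num)
    linarith
  have hQ := h4_small x y hyR hxR hlogx0 hlogx
  rw [Nat.cast_mul] at h1
  have hσ0 : 0 ≤ ∑ q ∈ B, (1 : ℝ) / q := sum_nonneg (fun q _ => by positivity)
  have hG0 : 0 < (1 + (∑ q ∈ B, (1 : ℝ) / q) / 2) * (Real.log y / 2) := by positivity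
  refine h4_final x _ (Real.log x) _ (Real.log y) hx0 (hG0.trans_le h2) hlogx0 hlogy hlogx h2 ?_
  linarith

end Vale.Agent.VdW
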