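import Vale.Agent.VdW.Defs

/-!
# P053, Part J: the sum of the reciprocals of the primes in `(y, y^lam]` is large
-/

namespace Vale.Agent.VdW

open Finset

theorem sum_Icc_sub (g : ℕ → ℝ) {a b : ℕ} (h : a ≤ b) :
    ∑ q ∈ (Icc 0 b).filter Nat.Prime, g q - ∑ q ∈ (Icc 0 a).filter Nat.Prime, g q =
      ∑ q ∈ (Icc (a + 1) b).filter Nat.Prime, g q := by
  have hd : Disjoint ((Icc (a + 1) b).filter Nat.Prime) ((Icc 0 a).filter Nat.Prime) := by
    rw [Finset.disjoint_left]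
    intro q h1 h2
    simp only [mem_filter, mem_Icc] at h1 h2
    omega
  rw [sub_eq_iff_eq_add, ← Finset.sum_union hd]
  refine Finset.sum_congr ?_ fun _ _ => rfl
  ext q
  simp only [mem_union, mem_filter, mem_Icc]
  constructor
  · rintro ⟨h1, h2⟩
    by_cases hq : q ≤ a
    · right; exact ⟨⟨by omega, hq⟩, h2⟩
    · left; exact ⟨⟨by omega, h1.2⟩, h2⟩
  · rintro (⟨h1, h2⟩ | ⟨h1, h2⟩)
    · exact ⟨⟨by omega, h1.2⟩, h2⟩
    · exact ⟨⟨by omega, by omega⟩, h2⟩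

/-- sum of the reciprocals of the primes up to `n` -/
noncomputable def Fr (n : ℕ) : ℝ := ∑ q ∈ (Icc 0 n).filter Nat.Prime, (1 : ℝ) / q

theorem Fr_mono {a b : ℕ} (h : a ≤ b) : Fr a ≤ Fr b := by
  have := sum_Icc_sub (fun q => (1 : ℝ) / q) h
  have h2 : 0 ≤ ∑ q ∈ (Icc (a + 1) b).filter Nat.Prime, (1 : ℝ) / q :=
    Finset.sum_nonneg fun q _ => by positivity
  unfold Fr
  linarith

theorem theta_diff (u : ℕ) (hu : 10 ^ 9 ≤ u) :
    (u : ℝ) / 2 ≤ Chebyshev.theta ((3 * u : ℕ) : ℝ) - Chebyshev.theta (u : ℝ) := by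
  have hu' : (10 : ℝ) ^ 9 ≤ u := by exact_mod_cast hu
  have h1 := Chebyshev.theta_ge (3 * u)
  have h2 := Chebyshev.theta_le_log4_mul_x (show (0 : ℝ) ≤ u by positivity)
  have hl4 : Real.log 4 = 2 * Real.log 2 := by
    rw [show (4 : ℝ) = 2 ^ 2 by norm_num, Real.log_pow]; norm_num
  rw [hl4] at h2
  have hl2 : (0.6931471803 : ℝ) < Real.log 2 := Real.log_two_gt_d9
  set v : ℝ := ((3 * u : ℕ) : ℝ) with hv
  have hvu : v = 3 * u := by rw [hv]; push_cast; ring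
  have hv0 : 0 < v := by rw [hvu]; linarith
  set s : ℝ := Real.sqrt (Real.sqrt v) with hs
  have hs2 : s ^ 2 = Real.sqrt v := Real.sq_sqrt (Real.sqrt_nonneg _)
  have hs4 : s ^ 4 = v := by
    have : s ^ 4 = (s ^ 2) ^ 2 := by ring
    rw [this, hs2, Real.sq_sqrt hv0.le]
  have hs0 : 0 ≤ s := Real.sqrt_nonneg _
  have hs200 : 200 ≤ s := by
    by_contra hc
    push Not at hc
    have : s ^ 4 < 200 ^ 4 := pow_lt_pow_left₀ hc hs0 (by norm_num)
    rw [hs4, hvu] at this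
    linarith
  have hlogv : Real.log v ≤ 4 * (s - 1) := by
    rw [← hs4, Real.log_pow]
    have := Real.log_le_sub_one_of_pos (show 0 < s by linarith)
    push_cast
    linarith
  have hlogv1 : Real.log (v + 1) ≤ 4 * s := by
    have h3 : v + 1 = v * (1 + 1 / v) := by field_simp
    rw [h3, Real.log_mul (by positivity) (by positivity)]
    have h4 := Real.log_le_sub_one_of_pos (show 0 < 1 + 1 / v by positivity)
    have h5 : 1 / v ≤ 1 := by
      rw [div_le_one hv0]; rw [hvu]; linarith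
    linarith
  have herr : Real.log (v + 1) + 2 * Real.sqrt v * Real.log v ≤ v / 20 := by
    rw [← hs2]
    have h6 : 2 * s ^ 2 * Real.log v ≤ 2 * s ^ 2 * (4 * (s - 1)) :=
      mul_le_mul_of_nonneg_left hlogv (by positivity)
    have h7 : 4 * s + 2 * s ^ 2 * (4 * (s - 1)) ≤ s ^ 4 / 20 := by
      have h8 : s ^ 4 / 20 = s ^ 3 * s / 20 := by ring
      have h9 : s ^ 3 * 200 ≤ s ^ 3 * s := mul_le_mul_of_nonneg_left hs200 (by positivity)
      nlinarith [pow_nonneg hs0 2, pow_nonneg hs0 3]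
    linarith
  have h10 : v * Real.log 2 = 3 * (u * Real.log 2) := by rw [hvu]; ring
  have h11 : 0.6931471803 * (u : ℝ) ≤ u * Real.log 2 := by nlinarith
  rw [h10] at h1
  linarith

theorem block (u : ℕ) (hu : 10 ^ 9 ≤ u) :
    1 / (6 * Real.log ((3 * u : ℕ) : ℝ)) ≤ Fr (3 * u) - Fr u := by
  have hle : u ≤ 3 * u := by omega
  have hu' : (10 : ℝ) ^ 9 ≤ u := by exact_mod_cast hu
  have hd := theta_diff u hu
  rw [Chebyshev.theta_eq_sum_Icc, Chebyshev.theta_eq_sum_Icc, Nat.floor_natCast,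
    Nat.floor_natCast, sum_Icc_sub (fun q => Real.log q) hle] at hd
  unfold Fr
  rw [sum_Icc_sub (fun q => (1 : ℝ) / q) hle]
  have hv : (0 : ℝ) < ((3 * u : ℕ) : ℝ) := by push_cast; linarith
  have hlog : 0 < Real.log ((3 * u : ℕ) : ℝ) := by
    refine Real.log_pos ?_
    push_cast; linarith
  have h1 : ∑ q ∈ (Icc (u + 1) (3 * u)).filter Nat.Prime, Real.log q ≤
      (((3 * u : ℕ) : ℝ) * Real.log ((3 * u : ℕ) : ℝ)) *
        ∑ q ∈ (Icc (u + 1) (3 * u)).filter Nat.Prime, (1 : ℝ) / q := by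
    rw [Finset.mul_sum]
    refine Finset.sum_le_sum fun q hq => ?_
    simp only [mem_filter, mem_Icc] at hq
    have hq0 : (0 : ℝ) < q := by exact_mod_cast hq.2.pos
    have hq3 : (q : ℝ) ≤ ((3 * u : ℕ) : ℝ) := by exact_mod_cast hq.1.2
    have hlq : Real.log q ≤ Real.log ((3 * u : ℕ) : ℝ) := Real.log_le_log hq0 hq3
    have hlq0 : 0 ≤ Real.log q := Real.log_nonneg (by exact_mod_cast hq.2.one_lt.le)
    rw [mul_one_div, le_div_iff₀ hq0]
    calc Real.log q * q ≤ Real.log ((3 * u : ℕ) : ℝ) * ((3 * u : ℕ) : ℝ) :=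
          mul_le_mul hlq hq3 hq0.le hlog.le
      _ = _ := by ring
  rw [div_le_iff₀ (by positivity)]
  have h2 : (u : ℝ) / 2 ≤ (((3 * u : ℕ) : ℝ) * Real.log ((3 * u : ℕ) : ℝ)) *
        ∑ q ∈ (Icc (u + 1) (3 * u)).filter Nat.Prime, (1 : ℝ) / q := hd.trans h1
  have h3 : (((3 * u : ℕ) : ℝ) * Real.log ((3 * u : ℕ) : ℝ)) *
        ∑ q ∈ (Icc (u + 1) (3 * u)).filter Nat.Prime, (1 : ℝ) / q =
      (u : ℝ) / 2 * ((∑ q ∈ (Icc (u + 1) (3 * u)).filter Nat.Prime, (1 : ℝ) / q) *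
        (6 * Real.log ((3 * u : ℕ) : ℝ))) := by
    push_cast; ring
  rw [h3] at h2
  have h4 : (0 : ℝ) < (u : ℝ) / 2 := by linarith
  exact le_of_mul_le_mul_left (by linarith) h4

theorem blocks (y : ℕ) (hy : 10 ^ 9 ≤ y) (J J' : ℕ) (hJ : J ≤ J') :
    (J : ℝ) * (1 / (6 * Real.log ((3 ^ J' * y : ℕ) : ℝ))) ≤ Fr (3 ^ J * y) - Fr y := by
  induction J with
  | zero => simp
  | succ J ih =>
    have h1 := ih (by omega)
    have hy3 : 10 ^ 9 ≤ 3 ^ J * y := by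
      calc 10 ^ 9 ≤ y := hy
        _ ≤ 3 ^ J * y := Nat.le_mul_of_pos_left y (by positivity)
    have h2 := block (3 ^ J * y) hy3
    have h3 : 3 * (3 ^ J * y) = 3 ^ (J + 1) * y := by ring
    rw [h3] at h2
    have hpos : (1 : ℝ) < ((3 ^ (J + 1) * y : ℕ) : ℝ) := by
      have : 1 < 3 ^ (J + 1) * y := by rw [← h3]; omega
      exact_mod_cast this
    have hlog : 0 < Real.log ((3 ^ (J + 1) * y : ℕ) : ℝ) := Real.log_pos hpos
    have hle : Real.log ((3 ^ (J + 1) * y : ℕ) : ℝ) ≤ Real.log ((3 ^ J' * y : ℕ) : ℝ) := by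
      refine Real.log_le_log (by linarith) ?_
      have : 3 ^ (J + 1) * y ≤ 3 ^ J' * y :=
        Nat.mul_le_mul_right y (Nat.pow_le_pow_right (by norm_num) hJ)
      exact_mod_cast this
    have h4 : 1 / (6 * Real.log ((3 ^ J' * y : ℕ) : ℝ)) ≤
        1 / (6 * Real.log ((3 ^ (J + 1) * y : ℕ) : ℝ)) := by
      refine one_div_le_one_div_of_le (by positivity) ?_
      linarith
    push_cast at *
    linarith

theorem log_three_le : Real.log 3 ≤ 7 / 6 := by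
  have h1 := Real.log_le_sub_one_of_pos (show 0 < 3 / Real.exp 1 by positivity)
  rw [Real.log_div (by norm_num) (Real.exp_pos 1).ne', Real.log_exp] at h1
  have h2 : (2.7182818283 : ℝ) < Real.exp 1 := Real.exp_one_gt_d9
  have h3 : 3 / Real.exp 1 ≤ 7 / 6 := by
    rw [div_le_iff₀ (Real.exp_pos 1)]
    linarith
  linarith

theorem cube (y : ℕ) (hy : 10 ^ 9 ≤ y) : 1 / 14 ≤ Fr (y ^ 3) - Fr y := by
  set J := Nat.log 3 (y ^ 2) with hJ
  have hy1 : 1 ≤ y := by omega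
  have h1 : 3 ^ J ≤ y ^ 2 := Nat.pow_log_le_self 3 (by positivity)
  have h2 : y ^ 2 < 3 ^ (J + 1) := Nat.lt_pow_succ_log_self (by norm_num) _
  have hJ1 : 1 ≤ J := by
    by_contra hc
    have : J = 0 := by omega
    rw [this] at h2
    have h3 : (10 ^ 9) ^ 2 ≤ y ^ 2 := Nat.pow_le_pow_left hy 2
    omega
  have h3 := blocks y hy J J le_rfl
  have h4 : Fr (3 ^ J * y) ≤ Fr (y ^ 3) := by
    refine Fr_mono ?_
    calc 3 ^ J * y ≤ y ^ 2 * y := Nat.mul_le_mul_right y h1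
      _ = y ^ 3 := by ring
  have hy0 : (0 : ℝ) < y := by exact_mod_cast hy1
  have hl3 : 0 < Real.log 3 := Real.log_pos (by norm_num)
  have h5 : Real.log ((3 ^ J * y : ℕ) : ℝ) = J * Real.log 3 + Real.log y := by
    push_cast
    rw [Real.log_mul (by positivity) (by positivity), Real.log_pow]
  have h6 : 2 * Real.log y ≤ (J + 1) * Real.log 3 := by
    have h7 : ((y : ℝ)) ^ 2 ≤ 3 ^ (J + 1) := by exact_mod_cast h2.le
    have h8 := Real.log_le_log (by positivity) h7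
    rw [Real.log_pow, Real.log_pow] at h8
    push_cast at h8
    linarith
  have hJr : (1 : ℝ) ≤ J := by exact_mod_cast hJ1
  have h9 : Real.log ((3 ^ J * y : ℕ) : ℝ) ≤ 2 * J * Real.log 3 := by
    rw [h5]
    nlinarith
  have hlogpos : 0 < Real.log ((3 ^ J * y : ℕ) : ℝ) := by
    rw [h5]
    have : 0 ≤ Real.log y := Real.log_nonneg (by exact_mod_cast hy1)
    positivity
  have h10 : 1 / 14 ≤ (J : ℝ) * (1 / (6 * Real.log ((3 ^ J * y : ℕ) : ℝ))) := by
    rw [mul_one_div, div_le_div_iff₀ (by norm_num) (by positivity)]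
    have h11 := log_three_le
    nlinarith
  linarith

theorem iter (y : ℕ) (hy : 10 ^ 9 ≤ y) (m : ℕ) : (m : ℝ) / 14 ≤ Fr (y ^ 3 ^ m) - Fr y := by
  induction m with
  | zero => simp
  | succ m ih =>
    have hy1 : 1 ≤ y := by omega
    have h1 : 10 ^ 9 ≤ y ^ 3 ^ m := by
      calc 10 ^ 9 ≤ y := hy
        _ = y ^ 1 := (pow_one y).symm
        _ ≤ y ^ 3 ^ m := Nat.pow_le_pow_right hy1 (Nat.one_le_pow _ _ (by norm_num))
    have h2 := cube (y ^ 3 ^ m) h1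
    rw [← pow_mul, ← pow_succ] at h2
    push_cast
    linarith

/-- PART J (Chebyshev): the sum of the reciprocals of the primes in `(y, z]`, `z ≥ y^lam`, is
large. -/
theorem sum_inv_primes (C : ℝ) : ∃ (lam y0 : ℕ), 1 ≤ lam ∧ ∀ y z : ℕ, y0 ≤ y → y ^ lam ≤ z →
    C ≤ ∑ q ∈ (Icc (y + 1) z).filter Nat.Prime, (1 : ℝ) / q := by
  obtain ⟨m, hm⟩ := exists_nat_ge (14 * C)
  refine ⟨3 ^ m, 10 ^ 9, Nat.one_le_pow _ _ (by norm_num), fun y z hy hz => ?_⟩
  have hy1 : 1 ≤ y := by omega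
  have h1 : y ≤ y ^ 3 ^ m := by
    calc y = y ^ 1 := (pow_one y).symm
      _ ≤ y ^ 3 ^ m := Nat.pow_le_pow_right hy1 (Nat.one_le_pow _ _ (by norm_num))
  have h2 := iter y hy m
  have h3 := Fr_mono hz
  have h4 := sum_Icc_sub (fun q => (1 : ℝ) / q) (h1.trans hz)
  have h5 : Fr z - Fr y = ∑ q ∈ (Icc (y + 1) z).filter Nat.Prime, (1 : ℝ) / q := h4
  rw [← h5]
  linarith

end Vale.Agent.VdW
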