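import Vale.Agent.VdW.Defs

/-!
# P053, Part J2: Chebyshev lower bound for the number of primes
-/

namespace Vale.Agent.VdW

open Finset

/-- PART J2 (Chebyshev) -/
theorem pi_ge : ∃ x0 : ℕ, ∀ x : ℕ, x0 ≤ x →
    (x : ℝ) / (2 * Real.log x) ≤ (((range (x + 1)).filter Nat.Prime).card : ℝ) := by
  refine ⟨10000, fun x hx => ?_⟩
  have hx1 : (10000 : ℝ) ≤ x := by exact_mod_cast hx
  have h1 := Chebyshev.pi_ge x
  have hpi : (((range (x + 1)).filter Nat.Prime).card : ℝ) = (Nat.primeCounting x : ℝ) := by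
    rw [Nat.primeCounting, Nat.primeCounting', Nat.count_eq_card_filter_range]
  rw [hpi]
  refine le_trans ?_ h1
  have hlog : 0 < Real.log x := Real.log_pos (by linarith)
  rw [div_le_div_iff₀ (by positivity) hlog]
  have hl2 : (0.6931471803 : ℝ) < Real.log 2 := Real.log_two_gt_d9
  have hs : Real.log ((x : ℝ) + 1) ≤ 2 * Real.sqrt (x + 1) := by
    have h2 : Real.log ((x : ℝ) + 1) = 2 * Real.log (Real.sqrt (x + 1)) := by
      rw [Real.log_sqrt (by positivity)]; ring
    have h3 := Real.log_le_sub_one_of_pos (show 0 < Real.sqrt ((x : ℝ) + 1) by positivity)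
    linarith
  have hsq : Real.sqrt ((x : ℝ) + 1) ≤ (x + 1) / 100 := by
    rw [Real.sqrt_le_left (by positivity)]
    nlinarith
  have h4 : (x : ℝ) / 2 ≤ x * Real.log 2 - Real.log (x + 1) := by nlinarith
  nlinarith

end Vale.Agent.VdW
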