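import Vale.Agent.VdW.PartK0
import Vale.Agent.VdW.PartH4
import Vale.Agent.VdW.PartJ
import Vale.Agent.VdW.PartJ2

/-!
# P053, Part K: supply of good primes
-/

namespace Vale.Agent.VdW

open Finset

/-- PART K (supply), uses H4, J, J2 with `x = k^2`. -/
theorem supply : ∃ κ : ℝ, 0 < κ ∧ κ ≤ 1 ∧ ∀ A : ℕ, ∃ k0 : ℕ, ∀ k D : ℕ, k0 ≤ k → D ^ 20 ≤ k →
    k < (D + 1) ^ 20 → ∃ G : Finset ℕ, (∀ q ∈ G, q.Prime ∧ (k : ℝ) ^ κ ≤ q ∧ q ^ 2 ≤ D ∧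
      A * k ≤ ((Icc (4 * k) (k ^ 2)).filter (fun p => p.Prime ∧ q ∣ p - 1)).card) ∧
      1 / 2 ≤ ∑ q ∈ G, (1 : ℝ) / q ∧ ∑ q ∈ G, (1 : ℝ) / q ≤ 1 :=
  PartK.supply_of sum_inv_le sum_inv_primes pi_ge

end Vale.Agent.VdW
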