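import Vale.Agent.VdW.Defs

/-!
# P053, Part K: supply of good primes (conditional form; see `PartK.lean`)
-/

namespace Vale.Agent.VdW

open Finset Filter

namespace PartK

/-- choose a subset with sum in `[1/2, 1]` -/
theorem choose_sub (S : Finset ℕ) (f : ℕ → ℝ) (h : ∀ q ∈ S, f q ≤ 1 / 2)
    (hs : 1 / 2 ≤ ∑ q ∈ S, f q) :
    ∃ G : Finset ℕ, G ⊆ S ∧ 1 / 2 ≤ ∑ q ∈ G, f q ∧ ∑ q ∈ G, f q ≤ 1 := by
  classical
  induction S using Finset.induction_on with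
  | empty => simp at hs; norm_num at hs
  | insert a S ha ih =>
    by_cases h1 : 1 / 2 ≤ ∑ q ∈ S, f q
    · obtain ⟨G, hG, h2, h3⟩ := ih (fun q hq => h q (Finset.mem_insert_of_mem hq)) h1
      exact ⟨G, hG.trans (Finset.subset_insert _ _), h2, h3⟩
    · refine ⟨insert a S, Finset.Subset.refl _, hs, ?_⟩
      rw [Finset.sum_insert ha]
      have := h a (Finset.mem_insert_self _ _)
      push Not at h1
      linarith

theorem eventually_facts (κ : ℝ) (hκ : 0 < κ) (L : ℝ) (Y0 : ℝ) (A : ℝ) (hA : 0 ≤ A) :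
    ∃ k0 : ℕ, ∀ k : ℕ, k0 ≤ k → 2 ≤ k ∧ Y0 ≤ (k : ℝ) ^ κ ∧ L ≤ (k : ℝ) ^ (3 / 200 : ℝ) ∧
      8 * (4 + A) * Real.log k ≤ (k : ℝ) ^ (1 / 2 : ℝ) := by
  have t0 : Tendsto (fun k : ℕ => (k : ℝ)) atTop atTop := tendsto_natCast_atTop_atTop
  have h1 : ∀ᶠ k : ℕ in atTop, Y0 ≤ (k : ℝ) ^ κ :=
    ((tendsto_rpow_atTop hκ).comp t0).eventually_ge_atTop Y0
  have h2 : ∀ᶠ k : ℕ in atTop, L ≤ (k : ℝ) ^ (3 / 200 : ℝ) :=
    ((tendsto_rpow_atTop (by norm_num)).comp t0).eventually_ge_atTop L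
  have h3 : ∀ᶠ k : ℕ in atTop, 8 * (4 + A) * Real.log k ≤ (k : ℝ) ^ (1 / 2 : ℝ) := by
    have hlo := (isLittleO_log_rpow_atTop (r := 1 / 2) (by norm_num)).bound
      (show (0 : ℝ) < 1 / (8 * (4 + A)) by positivity)
    filter_upwards [t0.eventually hlo, eventually_ge_atTop 1] with k hk hk1
    have hk1' : (1 : ℝ) ≤ k := by exact_mod_cast hk1
    have hl : 0 ≤ Real.log k := Real.log_nonneg hk1'
    rw [Real.norm_of_nonneg hl, Real.norm_of_nonneg (by positivity)] at hk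
    have hp : (0 : ℝ) < 8 * (4 + A) := by positivity
    rw [one_div, inv_mul_eq_div, le_div_iff₀ hp] at hk
    linarith
  have h4 := ((eventually_ge_atTop 2).and (h1.and (h2.and h3)))
  obtain ⟨k0, hk0⟩ := eventually_atTop.mp h4
  exact ⟨k0, fun k hk => hk0 k hk⟩


/-- the parameters -/
theorem params (k D lam : ℕ) (κ : ℝ) (hlam : 1 ≤ lam) (hκ : κ = 1 / (100 * lam)) (hk2 : 2 ≤ k)
    (hL : (2 ^ lam + 1 : ℝ) ≤ (k : ℝ) ^ (3 / 200 : ℝ)) (hD2 : k < (D + 1) ^ 20) :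
    ⌈(k : ℝ) ^ κ⌉₊ ^ lam ≤ Nat.sqrt D := by
  have hD2' : (k : ℝ) < ((D : ℝ) + 1) ^ (20 : ℕ) := by exact_mod_cast hD2
  clear hD2
  have hlam' : (1 : ℝ) ≤ lam := by exact_mod_cast hlam
  have hκ0 : 0 < κ := by rw [hκ]; positivity
  have hkR : (2 : ℝ) ≤ k := by exact_mod_cast hk2
  have hkpos : (0 : ℝ) < k := by linarith
  have hk1R : (1 : ℝ) ≤ k := by linarith
  have hzl : D < (Nat.sqrt D + 1) * (Nat.sqrt D + 1) := Nat.lt_succ_sqrt D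
  generalize Nat.sqrt D = z at hzl
  have e1 : ((⌈(k : ℝ) ^ κ⌉₊ : ℕ) : ℝ) ≤ 2 * (k : ℝ) ^ κ := by
    have h1 : ((⌈(k : ℝ) ^ κ⌉₊ : ℕ) : ℝ) < (k : ℝ) ^ κ + 1 := Nat.ceil_lt_add_one (by positivity)
    have h2 : (1 : ℝ) ≤ (k : ℝ) ^ κ := Real.one_le_rpow hk1R hκ0.le
    linarith
  have hkl : ((k : ℝ) ^ κ) ^ lam = (k : ℝ) ^ (1 / 100 : ℝ) := by
    rw [← Real.rpow_natCast ((k : ℝ) ^ κ) lam, ← Real.rpow_mul hkpos.le]
    congr 1
    rw [hκ]; field_simp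
  generalize ⌈(k : ℝ) ^ κ⌉₊ = y at e1
  have e2 : (y : ℝ) ^ lam ≤ 2 ^ lam * (k : ℝ) ^ (1 / 100 : ℝ) := by
    rw [← hkl, ← mul_pow]
    exact pow_le_pow_left₀ (by positivity) e1 _
  have hkz : (k : ℝ) < (((z : ℝ) + 1) ^ (2 : ℕ)) ^ (20 : ℕ) := by
    have h1 : (D : ℝ) + 1 ≤ ((z : ℝ) + 1) ^ (2 : ℕ) := by
      have : D + 1 ≤ (z + 1) * (z + 1) := hzl
      rw [sq]
      exact_mod_cast this
    exact hD2'.trans_le (pow_le_pow_left₀ (by positivity) h1 _)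
  have e3 : (k : ℝ) ^ (1 / 40 : ℝ) < z + 1 := by
    have h2 : ((((z : ℝ) + 1) ^ (2 : ℕ)) ^ (20 : ℕ)) ^ (1 / 40 : ℝ) = z + 1 := by
      rw [← pow_mul, ← Real.rpow_natCast, ← Real.rpow_mul (by positivity)]
      norm_num
    rw [← h2]
    exact Real.rpow_lt_rpow hkpos.le hkz (by norm_num)
  have e4 : (k : ℝ) ^ (1 / 40 : ℝ) = (k : ℝ) ^ (3 / 200 : ℝ) * (k : ℝ) ^ (1 / 100 : ℝ) := by
    rw [← Real.rpow_add hkpos]; norm_num
  have e5 : (1 : ℝ) ≤ (k : ℝ) ^ (1 / 100 : ℝ) := Real.one_le_rpow hk1R (by norm_num)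
  have e6 : (2 ^ lam + 1 : ℝ) * (k : ℝ) ^ (1 / 100 : ℝ) ≤ (k : ℝ) ^ (1 / 40 : ℝ) := by
    rw [e4]; exact mul_le_mul_of_nonneg_right hL (by positivity)
  have e7 : (y : ℝ) ^ lam < z := by nlinarith
  have e8 : ((y ^ lam : ℕ) : ℝ) < (z : ℝ) := by
    rw [Nat.cast_pow]; exact e7
  exact le_of_lt (Nat.cast_lt.mp e8)

/-- the real-number inequality used in the count -/
theorem real_bound (k z A : ℕ) (hk2 : 2 ≤ k) (hz : z ^ 2 ≤ k)
    (hlog : 8 * (4 + A) * Real.log k ≤ (k : ℝ) ^ (1 / 2 : ℝ)) :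
    (4 * k + z * (A * k) : ℝ) ≤ ((k ^ 2 : ℕ) : ℝ) / (4 * (2 * Real.log k)) := by
  have hkR : (2 : ℝ) ≤ k := by exact_mod_cast hk2
  have hkpos : (0 : ℝ) < k := by linarith
  have hk1R : (1 : ℝ) ≤ k := by linarith
  have hlk : 0 < Real.log k := Real.log_pos (by linarith)
  have hzs : (z : ℝ) ≤ (k : ℝ) ^ (1 / 2 : ℝ) := by
    have h2 : ((z : ℝ)) ^ 2 ≤ k := by exact_mod_cast hz
    have h3 : Real.sqrt ((z : ℝ) ^ 2) ≤ Real.sqrt k := Real.sqrt_le_sqrt h2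
    rw [Real.sqrt_sq (Nat.cast_nonneg _), Real.sqrt_eq_rpow] at h3
    exact h3
  have hs1 : (1 : ℝ) ≤ (k : ℝ) ^ (1 / 2 : ℝ) := Real.one_le_rpow hk1R (by norm_num)
  have hss : (k : ℝ) ^ (1 / 2 : ℝ) * (k : ℝ) ^ (1 / 2 : ℝ) = k := by
    rw [← Real.rpow_add hkpos]; norm_num
  generalize (k : ℝ) ^ (1 / 2 : ℝ) = s at *
  rw [le_div_iff₀ (by positivity)]
  push_cast
  have hA0 : (0 : ℝ) ≤ A := Nat.cast_nonneg _
  have hz0 : (0 : ℝ) ≤ z := Nat.cast_nonneg _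
  calc (4 * k + z * (A * k) : ℝ) * (4 * (2 * Real.log k))
      = k * ((4 + z * A) * (8 * Real.log k)) := by ring
    _ ≤ k * (((4 + A) * s) * (8 * Real.log k)) := by
        refine mul_le_mul_of_nonneg_left (mul_le_mul_of_nonneg_right ?_ (by positivity)) hkpos.le
        have : (z : ℝ) * A ≤ s * A := mul_le_mul_of_nonneg_right hzs hA0
        nlinarith
    _ = k * (s * (8 * (4 + A) * Real.log k)) := by ring
    _ ≤ k * (s * s) := by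
        refine mul_le_mul_of_nonneg_left (mul_le_mul_of_nonneg_left hlog (by positivity)) hkpos.le
    _ = (k : ℝ) ^ 2 := by rw [hss]; ring

/-- counting the primes `p` with `p - 1` divisible by a bad prime -/
theorem count_bad (k z A : ℕ) (hk2 : 2 ≤ k) (hz : z ^ 2 ≤ k)
    (hlog : 8 * (4 + A) * Real.log k ≤ (k : ℝ) ^ (1 / 2 : ℝ))
    (hpi : ((k ^ 2 : ℕ) : ℝ) / (2 * Real.log ((k ^ 2 : ℕ) : ℝ)) ≤
      (((range (k ^ 2 + 1)).filter Nat.Prime).card : ℝ))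
    (B : Finset ℕ) (hBcard : B.card ≤ z)
    (hB : ∀ q ∈ B, ((Icc (4 * k) (k ^ 2)).filter (fun p => p.Prime ∧ q ∣ p - 1)).card ≤ A * k) :
    ((k ^ 2 : ℕ) : ℝ) / (4 * Real.log ((k ^ 2 : ℕ) : ℝ)) ≤
      (((range (k ^ 2 + 1)).filter (fun p => p.Prime ∧ ∀ q ∈ B, ¬ q ∣ p - 1)).card : ℝ) := by
  classical
  have hkR : (2 : ℝ) ≤ k := by exact_mod_cast hk2
  have hlk : 0 < Real.log k := Real.log_pos (by linarith)
  have hkey := real_bound k z A hk2 hz hlog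
  have hsub : (range (k ^ 2 + 1)).filter Nat.Prime ⊆
      (range (k ^ 2 + 1)).filter (fun p => p.Prime ∧ ∀ q ∈ B, ¬ q ∣ p - 1) ∪
      (range (4 * k) ∪
        B.biUnion (fun q => (Icc (4 * k) (k ^ 2)).filter (fun p => p.Prime ∧ q ∣ p - 1))) := by
    intro p hp
    rw [mem_filter, mem_range] at hp
    rw [mem_union, mem_union, mem_filter, mem_range, mem_range, mem_biUnion]
    by_cases h1 : ∀ q ∈ B, ¬ q ∣ p - 1
    · exact Or.inl ⟨hp.1, hp.2, h1⟩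
    · push Not at h1
      obtain ⟨q, hq, hqp⟩ := h1
      by_cases h2 : p < 4 * k
      · exact Or.inr (Or.inl h2)
      · refine Or.inr (Or.inr ⟨q, hq, ?_⟩)
        rw [mem_filter, mem_Icc]
        exact ⟨⟨Nat.le_of_not_lt h2, Nat.le_of_lt_succ hp.1⟩, hp.2, hqp⟩
  have hc2 := (Finset.card_le_card hsub).trans (Finset.card_union_le _ _)
  have hc3 : (range (4 * k) ∪
        B.biUnion (fun q => (Icc (4 * k) (k ^ 2)).filter (fun p => p.Prime ∧ q ∣ p - 1))).card ≤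
        4 * k + z * (A * k) := by
    refine (Finset.card_union_le _ _).trans ?_
    rw [Finset.card_range]
    refine Nat.add_le_add_left ?_ _
    refine Finset.card_biUnion_le.trans ?_
    refine (Finset.sum_le_card_nsmul _ _ (A * k) hB).trans ?_
    rw [smul_eq_mul]
    exact Nat.mul_le_mul_right _ hBcard
  have hc4 : (((range (k ^ 2 + 1)).filter Nat.Prime).card : ℝ) ≤
      (((range (k ^ 2 + 1)).filter (fun p => p.Prime ∧ ∀ q ∈ B, ¬ q ∣ p - 1)).card : ℝ) +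
        (4 * k + z * (A * k)) := by
    have := hc2.trans (Nat.add_le_add_left hc3 _)
    exact_mod_cast this
  have hx : Real.log ((k ^ 2 : ℕ) : ℝ) = 2 * Real.log k := by
    push_cast
    rw [Real.log_pow]; norm_num
  rw [hx] at hpi ⊢
  have hhalf : ((k ^ 2 : ℕ) : ℝ) / (2 * (2 * Real.log k)) =
      ((k ^ 2 : ℕ) : ℝ) / (4 * (2 * Real.log k)) + ((k ^ 2 : ℕ) : ℝ) / (4 * (2 * Real.log k)) := by
    field_simp
    norm_num
  rw [hhalf] at hpi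
  linarith

theorem supply_of
    (hH4 : ∃ x0 : ℕ, ∀ x : ℕ, x0 ≤ x → ∀ B : Finset ℕ,
      (∀ q ∈ B, q.Prime ∧ 3 ≤ q ∧ q ^ 40 ≤ x) →
      (x : ℝ) / (4 * Real.log x) ≤
        (((range (x + 1)).filter (fun p => p.Prime ∧ ∀ q ∈ B, ¬ q ∣ p - 1)).card : ℝ) →
      ∑ q ∈ B, (1 : ℝ) / q ≤ 1000)
    (hJ : ∀ C : ℝ, ∃ (lam y0 : ℕ), 1 ≤ lam ∧ ∀ y z : ℕ, y0 ≤ y → y ^ lam ≤ z →
      C ≤ ∑ q ∈ (Icc (y + 1) z).filter Nat.Prime, (1 : ℝ) / q)
    (hJ2 : ∃ x0 : ℕ, ∀ x : ℕ, x0 ≤ x →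
      (x : ℝ) / (2 * Real.log x) ≤ (((range (x + 1)).filter Nat.Prime).card : ℝ)) :
    ∃ κ : ℝ, 0 < κ ∧ κ ≤ 1 ∧ ∀ A : ℕ, ∃ k0 : ℕ, ∀ k D : ℕ, k0 ≤ k → D ^ 20 ≤ k →
    k < (D + 1) ^ 20 → ∃ G : Finset ℕ, (∀ q ∈ G, q.Prime ∧ (k : ℝ) ^ κ ≤ q ∧ q ^ 2 ≤ D ∧
      A * k ≤ ((Icc (4 * k) (k ^ 2)).filter (fun p => p.Prime ∧ q ∣ p - 1)).card) ∧
      1 / 2 ≤ ∑ q ∈ G, (1 : ℝ) / q ∧ ∑ q ∈ G, (1 : ℝ) / q ≤ 1 := by
  classical
  obtain ⟨x1, hx1⟩ := hH4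
  obtain ⟨lam, y0, hlam, hsum⟩ := hJ 1001
  obtain ⟨x2, hx2⟩ := hJ2
  have hlam' : (1 : ℝ) ≤ lam := by exact_mod_cast hlam
  refine ⟨1 / (100 * lam), by positivity, ?_, ?_⟩
  · rw [div_le_one (by positivity)]; linarith
  intro A
  obtain ⟨κ, hκ⟩ : ∃ κ : ℝ, κ = 1 / (100 * lam) := ⟨_, rfl⟩
  rw [← hκ]
  have hκ0 : 0 < κ := by rw [hκ]; positivity
  obtain ⟨k0, hk0⟩ := eventually_facts κ hκ0 (2 ^ lam + 1) (max (y0 : ℝ) 3) A (Nat.cast_nonneg _)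
  refine ⟨max k0 (max x1 x2), fun k D hk hD1 hD2 => ?_⟩
  obtain ⟨hk2, hY0, hL, hlog⟩ := hk0 k ((le_max_left _ _).trans hk)
  have hkx1 : x1 ≤ k := (le_max_left _ _).trans ((le_max_right _ _).trans hk)
  have hkx2 : x2 ≤ k := (le_max_right _ _).trans ((le_max_right _ _).trans hk)
  -- the parameters y, z
  have hylam := params k D lam κ hlam hκ hk2 hL hD2
  have hzz : (Nat.sqrt D) ^ 2 ≤ D := by rw [sq]; exact Nat.sqrt_le D
  have hyk : (k : ℝ) ^ κ ≤ (⌈(k : ℝ) ^ κ⌉₊ : ℕ) := Nat.le_ceil _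
  generalize Nat.sqrt D = z at hylam hzz
  generalize ⌈(k : ℝ) ^ κ⌉₊ = y at hylam hyk
  have hz40 : z ^ 40 ≤ k := by
    have h1 : (z ^ 2) ^ 20 ≤ D ^ 20 := Nat.pow_le_pow_left hzz 20
    rw [← pow_mul] at h1
    exact h1.trans hD1
  have hz2 : z ^ 2 ≤ k := by
    rcases Nat.eq_zero_or_pos z with h | h
    · rw [h, zero_pow (by norm_num)]; exact Nat.zero_le _
    · exact (Nat.pow_le_pow_right h (by norm_num)).trans hz40
  have hy0 : y0 ≤ y := by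
    have : (y0 : ℝ) ≤ y := (le_max_left _ _).trans (hY0.trans hyk)
    exact_mod_cast this
  have hy3 : 3 ≤ y := by
    have : (3 : ℝ) ≤ y := (le_max_right _ _).trans (hY0.trans hyk)
    exact_mod_cast this
  have hmain := hsum y z hy0 hylam
  -- bad primes
  set P : Finset ℕ := (Icc (y + 1) z).filter Nat.Prime with hP
  set B : Finset ℕ := P.filter (fun q => ¬ A * k ≤
    ((Icc (4 * k) (k ^ 2)).filter (fun p => p.Prime ∧ q ∣ p - 1)).card) with hB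
  set Gd : Finset ℕ := P.filter (fun q => A * k ≤
    ((Icc (4 * k) (k ^ 2)).filter (fun p => p.Prime ∧ q ∣ p - 1)).card) with hGd
  have hPmem : ∀ q ∈ P, q.Prime ∧ y + 1 ≤ q ∧ q ≤ z := by
    intro q hq
    rw [hP, mem_filter, mem_Icc] at hq
    exact ⟨hq.2, hq.1.1, hq.1.2⟩
  have hBcard : B.card ≤ z := by
    have : B ⊆ Icc 1 z := by
      intro q hq
      have := hPmem q (Finset.mem_filter.mp hq).1
      rw [mem_Icc]
      exact ⟨this.1.pos, this.2.2⟩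
    have h2 := Finset.card_le_card this
    simpa using h2
  have hkk : k ≤ k ^ 2 := Nat.le_self_pow (by norm_num) k
  have hbad : ∑ q ∈ B, (1 : ℝ) / q ≤ 1000 := by
    refine hx1 (k ^ 2) (hkx1.trans hkk) B ?_ ?_
    · intro q hq
      have h1 := hPmem q (Finset.mem_filter.mp hq).1
      exact ⟨h1.1, le_trans hy3 (le_trans (Nat.le_succ y) h1.2.1),
        ((Nat.pow_le_pow_left h1.2.2 40).trans hz40).trans hkk⟩
    · exact count_bad k z A hk2 hz2 hlog (hx2 (k ^ 2) (hkx2.trans hkk)) B hBcard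
        (fun q hq => (Nat.lt_of_not_le (Finset.mem_filter.mp hq).2).le)
  -- good primes
  clear hz40 hD1 hD2
  have hsplit : ∑ q ∈ P, (1 : ℝ) / q = ∑ q ∈ Gd, (1 : ℝ) / q + ∑ q ∈ B, (1 : ℝ) / q :=
    (Finset.sum_filter_add_sum_filter_not P _ _).symm
  have hgood : 1 ≤ ∑ q ∈ Gd, (1 : ℝ) / q := by
    rw [hsplit] at hmain
    linarith
  obtain ⟨G, hGsub, hG1, hG2⟩ := choose_sub Gd (fun q => (1 : ℝ) / q) (fun q hq => by
    have h1 := hPmem q (Finset.mem_filter.mp hq).1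
    have h2 : (2 : ℝ) ≤ q := by
      exact_mod_cast h1.1.two_le
    exact one_div_le_one_div_of_le (by norm_num) h2) (by linarith)
  refine ⟨G, fun q hq => ?_, hG1, hG2⟩
  have h1 := Finset.mem_filter.mp (hGsub hq)
  have h2 := hPmem q h1.1
  refine ⟨h2.1, ?_, ?_, h1.2⟩
  · refine hyk.trans ?_
    have : y ≤ q := le_trans (Nat.le_succ y) h2.2.1
    exact_mod_cast this
  · exact (Nat.pow_le_pow_left h2.2.2 2).trans hzz

end PartK

end Vale.Agent.VdW
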