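import Vale.Agent.VdW.Defs

/-!
# P053, Part L: many `i ≤ D` are divisible by an element of `G` (Bonferroni)
-/

namespace Vale.Agent.VdW

open Finset

namespace PartL

theorem card_mult (D m : ℕ) : ((Icc 1 D).filter (fun i => m ∣ i)).card = D / m := by
  have : Icc 1 D = Ioc 0 D := by
    ext x; simp only [mem_Icc, mem_Ioc]; omega
  rw [this, Nat.Ioc_filter_dvd_card_eq_div]

end PartL

/-- PART L (Bonferroni): many `i ≤ D` are divisible by an element of `G`. -/
theorem many_multiples (D : ℕ) (hD : 64 ≤ D) (G : Finset ℕ) (hG : ∀ q ∈ G, q.Prime ∧ q ^ 2 ≤ D)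
    (h1 : 1 / 2 ≤ ∑ q ∈ G, (1 : ℝ) / q) (h2 : ∑ q ∈ G, (1 : ℝ) / q ≤ 1) :
    (D : ℝ) / 8 ≤ ((Icc 1 D).filter (fun i => ∃ q ∈ G, q ∣ i)).card := by
  classical
  set σ : ℝ := ∑ q ∈ G, (1 : ℝ) / q with hσ
  have hDpos : (0 : ℝ) < D := by
    have : 0 < D := by omega
    exact_mod_cast this
  -- indicator functions
  set χ : ℕ → ℕ → ℝ := fun q i => if q ∣ i then 1 else 0 with hχ
  set n : ℕ → ℝ := fun i => ∑ q ∈ G, χ q i with hn
  -- pointwise inequality
  have hpt : ∀ i, (3 * n i - (n i) ^ 2) / 2 ≤ (if ∃ q ∈ G, q ∣ i then (1 : ℝ) else 0) := by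
    intro i
    have hcard : n i = ((G.filter (fun q => q ∣ i)).card : ℝ) := by
      simp only [hn, hχ]
      rw [Finset.sum_boole]
    split_ifs with h
    · rw [hcard]
      obtain ⟨m, hm⟩ : ∃ m, (G.filter (fun q => q ∣ i)).card = m := ⟨_, rfl⟩
      rw [hm]
      rcases Nat.lt_or_ge m 2 with h3 | h3
      · interval_cases m <;> norm_num
      · have h3' : (2 : ℝ) ≤ m := by exact_mod_cast h3
        nlinarith
    · have : (G.filter (fun q => q ∣ i)) = ∅ := by
        rw [Finset.filter_eq_empty_iff]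
        intro q hq hqi
        exact h ⟨q, hq, hqi⟩
      rw [hcard, this]
      simp
  -- first moment
  have hS1 : D * σ - G.card ≤ ∑ i ∈ Icc 1 D, n i := by
    have e1 : ∑ i ∈ Icc 1 D, n i = ∑ q ∈ G, ((D / q : ℕ) : ℝ) := by
      simp only [hn]
      rw [Finset.sum_comm]
      refine Finset.sum_congr rfl fun q _ => ?_
      simp only [hχ]
      rw [Finset.sum_boole, PartL.card_mult]
    rw [e1, hσ, Finset.mul_sum]
    have e2 : ((G.card : ℕ) : ℝ) = ∑ q ∈ G, (1 : ℝ) := by simp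
    rw [e2, ← Finset.sum_sub_distrib]
    refine Finset.sum_le_sum fun q hq => ?_
    have hq0 : 0 < q := (hG q hq).1.pos
    have hlt : D < q * (D / q + 1) := by
      have := Nat.lt_mul_div_succ D hq0
      simpa using this
    have hlt' : (D : ℝ) < q * ((D / q : ℕ) + 1) := by exact_mod_cast hlt
    have hq0' : (0 : ℝ) < q := by exact_mod_cast hq0
    have : (D : ℝ) / q < (D / q : ℕ) + 1 := by
      rw [div_lt_iff₀ hq0']
      linarith
    have h4 : (D : ℝ) * (1 / q) = D / q := by ring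
    rw [h4]
    linarith
  -- second moment
  have hS2 : ∑ i ∈ Icc 1 D, (n i) ^ 2 ≤ ∑ i ∈ Icc 1 D, n i + D * σ ^ 2 := by
    have hsq : ∀ i, (n i) ^ 2 = n i + ∑ q ∈ G, ∑ q' ∈ G.erase q, χ q i * χ q' i := by
      intro i
      have e1 : (n i) ^ 2 = ∑ q ∈ G, ∑ q' ∈ G, χ q i * χ q' i := by
        rw [sq]
        simp only [hn]
        rw [Finset.sum_mul_sum]
      rw [e1]
      simp only [hn]
      rw [← Finset.sum_add_distrib]
      refine Finset.sum_congr rfl fun q hq => ?_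
      rw [← Finset.add_sum_erase G _ hq]
      congr 1
      simp only [hχ]
      split_ifs <;> norm_num
    simp only [hsq]
    rw [Finset.sum_add_distrib]
    gcongr
    rw [Finset.sum_comm]
    have e3 : (D : ℝ) * σ ^ 2 = ∑ q ∈ G, ∑ q' ∈ G, (D : ℝ) * ((1 / q) * (1 / q')) := by
      rw [sq, hσ, Finset.sum_mul_sum, Finset.mul_sum]
      refine Finset.sum_congr rfl fun q _ => ?_
      rw [Finset.mul_sum]
    rw [e3]
    refine Finset.sum_le_sum fun q hq => ?_
    rw [Finset.sum_comm]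
    refine (Finset.sum_le_sum (f := fun q' => ∑ i ∈ Icc 1 D, χ q i * χ q' i)
      (g := fun q' : ℕ => (D : ℝ) * ((1 / q) * (1 / q'))) ?_).trans ?_
    · intro q' hq'
      have hne : q' ≠ q := (Finset.mem_erase.mp hq').1
      have hq'G := (Finset.mem_erase.mp hq').2
      have hcop : Nat.Coprime q q' :=
        (Nat.coprime_primes (hG q hq).1 (hG q' hq'G).1).mpr (Ne.symm hne)
      have e4 : ∑ i ∈ Icc 1 D, χ q i * χ q' i = ∑ i ∈ Icc 1 D, if q * q' ∣ i then (1 : ℝ) else 0 := by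
        refine Finset.sum_congr rfl fun i _ => ?_
        simp only [hχ]
        by_cases ha : q ∣ i
        · by_cases hb : q' ∣ i
          · have : q * q' ∣ i := Nat.Coprime.mul_dvd_of_dvd_of_dvd hcop ha hb
            simp [ha, hb, this]
          · have : ¬ q * q' ∣ i := fun h => hb (dvd_trans (dvd_mul_left _ _) h)
            simp [hb, this]
        · have : ¬ q * q' ∣ i := fun h => ha (dvd_trans (dvd_mul_right _ _) h)
          simp [ha, this]
      show ∑ i ∈ Icc 1 D, χ q i * χ q' i ≤ (D : ℝ) * ((1 / q) * (1 / q'))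
      rw [e4, Finset.sum_boole, PartL.card_mult]
      refine (Nat.cast_div_le).trans (le_of_eq ?_)
      push_cast
      rw [div_mul_div_comm, one_mul, mul_one_div]
    · refine Finset.sum_le_sum_of_subset_of_nonneg (Finset.erase_subset _ _) ?_
      intro q' _ _
      positivity
  -- cardinality of G
  have hGc : ((G.card : ℕ) : ℝ) ≤ D / 8 := by
    have hsub : G ⊆ Icc 1 (Nat.sqrt D) := by
      intro q hq
      rw [mem_Icc]
      refine ⟨(hG q hq).1.pos, ?_⟩
      rw [Nat.le_sqrt']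
      exact (hG q hq).2
    have hc : G.card ≤ Nat.sqrt D := by
      have := Finset.card_le_card hsub
      simpa using this
    have hs8 : 8 ≤ Nat.sqrt D := by
      rw [Nat.le_sqrt]; omega
    have hss : Nat.sqrt D * Nat.sqrt D ≤ D := Nat.sqrt_le D
    have h8 : 8 * Nat.sqrt D ≤ D := le_trans (Nat.mul_le_mul_right _ hs8) hss
    have h9 : 8 * G.card ≤ D := le_trans (Nat.mul_le_mul_left _ hc) h8
    have h10 : (8 : ℝ) * (G.card : ℕ) ≤ D := by exact_mod_cast h9
    linarith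
  -- conclusion
  have hfin : ∑ i ∈ Icc 1 D, (3 * n i - (n i) ^ 2) / 2 ≤
      (((Icc 1 D).filter (fun i => ∃ q ∈ G, q ∣ i)).card : ℝ) := by
    refine (Finset.sum_le_sum fun i _ => hpt i).trans ?_
    rw [Finset.sum_boole]
  have hexp : ∑ i ∈ Icc 1 D, (3 * n i - (n i) ^ 2) / 2 =
      (3 * ∑ i ∈ Icc 1 D, n i - ∑ i ∈ Icc 1 D, (n i) ^ 2) / 2 := by
    rw [← Finset.sum_div, Finset.sum_sub_distrib, ← Finset.mul_sum]
  rw [hexp] at hfin
  have h5 : D * σ - D / 8 - D * σ ^ 2 / 2 ≤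
      (((Icc 1 D).filter (fun i => ∃ q ∈ G, q ∣ i)).card : ℝ) := by
    linarith
  have h6 : (D : ℝ) / 8 ≤ D * σ - D / 8 - D * σ ^ 2 / 2 := by
    have : (1 : ℝ) / 8 ≤ σ - 1 / 8 - σ ^ 2 / 2 := by nlinarith
    nlinarith
  linarith

end Vale.Agent.VdW
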