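import Vale.Agent.VdW.Defs

/-!
# P053, Part M1: greedy choice of the sets of primes
-/

namespace Vale.Agent.VdW

open Finset

namespace PartM1

theorem one_lt_log4 : (1 : ℝ) < Real.log 4 := by
  have h : Real.log 4 = 2 * Real.log 2 := by
    rw [show (4 : ℝ) = 2 ^ 2 by norm_num, Real.log_pow]; norm_num
  have := Real.log_two_gt_d9
  rw [h]; linarith

theorem single (k q : ℕ) (hk : 2 ≤ k) (hq : q.Prime) (hqk : q ≤ k) (Y : ℝ) (hY : (k : ℝ) ^ 2 ≤ Y)
    (P : Finset ℕ) (hP : ∀ p ∈ P, 4 * k ≤ p ∧ p ≤ k ^ 2) (U : Finset ℕ)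
    (hU : (U.card : ℝ) + Real.log Y / Real.log 4 < (P.card : ℝ)) :
    ∃ S : Finset ℕ, S ⊆ P ∧ Disjoint S U ∧ ((∏ p ∈ S, (1 + (p - 1) / q) : ℕ) : ℝ) ≤ Y ∧
      (S.card : ℝ) ≤ Real.log Y / Real.log 4 ∧
      (1 + Real.log ((q : ℝ) / 2) / (2 * Real.log k)) * (Real.log Y - 2 * Real.log k) ≤
        Real.log ((∏ p ∈ S, p : ℕ) : ℝ) := by
  classical
  have hk2 : (2 : ℝ) ≤ k := by exact_mod_cast hk
  have hY4 : (4 : ℝ) ≤ Y := by nlinarith
  have hl4 := one_lt_log4
  have hq2 : (2 : ℝ) ≤ q := by exact_mod_cast hq.two_le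
  have hlogk : 0 < Real.log k := Real.log_pos (by linarith)
  have hlq : 0 ≤ Real.log ((q : ℝ) / 2) := Real.log_nonneg (by linarith)
  have hfac : ∀ p ∈ P, 4 ≤ 1 + (p - 1) / q ∧ 1 + (p - 1) / q ≤ k ^ 2 ∧
      q * (1 + (p - 1) / q) ≤ 2 * p := by
    intro p hp
    obtain ⟨h1, h2⟩ := hP p hp
    have hq0 : 0 < q := hq.pos
    refine ⟨?_, ?_, ?_⟩
    · have : 3 ≤ (p - 1) / q := by
        rw [Nat.le_div_iff_mul_le hq0]; omega
      omega
    · have : (p - 1) / q ≤ p - 1 := Nat.div_le_self _ _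
      omega
    · have : q * ((p - 1) / q) ≤ p - 1 := Nat.mul_div_le _ _
      rw [Nat.mul_add, Nat.mul_one]
      omega
  set F : Finset (Finset ℕ) := (P \ U).powerset.filter
    (fun S => ((∏ p ∈ S, (1 + (p - 1) / q) : ℕ) : ℝ) ≤ Y) with hF
  have hFne : F.Nonempty := by
    refine ⟨∅, ?_⟩
    rw [hF, mem_filter]
    refine ⟨Finset.empty_mem_powerset _, ?_⟩
    rw [Finset.prod_empty]
    push_cast
    linarith
  obtain ⟨S, hSF, hmax⟩ := F.exists_max_image Finset.card hFne
  rw [hF, mem_filter, mem_powerset] at hSF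
  obtain ⟨hSsub, hSY⟩ := hSF
  have hSP : S ⊆ P := hSsub.trans sdiff_subset
  have hSU : Disjoint S U := Disjoint.mono_left hSsub sdiff_disjoint
  -- the log of the product of the factors
  have hlogprod : Real.log ((∏ p ∈ S, (1 + (p - 1) / q) : ℕ) : ℝ) =
      ∑ p ∈ S, Real.log ((1 + (p - 1) / q : ℕ) : ℝ) := by
    rw [Nat.cast_prod, Real.log_prod]
    intro p hp
    have := (hfac p (hSP hp)).1
    have h' : (1 + (p - 1) / q : ℕ) ≠ 0 := by omega
    exact_mod_cast h'
  have hprodpos : 0 < ((∏ p ∈ S, (1 + (p - 1) / q) : ℕ) : ℝ) := by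
    have : 0 < (∏ p ∈ S, (1 + (p - 1) / q) : ℕ) :=
      Finset.prod_pos fun p hp => by have := (hfac p (hSP hp)).1; omega
    exact_mod_cast this
  have hcard : (S.card : ℝ) ≤ Real.log Y / Real.log 4 := by
    rw [le_div_iff₀ (by linarith)]
    have h1 : (S.card : ℝ) * Real.log 4 ≤ ∑ p ∈ S, Real.log ((1 + (p - 1) / q : ℕ) : ℝ) := by
      have := Finset.card_nsmul_le_sum S (fun p => Real.log ((1 + (p - 1) / q : ℕ) : ℝ))
        (Real.log 4) (fun p hp => Real.log_le_log (by norm_num)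
          (by exact_mod_cast (hfac p (hSP hp)).1))
      simpa [nsmul_eq_mul] using this
    rw [← hlogprod] at h1
    exact h1.trans (Real.log_le_log hprodpos hSY)
  -- an unused element
  have hex : ∃ p ∈ P, p ∉ U ∪ S := by
    by_contra hcon
    push Not at hcon
    have h1 : P ⊆ U ∪ S := hcon
    have h2 : P.card ≤ U.card + S.card := (Finset.card_le_card h1).trans (Finset.card_union_le _ _)
    have h3 : (P.card : ℝ) ≤ U.card + S.card := by exact_mod_cast h2
    linarith
  obtain ⟨p0, hp0P, hp0⟩ := hex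
  rw [mem_union, not_or] at hp0
  have hgt : Y < ((∏ p ∈ insert p0 S, (1 + (p - 1) / q) : ℕ) : ℝ) := by
    by_contra hcon
    push Not at hcon
    have hin : insert p0 S ∈ F := by
      rw [hF, mem_filter, mem_powerset]
      refine ⟨?_, hcon⟩
      intro x hx
      rcases Finset.mem_insert.mp hx with h | h
      · rw [h, mem_sdiff]; exact ⟨hp0P, hp0.1⟩
      · exact hSsub h
    have := hmax _ hin
    rw [Finset.card_insert_of_notMem hp0.2] at this
    omega
  rw [Finset.prod_insert hp0.2] at hgt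
  push_cast at hgt
  have hprodge : Real.log Y - 2 * Real.log k ≤
      Real.log ((∏ p ∈ S, (1 + (p - 1) / q) : ℕ) : ℝ) := by
    have h1 : Y < (k : ℝ) ^ 2 * ((∏ p ∈ S, (1 + (p - 1) / q) : ℕ) : ℝ) := by
      refine lt_of_lt_of_le (b := ((1 : ℝ) + ((p0 - 1) / q : ℕ)) *
        ((∏ p ∈ S, (1 + (p - 1) / q) : ℕ) : ℝ)) ?_ ?_
      · push_cast
        exact hgt
      · refine mul_le_mul_of_nonneg_right ?_ hprodpos.le
        exact_mod_cast (hfac p0 hp0P).2.1
    have h2 := Real.log_lt_log (by linarith) h1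
    rw [Real.log_mul (by positivity) hprodpos.ne', Real.log_pow] at h2
    push_cast at h2 ⊢
    linarith
  refine ⟨S, hSP, hSU, hSY, hcard, ?_⟩
  have hlogp : Real.log ((∏ p ∈ S, p : ℕ) : ℝ) = ∑ p ∈ S, Real.log (p : ℝ) := by
    rw [Nat.cast_prod, Real.log_prod]
    intro p hp
    have := (hP p (hSP hp)).1
    have h' : p ≠ 0 := by omega
    exact_mod_cast h'
  have hterm : ∀ p ∈ S, (1 + Real.log ((q : ℝ) / 2) / (2 * Real.log k)) *
      Real.log ((1 + (p - 1) / q : ℕ) : ℝ) ≤ Real.log (p : ℝ) := by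
    intro p hp
    obtain ⟨h1, h2, h3⟩ := hfac p (hSP hp)
    have hf4 : (4 : ℝ) ≤ ((1 + (p - 1) / q : ℕ) : ℝ) := by exact_mod_cast h1
    have hf2 : ((1 + (p - 1) / q : ℕ) : ℝ) ≤ (k : ℝ) ^ 2 := by exact_mod_cast h2
    have hf3 : (q : ℝ) * ((1 + (p - 1) / q : ℕ) : ℝ) ≤ 2 * p := by exact_mod_cast h3
    generalize ((1 + (p - 1) / q : ℕ) : ℝ) = f at hf4 hf2 hf3
    have hlf : Real.log f ≤ 2 * Real.log k := by
      have := Real.log_le_log (by linarith) hf2
      rw [Real.log_pow] at this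
      push_cast at this
      linarith
    have hlp : Real.log ((q : ℝ) / 2) + Real.log f ≤ Real.log p := by
      rw [← Real.log_mul (by linarith) (by linarith)]
      refine Real.log_le_log (by positivity) ?_
      linarith
    have hle : Real.log ((q : ℝ) / 2) / (2 * Real.log k) * Real.log f ≤
        Real.log ((q : ℝ) / 2) := by
      rw [div_mul_eq_mul_div, div_le_iff₀ (by linarith)]
      exact mul_le_mul_of_nonneg_left hlf hlq
    calc (1 + Real.log ((q : ℝ) / 2) / (2 * Real.log k)) * Real.log f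
        = Real.log f + Real.log ((q : ℝ) / 2) / (2 * Real.log k) * Real.log f := by ring
      _ ≤ Real.log p := by linarith
  have hcoef : 0 ≤ 1 + Real.log ((q : ℝ) / 2) / (2 * Real.log k) := by positivity
  calc (1 + Real.log ((q : ℝ) / 2) / (2 * Real.log k)) * (Real.log Y - 2 * Real.log k)
      ≤ (1 + Real.log ((q : ℝ) / 2) / (2 * Real.log k)) *
        Real.log ((∏ p ∈ S, (1 + (p - 1) / q) : ℕ) : ℝ) :=
          mul_le_mul_of_nonneg_left hprodge hcoef
    _ = ∑ p ∈ S, (1 + Real.log ((q : ℝ) / 2) / (2 * Real.log k)) *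
        Real.log ((1 + (p - 1) / q : ℕ) : ℝ) := by rw [hlogprod, Finset.mul_sum]
    _ ≤ ∑ p ∈ S, Real.log (p : ℝ) := Finset.sum_le_sum hterm
    _ = Real.log ((∏ p ∈ S, p : ℕ) : ℝ) := hlogp.symm

end PartM1

/-- PART M1 (greedy choice of the sets of primes). -/
theorem greedy (k A : ℕ) (hk : 2 ≤ k) (I : Finset ℕ) (q : ℕ → ℕ) (Y : ℝ) (hY : (k : ℝ) ^ 2 ≤ Y)
    (hq : ∀ i ∈ I, (q i).Prime ∧ q i ≤ k ∧
      A * k ≤ ((Icc (4 * k) (k ^ 2)).filter (fun p => p.Prime ∧ q i ∣ p - 1)).card)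
    (hA : (I.card : ℝ) * Real.log Y ≤ A * k) :
    ∃ S : ℕ → Finset ℕ, (∀ i ∈ I, ∀ p ∈ S i, p.Prime ∧ 4 * k ≤ p ∧ p ≤ k ^ 2 ∧ q i ∣ p - 1) ∧
      (∀ i ∈ I, ∀ j ∈ I, i ≠ j → Disjoint (S i) (S j)) ∧
      (∀ i ∈ I, ((∏ p ∈ S i, (1 + (p - 1) / q i) : ℕ) : ℝ) ≤ Y) ∧
      (∀ i ∈ I, ((S i).card : ℝ) ≤ Real.log Y) ∧
      (∀ i ∈ I, (1 + Real.log ((q i : ℝ) / 2) / (2 * Real.log k)) *
        (Real.log Y - 2 * Real.log k) ≤ Real.log ((∏ p ∈ S i, p : ℕ) : ℝ)) := by
  classical
  have hk2 : (2 : ℝ) ≤ k := by exact_mod_cast hk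
  have hY4 : (4 : ℝ) ≤ Y := by nlinarith
  have hlY : 0 < Real.log Y := Real.log_pos (by linarith)
  have hl4 := PartM1.one_lt_log4
  have hdiv : Real.log Y / Real.log 4 < Real.log Y := by
    rw [div_lt_iff₀ (by linarith)]
    nlinarith
  have hdiv0 : 0 < Real.log Y / Real.log 4 := by positivity
  -- induction
  have key : ∀ J : Finset ℕ, J ⊆ I → ∃ S : ℕ → Finset ℕ,
      (∀ i ∈ J, ∀ p ∈ S i, p.Prime ∧ 4 * k ≤ p ∧ p ≤ k ^ 2 ∧ q i ∣ p - 1) ∧
      (∀ i ∈ J, ∀ j ∈ J, i ≠ j → Disjoint (S i) (S j)) ∧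
      (∀ i ∈ J, ((∏ p ∈ S i, (1 + (p - 1) / q i) : ℕ) : ℝ) ≤ Y) ∧
      (∀ i ∈ J, ((S i).card : ℝ) ≤ Real.log Y / Real.log 4) ∧
      (∀ i ∈ J, (1 + Real.log ((q i : ℝ) / 2) / (2 * Real.log k)) *
        (Real.log Y - 2 * Real.log k) ≤ Real.log ((∏ p ∈ S i, p : ℕ) : ℝ)) := by
    intro J
    induction J using Finset.induction_on with
    | empty =>
      intro _
      exact ⟨fun _ => ∅, by simp, by simp, by simp, by simp, by simp⟩
    | insert a J ha ih =>
      intro hJ
      have hJI : J ⊆ I := (Finset.subset_insert _ _).trans hJ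
      have haI : a ∈ I := hJ (Finset.mem_insert_self _ _)
      obtain ⟨S, h1, h2, h3, h4, h5⟩ := ih hJI
      obtain ⟨hqp, hqk, hqc⟩ := hq a haI
      have hUc : (((J.biUnion S).card : ℕ) : ℝ) ≤ J.card * (Real.log Y / Real.log 4) := by
        have e1 : (J.biUnion S).card ≤ ∑ i ∈ J, (S i).card := Finset.card_biUnion_le
        have e2 : (((J.biUnion S).card : ℕ) : ℝ) ≤ ∑ i ∈ J, ((S i).card : ℝ) := by
          exact_mod_cast e1
        refine e2.trans ?_
        have := Finset.sum_le_card_nsmul J (fun i => ((S i).card : ℝ))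
          (Real.log Y / Real.log 4) h4
        simpa [nsmul_eq_mul] using this
      have hJcard : (J.card : ℝ) + 1 ≤ I.card := by
        have := Finset.card_le_card hJ
        rw [Finset.card_insert_of_notMem ha] at this
        exact_mod_cast this
      have hUP : (((J.biUnion S).card : ℕ) : ℝ) + Real.log Y / Real.log 4 <
          (((Icc (4 * k) (k ^ 2)).filter (fun p => p.Prime ∧ q a ∣ p - 1)).card : ℝ) := by
        have hqc' : (A : ℝ) * k ≤
          (((Icc (4 * k) (k ^ 2)).filter (fun p => p.Prime ∧ q a ∣ p - 1)).card : ℝ) := by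
          exact_mod_cast hqc
        have hJ0 : (0 : ℝ) ≤ J.card := Nat.cast_nonneg _
        nlinarith
      obtain ⟨T, hT1, hT2, hT3, hT4, hT5⟩ := PartM1.single k (q a) hk hqp hqk Y hY
        ((Icc (4 * k) (k ^ 2)).filter (fun p => p.Prime ∧ q a ∣ p - 1))
        (fun p hp => by
          rw [mem_filter, mem_Icc] at hp
          exact hp.1) (J.biUnion S) hUP
      have hupd : ∀ i ∈ J, Function.update S a T i = S i := by
        intro i hi
        have : i ≠ a := fun h => ha (h ▸ hi)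
        rw [Function.update_of_ne this]
      have hTd : ∀ i ∈ J, Disjoint T (S i) := fun i hi =>
        Disjoint.mono_right (Finset.subset_biUnion_of_mem S hi) hT2
      refine ⟨Function.update S a T, ?_, ?_, ?_, ?_, ?_⟩
      · intro i hi
        rcases Finset.mem_insert.mp hi with h | h
        · subst h
          rw [Function.update_self]
          intro p hp
          have := hT1 hp
          rw [mem_filter, mem_Icc] at this
          exact ⟨this.2.1, this.1.1, this.1.2, this.2.2⟩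
        · rw [hupd i h]; exact h1 i h
      · intro i hi j hj hij
        rcases Finset.mem_insert.mp hi with h | h
        · rcases Finset.mem_insert.mp hj with h' | h'
          · exact absurd (h.trans h'.symm) hij
          · rw [hupd j h', h, Function.update_self]; exact hTd j h'
        · rcases Finset.mem_insert.mp hj with h' | h'
          · rw [hupd i h, h', Function.update_self]; exact (hTd i h).symm
          · rw [hupd i h, hupd j h']; exact h2 i h j h' hij
      · intro i hi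
        rcases Finset.mem_insert.mp hi with h | h
        · subst h; rw [Function.update_self]; exact hT3
        · rw [hupd i h]; exact h3 i h
      · intro i hi
        rcases Finset.mem_insert.mp hi with h | h
        · subst h; rw [Function.update_self]; exact hT4
        · rw [hupd i h]; exact h4 i h
      · intro i hi
        rcases Finset.mem_insert.mp hi with h | h
        · subst h; rw [Function.update_self]; exact hT5
        · rw [hupd i h]; exact h5 i h
  obtain ⟨S, h1, h2, h3, h4, h5⟩ := key I (Finset.Subset.refl I)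
  exact ⟨S, h1, h2, h3, fun i hi => (h4 i hi).trans hdiv.le, h5⟩

end Vale.Agent.VdW
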