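import Vale.Agent.VdW.Defs

/-!
# P053, part M2: single large primes (Bertrand)
-/

namespace Vale.Agent.VdW

open Finset

/-- PART M2 (single large primes, Bertrand) -/
theorem big_primes (D : ℕ) (Y Z : ℝ) (hZ : 1 ≤ Z) (hY : 2 ^ (D + 2) * Z ≤ Y) :
    ∃ P : ℕ → ℕ, (∀ i ∈ Icc 1 D, (P i).Prime ∧ Z < P i ∧ (P i : ℝ) ≤ Y ∧
      Real.log Y - (D + 1) * Real.log 2 ≤ Real.log (P i)) ∧
      (∀ i ∈ Icc 1 D, ∀ j ∈ Icc 1 D, i ≠ j → P i ≠ P j) := by
  have h2D : (0 : ℝ) < 2 ^ (D + 1) := by positivity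
  have hYpos : 0 < Y := by
    have : (0 : ℝ) < 2 ^ (D + 2) * Z := by positivity
    linarith
  set m : ℕ := ⌊Y / 2 ^ (D + 1)⌋₊ with hm
  have hY2 : 2 * Z ≤ Y / 2 ^ (D + 1) := by
    rw [le_div_iff₀ h2D]
    calc 2 * Z * 2 ^ (D + 1) = 2 ^ (D + 2) * Z := by ring
      _ ≤ Y := hY
  have hm1 : 1 ≤ m := by
    rw [hm, Nat.one_le_floor_iff]
    linarith
  have hmle : (m : ℝ) ≤ Y / 2 ^ (D + 1) := Nat.floor_le (by positivity)
  have hmlt : Y / 2 ^ (D + 1) < m + 1 := Nat.lt_floor_add_one _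
  have hB : ∀ i : ℕ, ∃ p, Nat.Prime p ∧ m * 2 ^ i < p ∧ p ≤ 2 * (m * 2 ^ i) := fun i =>
    Nat.exists_prime_lt_and_le_two_mul (m * 2 ^ i) (by positivity)
  choose P hP1 hP2 hP3 using hB
  have hlow : ∀ i ∈ Icc 1 D, Y / 2 ^ (D + 1) < P i := by
    intro i hi
    rw [mem_Icc] at hi
    have h1 : 2 ≤ 2 ^ i := by
      calc 2 = 2 ^ 1 := rfl
        _ ≤ 2 ^ i := Nat.pow_le_pow_right (by norm_num) hi.1
    have h2 : m + 1 ≤ P i := by
      have h3 := hP2 i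
      have h4 : m * 2 ≤ m * 2 ^ i := Nat.mul_le_mul_left m h1
      omega
    have h3 : ((m + 1 : ℕ) : ℝ) ≤ P i := by exact_mod_cast h2
    push_cast at h3
    linarith
  refine ⟨P, fun i hi => ⟨hP1 i, ?_, ?_, ?_⟩, ?_⟩
  · have := hlow i hi
    linarith
  · rw [mem_Icc] at hi
    have h1 : P i ≤ m * 2 ^ (D + 1) := by
      calc P i ≤ 2 * (m * 2 ^ i) := hP3 i
        _ = m * 2 ^ (i + 1) := by ring
        _ ≤ m * 2 ^ (D + 1) :=
          Nat.mul_le_mul_left m (Nat.pow_le_pow_right (by norm_num) (by omega))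
    have h2 : (P i : ℝ) ≤ m * 2 ^ (D + 1) := by exact_mod_cast h1
    calc (P i : ℝ) ≤ m * 2 ^ (D + 1) := h2
      _ ≤ Y / 2 ^ (D + 1) * 2 ^ (D + 1) := by gcongr
      _ = Y := by field_simp
  · have h1 : Real.log Y - (D + 1) * Real.log 2 = Real.log (Y / 2 ^ (D + 1)) := by
      rw [Real.log_div hYpos.ne' h2D.ne', Real.log_pow]
      push_cast
      ring
    rw [h1]
    apply Real.log_le_log (by positivity)
    exact (hlow i hi).le
  · have key : ∀ i j : ℕ, i < j → P i < P j := by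
      intro i j hij
      calc P i ≤ 2 * (m * 2 ^ i) := hP3 i
        _ = m * 2 ^ (i + 1) := by ring
        _ ≤ m * 2 ^ j := Nat.mul_le_mul_left m (Nat.pow_le_pow_right (by norm_num) hij)
        _ < P j := hP2 j
    intro i _ j _ hij
    rcases Nat.lt_or_gt_of_ne hij with h | h
    · exact (key i j h).ne
    · exact (key j i h).ne'

end Vale.Agent.VdW
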