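import Vale.Agent.VdW.PartF
import Vale.Agent.VdW.PartK
import Vale.Agent.VdW.PartL
import Vale.Agent.VdW.PartM1
import Vale.Agent.VdW.PartM2

/-!
# P053, part M3: the moduli
-/

namespace Vale.Agent.VdW

open Finset

theorem pc_le_self (M i : ℕ) [NeZero M] : pc M i ≤ M := by
  unfold pc
  calc _ ≤ (univ : Finset (ZMod M)).card := card_image_le
    _ = M := by rw [card_univ, ZMod.card]

theorem prod_primes_squarefree (S : Finset ℕ) (hS : ∀ p ∈ S, p.Prime) : Squarefree (∏ p ∈ S, p) := by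
  refine Finset.squarefree_prod_of_pairwise_isCoprime (fun p hp q hq hpq => ?_) ?_
  · exact Nat.coprime_iff_isRelPrime.mp ((Nat.coprime_primes (hS p hp) (hS q hq)).mpr hpq)
  · intro p hp
    exact (hS p hp).prime.squarefree

theorem dvd_prod_primes (S : Finset ℕ) (hS : ∀ p ∈ S, p.Prime) (p : ℕ) (hp : p.Prime)
    (h : p ∣ ∏ q ∈ S, q) : p ∈ S := by
  rw [Prime.dvd_finsetProd_iff hp.prime] at h
  obtain ⟨q, hq, hpq⟩ := h
  rw [(Nat.prime_dvd_prime_iff_eq hp (hS q hq)).mp hpq]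
  exact hq

theorem size_numeric (κ D L c : ℝ) (hκ0 : 0 < κ) (hκ1 : κ ≤ 1) (hD : 0 ≤ D) (hL : 0 ≤ L)
    (hc : D / 8 ≤ c) :
    (1 + κ / 64) * D * L ≤ (D - c) * ((1 - κ / 128) * L) + c * ((1 + κ / 4) * ((1 - κ / 128) * L)) := by
  have hκL : 0 ≤ (1 - κ / 128) * L := mul_nonneg (by linarith) hL
  have h3 : D * (1 + κ / 32) ≤ D + c * (κ / 4) := by nlinarith
  have h4 : D * (1 + κ / 32) * ((1 - κ / 128) * L) ≤ (D + c * (κ / 4)) * ((1 - κ / 128) * L) :=
    mul_le_mul_of_nonneg_right h3 hκL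
  have h5 : (1 + κ / 64) ≤ (1 + κ / 32) * (1 - κ / 128) := by nlinarith
  have h6 : (1 + κ / 64) * (D * L) ≤ ((1 + κ / 32) * (1 - κ / 128)) * (D * L) :=
    mul_le_mul_of_nonneg_right h5 (by positivity)
  calc (1 + κ / 64) * D * L = (1 + κ / 64) * (D * L) := by ring
    _ ≤ ((1 + κ / 32) * (1 - κ / 128)) * (D * L) := h6
    _ = D * (1 + κ / 32) * ((1 - κ / 128) * L) := by ring
    _ ≤ (D + c * (κ / 4)) * ((1 - κ / 128) * L) := h4
    _ = _ := by ring

theorem moduli_core (k D R A : ℕ) (κ : ℝ) (G : Finset ℕ)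
    (hκ0 : 0 < κ) (hκ1 : κ ≤ 1)
    (hG : ∀ q ∈ G, q.Prime ∧ (k : ℝ) ^ κ ≤ q ∧ q ^ 2 ≤ D ∧
      A * k ≤ ((Icc (4 * k) (k ^ 2)).filter (fun p => p.Prime ∧ q ∣ p - 1)).card)
    (h1 : 1 / 2 ≤ ∑ q ∈ G, (1 : ℝ) / q) (h2 : ∑ q ∈ G, (1 : ℝ) / q ≤ 1)
    (hD64 : 64 ≤ D) (hAD : A ≤ D) (hDk : D ≤ k)
    (hlog : (D : ℝ) * Real.log R ≤ A * k)
    (hloss : Real.log 4 + 2 * (D * D) * Real.log k + Real.log (D + 1) + 2 * Real.log k +
      (D + 2) * Real.log 2 ≤ κ / 128 * Real.log R)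
    (hkap : 4 * Real.log 2 ≤ κ * Real.log k) :
    ∃ M : ℕ → ℕ, (∀ i ∈ Icc 1 D, Squarefree (M i)) ∧
      (∀ i ∈ Icc 1 D, ∀ p : ℕ, p.Prime → p ∣ M i → k ≤ p) ∧
      (∀ i ∈ Icc 1 D, ∑ p ∈ (M i).primeFactors, (1 : ℝ) / p ≤ 1 / 4) ∧
      (∀ i ∈ Icc 1 D, ∀ j ∈ Icc 1 D, i ≠ j → (M i).Coprime (M j)) ∧
      (∀ i (_ : i ∈ Icc 1 D) [NeZero (M i)],
        4 * k ^ (D * D) * pc (M i) i * ((D + 1) * k ^ (D * D)) ≤ R) ∧
      (1 + κ / 64) * D * Real.log R ≤ Real.log ((∏ i ∈ Icc 1 D, M i : ℕ) : ℝ) := by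
  have hk64 : 64 ≤ k := hD64.trans hDk
  have hkpos : (0 : ℝ) < k := by
    have : 0 < k := by omega
    exact_mod_cast this
  have hk64' : (64 : ℝ) ≤ k := by exact_mod_cast hk64
  have hDpos : (0 : ℝ) < D := by
    have : 0 < D := by omega
    exact_mod_cast this
  have hlogk : 0 < Real.log k := Real.log_pos (by linarith)
  have hlog2 : 0 < Real.log 2 := Real.log_pos (by norm_num)
  have hlog4 : 0 < Real.log 4 := Real.log_pos (by norm_num)
  have hlogD : 0 ≤ Real.log ((D : ℝ) + 1) := Real.log_nonneg (by linarith)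
  set L : ℝ := Real.log R with hL
  have hDD : 0 ≤ 2 * ((D : ℝ) * D) * Real.log k := by positivity
  have hLpos : 0 < L := by
    have h3 : 0 < κ / 128 * L := by
      have : 0 < ((D : ℝ) + 2) * Real.log 2 := by positivity
      linarith
    by_contra hneg
    push Not at hneg
    have h4 : κ / 128 * L ≤ 0 := mul_nonpos_of_nonneg_of_nonpos (by positivity) hneg
    linarith
  have hR0 : R ≠ 0 := by
    rintro rfl
    simp [hL] at hLpos
  have hRpos : (0 : ℝ) < R := by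
    have : 0 < R := Nat.pos_of_ne_zero hR0
    exact_mod_cast this
  set K : ℝ := 4 * (k : ℝ) ^ (2 * (D * D)) * ((D : ℝ) + 1) with hK
  have hKpos : 0 < K := by positivity
  have hlogK : Real.log K = Real.log 4 + 2 * (D * D) * Real.log k + Real.log (D + 1) := by
    rw [hK, Real.log_mul (by positivity) (by positivity), Real.log_mul (by norm_num) (by positivity),
      Real.log_pow]
    push_cast; ring
  set Y : ℝ := R / K with hY
  have hYpos : 0 < Y := by positivity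
  have hlogY : Real.log Y = L - Real.log K := by
    rw [hY, Real.log_div hRpos.ne' hKpos.ne']
  have hη : 0 ≤ κ / 128 * L := by positivity
  have hYbig : (1 - κ / 128) * L + 2 * Real.log k + (D + 2) * Real.log 2 ≤ Real.log Y := by
    rw [hlogY, hlogK]; linarith
  have hκL : 0 ≤ (1 - κ / 128) * L := by
    apply mul_nonneg _ hLpos.le
    linarith
  have hYle : Real.log Y ≤ L := by
    rw [hlogY, hlogK]
    linarith
  have hY0 : 0 ≤ Real.log Y := by
    have : 0 ≤ ((D : ℝ) + 2) * Real.log 2 := by positivity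
    linarith
  have hYZ : (2 : ℝ) ^ (D + 2) * (k : ℝ) ^ 2 ≤ Y := by
    rw [← Real.log_le_log_iff (by positivity) hYpos, Real.log_mul (by positivity) (by positivity),
      Real.log_pow, Real.log_pow]
    push_cast
    linarith
  have hYk2 : (k : ℝ) ^ 2 ≤ Y := by
    refine le_trans ?_ hYZ
    have : (1 : ℝ) ≤ 2 ^ (D + 2) := one_le_pow₀ (by norm_num)
    nlinarith [sq_nonneg (k : ℝ)]
  -- the special indices
  set I : Finset ℕ := (Icc 1 D).filter (fun i => ∃ q ∈ G, q ∣ i) with hI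
  have hIcard : (D : ℝ) / 8 ≤ I.card :=
    many_multiples D hD64 G (fun q hq => ⟨(hG q hq).1, (hG q hq).2.2.1⟩) h1 h2
  have hIle : I.card ≤ D := by
    calc I.card ≤ (Icc 1 D).card := card_filter_le _ _
      _ = D := by simp
  have hqex : ∀ i : ℕ, ∃ q : ℕ, i ∈ I → q ∈ G ∧ q ∣ i := by
    intro i
    by_cases hi : i ∈ I
    · rw [hI, mem_filter] at hi
      obtain ⟨q, hq, hqi⟩ := hi.2
      exact ⟨q, fun _ => ⟨hq, hqi⟩⟩
    · exact ⟨0, fun h => absurd h hi⟩
  choose q hq using hqex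
  have hqk : ∀ i ∈ I, q i ≤ k := by
    intro i hi
    have h3 := (hG _ (hq i hi).1).2.2.1
    have h4 : q i ≤ q i ^ 2 := Nat.le_self_pow (by norm_num) _
    omega
  obtain ⟨S, hS1, hS2, hS3, hS4, hS5⟩ := greedy k A (by omega) I q Y hYk2
    (fun i hi => ⟨(hG _ (hq i hi).1).1, hqk i hi, (hG _ (hq i hi).1).2.2.2⟩)
    (by
      have h3 : (I.card : ℝ) ≤ D := by exact_mod_cast hIle
      calc (I.card : ℝ) * Real.log Y ≤ D * L := mul_le_mul h3 hYle hY0 hDpos.le
        _ ≤ A * k := hlog)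
  obtain ⟨P, hP1, hP2⟩ := big_primes D Y ((k : ℝ) ^ 2) (by nlinarith) hYZ
  set M : ℕ → ℕ := fun i => if i ∈ I then ∏ p ∈ S i, p else P i with hM
  have hMI : ∀ i ∈ I, M i = ∏ p ∈ S i, p := fun i hi => by simp only [hM]; rw [if_pos hi]
  have hMn : ∀ i, i ∉ I → M i = P i := fun i hi => by simp only [hM]; rw [if_neg hi]
  have hSp : ∀ i ∈ I, ∀ p ∈ S i, p.Prime := fun i hi p hp => (hS1 i hi p hp).1
  have hkk : k ≤ k ^ 2 := Nat.le_self_pow (by norm_num) _
  have hPk : ∀ i ∈ Icc 1 D, k ^ 2 < P i := by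
    intro i hi
    have := (hP1 i hi).2.1
    exact_mod_cast this
  -- prime divisors
  have hdiv : ∀ i ∈ I, ∀ p : ℕ, p.Prime → p ∣ M i → p ∈ S i := by
    intro i hi p hp hpM
    rw [hMI i hi] at hpM
    exact dvd_prod_primes (S i) (hSp i hi) p hp hpM
  have hdivn : ∀ i ∈ Icc 1 D, i ∉ I → ∀ p : ℕ, p.Prime → p ∣ M i → p = P i := by
    intro i hi hiI p hp hpM
    rw [hMn i hiI] at hpM
    exact (Nat.prime_dvd_prime_iff_eq hp (hP1 i hi).1).mp hpM
  refine ⟨M, ?_, ?_, ?_, ?_, ?_, ?_⟩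
  · -- squarefree
    intro i hi
    by_cases hiI : i ∈ I
    · rw [hMI i hiI]
      exact prod_primes_squarefree (S i) (hSp i hiI)
    · rw [hMn i hiI]
      exact (hP1 i hi).1.prime.squarefree
  · -- large prime factors
    intro i hi p hp hpM
    by_cases hiI : i ∈ I
    · have := (hS1 i hiI p (hdiv i hiI p hp hpM)).2.1
      omega
    · rw [hdivn i hi hiI p hp hpM]
      have := hPk i hi
      omega
  · -- sum of the reciprocals
    intro i hi
    by_cases hiI : i ∈ I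
    · rw [hMI i hiI, Nat.primeFactors_prod (hSp i hiI)]
      have h3 : ∀ p ∈ S i, (1 : ℝ) / p ≤ 1 / (4 * k) := by
        intro p hp
        apply one_div_le_one_div_of_le (by positivity)
        exact_mod_cast (hS1 i hiI p hp).2.1
      calc ∑ p ∈ S i, (1 : ℝ) / p ≤ ∑ p ∈ S i, (1 : ℝ) / (4 * k) := sum_le_sum h3
        _ = (S i).card / (4 * k) := by rw [sum_const, nsmul_eq_mul]; ring
        _ ≤ 1 / 4 := by
          rw [div_le_div_iff₀ (by positivity) (by norm_num)]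
          have h4 := hS4 i hiI
          have h5 : L ≤ k := by
            have h6 : (A : ℝ) ≤ D := by exact_mod_cast hAD
            have h7 : (D : ℝ) * L ≤ D * k := hlog.trans (mul_le_mul_of_nonneg_right h6 hkpos.le)
            exact le_of_mul_le_mul_left h7 hDpos
          linarith
    · rw [hMn i hiI, Nat.Prime.primeFactors (hP1 i hi).1, sum_singleton]
      have h3 : (4 : ℝ) ≤ P i := by
        have h4 := hPk i hi
        have h5 : 4 ≤ P i := by omega
        exact_mod_cast h5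
      exact one_div_le_one_div_of_le (by norm_num) h3
  · -- coprimality
    intro i hi j hj hij
    by_contra hnc
    obtain ⟨p, hp, hpi, hpj⟩ := Nat.Prime.not_coprime_iff_dvd.mp hnc
    by_cases hiI : i ∈ I
    · have hpS := hdiv i hiI p hp hpi
      by_cases hjI : j ∈ I
      · have hpS' := hdiv j hjI p hp hpj
        exact (Finset.disjoint_left.mp (hS2 i hiI j hjI hij) hpS) hpS'
      · have h3 := hdivn j hj hjI p hp hpj
        have h4 := (hS1 i hiI p hpS).2.2.1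
        have h5 := hPk j hj
        omega
    · have h3 := hdivn i hi hiI p hp hpi
      by_cases hjI : j ∈ I
      · have hpS' := hdiv j hjI p hp hpj
        have h4 := (hS1 j hjI p hpS').2.2.1
        have h5 := hPk i hi
        omega
      · have h4 := hdivn j hj hjI p hp hpj
        exact hP2 i hi j hj hij (h3.symm.trans h4)
  · -- power classes
    intro i hi _
    have hpc : ((pc (M i) i : ℕ) : ℝ) ≤ Y := by
      by_cases hiI : i ∈ I
      · have h3 : (pc (M i) i : ℕ) ≤ ∏ p ∈ S i, (1 + (p - 1) / q i) := by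
          have hne : NeZero (∏ p ∈ S i, p) := by
            rw [← hMI i hiI]; infer_instance
          have h4 := pc_le (S i) (hSp i hiI) (q i) i (mem_Icc.mp hi).1
            ((hG _ (hq i hiI).1).1.one_le) (hq i hiI).2 (fun p hp => (hS1 i hiI p hp).2.2.2)
          have h5 : ∀ (m : ℕ) (_ : m = M i) [NeZero m], pc (M i) i = pc m i := by
            intro m hm _
            subst hm
            rfl
          rw [h5 _ (hMI i hiI).symm]
          exact h4
        calc ((pc (M i) i : ℕ) : ℝ) ≤ ((∏ p ∈ S i, (1 + (p - 1) / q i) : ℕ) : ℝ) := by exact_mod_cast h3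
          _ ≤ Y := hS3 i hiI
      · have h3 : pc (M i) i ≤ M i := pc_le_self (M i) i
        calc ((pc (M i) i : ℕ) : ℝ) ≤ (M i : ℝ) := by exact_mod_cast h3
          _ = (P i : ℝ) := by rw [hMn i hiI]
          _ ≤ Y := (hP1 i hi).2.2.1
    have h6 : (((4 * k ^ (D * D) * pc (M i) i * ((D + 1) * k ^ (D * D)) : ℕ)) : ℝ) ≤ (R : ℝ) := by
      push_cast
      calc (4 : ℝ) * (k : ℝ) ^ (D * D) * (pc (M i) i : ℝ) * (((D : ℝ) + 1) * (k : ℝ) ^ (D * D))
          = K * (pc (M i) i : ℝ) := by rw [hK]; ring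
        _ ≤ K * Y := mul_le_mul_of_nonneg_left hpc hKpos.le
        _ = R := by rw [hY]; field_simp
    exact_mod_cast h6
  · -- size
    have hMpos : ∀ i ∈ Icc 1 D, M i ≠ 0 := by
      intro i hi
      by_cases hiI : i ∈ I
      · rw [hMI i hiI]
        exact prod_ne_zero_iff.mpr fun p hp => (hSp i hiI p hp).ne_zero
      · rw [hMn i hiI]
        exact (hP1 i hi).1.ne_zero
    have hlogprod : Real.log ((∏ i ∈ Icc 1 D, M i : ℕ) : ℝ) = ∑ i ∈ Icc 1 D, Real.log (M i) := by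
      push_cast
      rw [Real.log_prod]
      intro i hi
      exact_mod_cast hMpos i hi
    rw [hlogprod]
    have hIsub : I ⊆ Icc 1 D := filter_subset _ _
    rw [← sum_sdiff hIsub]
    have s1 : ∀ i ∈ Icc 1 D \ I, (1 - κ / 128) * L ≤ Real.log (M i) := by
      intro i hi
      rw [mem_sdiff] at hi
      rw [hMn i hi.2]
      have h3 := (hP1 i hi.1).2.2.2
      linarith
    have s2 : ∀ i ∈ I, (1 + κ / 4) * ((1 - κ / 128) * L) ≤ Real.log (M i) := by
      intro i hi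
      rw [hMI i hi]
      refine le_trans ?_ (hS5 i hi)
      have hqpos : (0 : ℝ) < q i := by
        have := (hG _ (hq i hi).1).1.pos
        exact_mod_cast this
      have h3 : κ * Real.log k ≤ Real.log (q i) := by
        have h4 := (hG _ (hq i hi).1).2.1
        have h5 : Real.log ((k : ℝ) ^ κ) ≤ Real.log (q i) := Real.log_le_log (by positivity) h4
        rwa [Real.log_rpow hkpos] at h5
      have h6 : κ / 4 ≤ Real.log ((q i : ℝ) / 2) / (2 * Real.log k) := by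
        rw [le_div_iff₀ (by positivity), Real.log_div hqpos.ne' (by norm_num)]
        linarith
      have h7 : (1 - κ / 128) * L ≤ Real.log Y - 2 * Real.log k := by
        have : 0 ≤ ((D : ℝ) + 2) * Real.log 2 := by positivity
        linarith
      exact mul_le_mul (by linarith) h7 hκL (by linarith [show 0 < κ / 4 by positivity])
    have s3 : ((Icc 1 D \ I).card : ℝ) = D - I.card := by
      have : (Icc 1 D \ I).card = D - I.card := by
        rw [card_sdiff_of_subset hIsub]; simp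
      rw [this, Nat.cast_sub hIle]
    have s4 : (((Icc 1 D \ I).card : ℝ)) * ((1 - κ / 128) * L) ≤ ∑ i ∈ Icc 1 D \ I, Real.log (M i) := by
      have := card_nsmul_le_sum _ _ _ s1
      rwa [nsmul_eq_mul] at this
    have s5 : ((I.card : ℝ)) * ((1 + κ / 4) * ((1 - κ / 128) * L)) ≤ ∑ i ∈ I, Real.log (M i) := by
      have := card_nsmul_le_sum _ _ _ s2
      rwa [nsmul_eq_mul] at this
    rw [s3] at s4
    have s6 := size_numeric κ D L I.card hκ0 hκ1 hDpos.le hLpos.le hIcard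
    linarith

theorem nat_rpow_20 (D k : ℕ) (hDk : D ^ 20 ≤ k) : (D : ℝ) ≤ (k : ℝ) ^ (1 / 20 : ℝ) := by
  have h3 : (D : ℝ) ^ 20 ≤ k := by exact_mod_cast hDk
  have h4 : (D : ℝ) = ((D : ℝ) ^ 20) ^ (1 / 20 : ℝ) := by
    rw [← Real.rpow_natCast, ← Real.rpow_mul (Nat.cast_nonneg D)]; norm_num
  rw [h4]
  exact Real.rpow_le_rpow (by positivity) h3 (by norm_num)

theorem log_le_eventually (c : ℝ) (hc : 0 < c) : ∃ k0 : ℕ, ∀ k : ℕ, k0 ≤ k →
    Real.log k ≤ c * (k : ℝ) ^ (2 / 5 : ℝ) := by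
  have hev : ∀ᶠ x : ℝ in Filter.atTop, ‖Real.log x‖ ≤ c * ‖x ^ (2 / 5 : ℝ)‖ :=
    (isLittleO_log_rpow_atTop (show (0 : ℝ) < 2 / 5 by norm_num)).bound hc
  obtain ⟨X, hX⟩ := Filter.eventually_atTop.mp hev
  refine ⟨⌈X⌉₊, fun k hk => ?_⟩
  have h1 := hX k (le_trans (Nat.le_ceil X) (by exact_mod_cast hk))
  have h2 : 0 ≤ (k : ℝ) ^ (2 / 5 : ℝ) := Real.rpow_nonneg (Nat.cast_nonneg k) _
  rw [Real.norm_of_nonneg h2] at h1
  exact (le_abs_self _).trans h1

theorem loss_bound (κ d x L : ℝ) (hκ0 : 0 < κ) (hd64 : 64 ≤ d) (hdx : d + 1 ≤ x)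
    (hd : d ≤ x ^ (1 / 20 : ℝ)) (hlx : Real.log x ≤ κ / (7 * 128) * x ^ (2 / 5 : ℝ))
    (hL : x ^ (1 / 2 : ℝ) ≤ L) :
    Real.log 4 + 2 * (d * d) * Real.log x + Real.log (d + 1) + 2 * Real.log x +
      (d + 2) * Real.log 2 ≤ κ / 128 * L := by
  have hxpos : 0 < x := by linarith
  have hdpos : 0 < d := by linarith
  have hlogk : 0 < Real.log x := Real.log_pos (by linarith)
  have hd2 : d * d ≤ x ^ (1 / 10 : ℝ) := by
    calc d * d ≤ x ^ (1 / 20 : ℝ) * x ^ (1 / 20 : ℝ) := mul_le_mul hd hd hdpos.le (by positivity)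
      _ = x ^ (1 / 10 : ℝ) := by rw [← Real.rpow_add hxpos]; norm_num
  have hmain : 7 * (d * d) * Real.log x ≤ κ / 128 * L := by
    calc 7 * (d * d) * Real.log x
        ≤ 7 * x ^ (1 / 10 : ℝ) * (κ / (7 * 128) * x ^ (2 / 5 : ℝ)) :=
          mul_le_mul (by linarith) hlx hlogk.le (by positivity)
      _ = κ / 128 * (x ^ (1 / 10 : ℝ) * x ^ (2 / 5 : ℝ)) := by ring
      _ = κ / 128 * x ^ (1 / 2 : ℝ) := by rw [← Real.rpow_add hxpos]; norm_num
      _ ≤ κ / 128 * L := mul_le_mul_of_nonneg_left hL (by positivity)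
  have hDD : 64 * d ≤ d * d := mul_le_mul_of_nonneg_right hd64 hdpos.le
  have l4 : Real.log 4 ≤ Real.log x := Real.log_le_log (by norm_num) (by linarith)
  have l2 : Real.log 2 ≤ Real.log x := Real.log_le_log (by norm_num) (by linarith)
  have l1 : Real.log (d + 1) ≤ Real.log x := Real.log_le_log (by linarith) hdx
  have hlog2 : 0 < Real.log 2 := Real.log_pos (by norm_num)
  have l3 : (d + 2) * Real.log 2 ≤ (d * d - 4) * Real.log x :=
    mul_le_mul (by linarith) l2 hlog2.le (by linarith)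
  have hDDk : Real.log x ≤ (d * d) * Real.log x := le_mul_of_one_le_left hlogk.le (by linarith)
  linarith

theorem moduli : ∃ κ : ℝ, 0 < κ ∧ κ ≤ 1 ∧ ∀ A : ℕ, ∃ k0 : ℕ, ∀ k D R : ℕ, k0 ≤ k → D ^ 20 ≤ k →
    k < (D + 1) ^ 20 → (D : ℝ) * Real.log R ≤ A * k → (k : ℝ) ^ (1 / 2 : ℝ) ≤ Real.log R →
    ∃ M : ℕ → ℕ, (∀ i ∈ Icc 1 D, Squarefree (M i)) ∧
      (∀ i ∈ Icc 1 D, ∀ p : ℕ, p.Prime → p ∣ M i → k ≤ p) ∧
      (∀ i ∈ Icc 1 D, ∑ p ∈ (M i).primeFactors, (1 : ℝ) / p ≤ 1 / 4) ∧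
      (∀ i ∈ Icc 1 D, ∀ j ∈ Icc 1 D, i ≠ j → (M i).Coprime (M j)) ∧
      (∀ i (_ : i ∈ Icc 1 D) [NeZero (M i)],
        4 * k ^ (D * D) * pc (M i) i * ((D + 1) * k ^ (D * D)) ≤ R) ∧
      (1 + κ) * D * Real.log R ≤ Real.log ((∏ i ∈ Icc 1 D, M i : ℕ) : ℝ) := by
  obtain ⟨κ, hκ0, hκ1, hsup⟩ := supply
  refine ⟨κ / 64, by positivity, by linarith, fun A => ?_⟩
  obtain ⟨k1, hk1⟩ := hsup A
  obtain ⟨X, hX⟩ := log_le_eventually (κ / (7 * 128)) (by positivity)
  obtain ⟨m, hm65, hmA⟩ : ∃ m : ℕ, 65 ≤ m ∧ A + 1 ≤ m := ⟨max 65 (A + 1), le_max_left _ _, le_max_right _ _⟩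
  refine ⟨max (max k1 (m ^ 20)) (max X ⌈Real.exp (4 * Real.log 2 / κ)⌉₊), ?_⟩
  intro k D R hk hDk hkD hlog hR
  have a1 : k1 ≤ k := le_trans (le_trans (le_max_left _ _) (le_max_left _ _)) hk
  have a2 : m ^ 20 ≤ k := le_trans (le_trans (le_max_right _ _) (le_max_left _ _)) hk
  have a3 : X ≤ k := le_trans (le_trans (le_max_left _ _) (le_max_right _ _)) hk
  have a4 : ⌈Real.exp (4 * Real.log 2 / κ)⌉₊ ≤ k :=
    le_trans (le_trans (le_max_right _ _) (le_max_right _ _)) hk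
  have a2' : m < D + 1 := by
    by_contra hcon
    push Not at hcon
    have := Nat.pow_le_pow_left hcon 20
    omega
  have hD64 : 64 ≤ D := by omega
  have hAD : A ≤ D := by omega
  have hD2 : D ^ 2 ≤ k := le_trans (Nat.pow_le_pow_right (by omega) (by norm_num)) hDk
  have hD1k : D + 1 ≤ k := by
    have h : D * 64 ≤ D * D := Nat.mul_le_mul_left D hD64
    rw [pow_two] at hD2
    omega
  obtain ⟨G, hG, h1, h2⟩ := hk1 k D a1 hDk hkD
  have hkpos : (0 : ℝ) < k := by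
    have : 0 < k := by omega
    exact_mod_cast this
  have hD64' : (64 : ℝ) ≤ D := by exact_mod_cast hD64
  have hD1k' : (D : ℝ) + 1 ≤ k := by exact_mod_cast hD1k
  have hloss := loss_bound κ D k (Real.log R) hκ0 hD64' hD1k' (nat_rpow_20 D k hDk) (hX k a3) hR
  have hkap : 4 * Real.log 2 ≤ κ * Real.log k := by
    have h3 : Real.exp (4 * Real.log 2 / κ) ≤ k := le_trans (Nat.le_ceil _) (by exact_mod_cast a4)
    have h4 : 4 * Real.log 2 / κ ≤ Real.log k := by
      rw [Real.le_log_iff_exp_le hkpos]; exact h3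
    rw [div_le_iff₀ hκ0] at h4
    linarith
  exact moduli_core k D R A κ G hκ0 hκ1 hG h1 h2 hD64 hAD (by omega) hlog hloss hkap

end Vale.Agent.VdW
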