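import Vale.Agent.VdW.Defs

/-!
# P053, part S: shift invariance of the patterns
-/

namespace Vale.Agent.VdW

open Finset

theorem cell_add_div (R : ℕ) [NeZero R] (x : ℝ) (n : ℤ) :
    cell R (x + n / R) = cell R x + (n : ZMod R) := by
  have hR : (R : ℝ) ≠ 0 := by exact_mod_cast NeZero.ne R
  unfold cell
  rw [show (R : ℝ) * (x + n / R) = R * x + n by field_simp, Int.floor_add_intCast]
  push_cast
  rfl

theorem isPat_add (R k D : ℕ) [NeZero R] (π : Fin k → ZMod R) (c : ZMod R) (h : IsPat R k D π) :
    IsPat R k D (fun t => π t + c) := by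
  obtain ⟨e, he⟩ := h
  refine ⟨fun j => if j = 0 then e 0 + ((c.val : ℤ) : ℝ) / R else e j, fun t => ?_⟩
  have h1 : newt D (fun j => if j = 0 then e 0 + ((c.val : ℤ) : ℝ) / R else e j) t =
      newt D e t + ((c.val : ℤ) : ℝ) / R := by
    unfold newt
    rw [sum_range_succ', sum_range_succ']
    simp
    ring
  rw [h1, cell_add_div, ← he t]
  simp

theorem im_add_card (R k : ℕ) [NeZero R] (π : Fin k → ZMod R) (c : ZMod R) :
    (im (fun t => π t + c)).card = (im π).card := by
  have h : im (fun t => π t + c) = (im π).image (fun x => x + c) := by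
    unfold im
    rw [image_image]
    rfl
  rw [h, card_image_of_injective _ (add_left_injective c)]

open Classical in
theorem pat_shift (R k D s : ℕ) [NeZero R] (t0 : Fin k) (v : ZMod R) :
    R * (univ.filter (fun π : Fin k → ZMod R => IsPat R k D π ∧ (im π).card = s ∧ π t0 = v)).card =
      (univ.filter (fun π : Fin k → ZMod R => IsPat R k D π ∧ (im π).card = s)).card := by
  rw [card_eq_sum_card_fiberwise (s := (univ.filter (fun π : Fin k → ZMod R => IsPat R k D π ∧ (im π).card = s)))
    (f := fun π => π t0) (t := univ) (fun _ _ => mem_coe.mpr (mem_univ _))]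
  have h : ∀ w ∈ (univ : Finset (ZMod R)),
      ((univ.filter (fun π : Fin k → ZMod R => IsPat R k D π ∧ (im π).card = s)).filter
        (fun π => π t0 = w)).card =
      (univ.filter (fun π : Fin k → ZMod R => IsPat R k D π ∧ (im π).card = s ∧ π t0 = v)).card := by
    intro w _
    refine card_bij' (fun π _ => fun t => π t + (v - w)) (fun π _ => fun t => π t + (w - v)) ?_ ?_ ?_ ?_
    · intro π hπ
      simp only [mem_filter, mem_univ, true_and] at hπ ⊢
      exact ⟨isPat_add R k D π _ hπ.1.1, (im_add_card R k π _).trans hπ.1.2, by rw [hπ.2]; ring⟩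
    · intro π hπ
      simp only [mem_filter, mem_univ, true_and] at hπ ⊢
      exact ⟨⟨isPat_add R k D π _ hπ.1, (im_add_card R k π _).trans hπ.2.1⟩, by rw [hπ.2.2]; ring⟩
    · intro π _
      funext t; ring
    · intro π _
      funext t; ring
  rw [sum_congr rfl h, sum_const, card_univ, ZMod.card, smul_eq_mul]

end Vale.Agent.VdW
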