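import Vale.Agent.VdW.Defs

/-!
# P053, part X: `D + 1` points in few cells
-/

namespace Vale.Agent.VdW

open Finset

theorem exists_large_subset {α : Type*} [DecidableEq α] (I : Finset α) (f : α → ℕ) :
    ∀ d : ℕ, d ≤ I.card → ∃ A ⊆ I, A.card = I.card - d ∧
      (∑ x ∈ I, f x) * (I.card - d) ≤ I.card * ∑ x ∈ A, f x := by
  intro d
  induction d with
  | zero =>
    intro _
    exact ⟨I, Subset.refl _, by simp, by simp [mul_comm]⟩
  | succ d ih =>
    intro hd
    obtain ⟨A, hA, hAc, hAs⟩ := ih (by omega)
    have hne : A.Nonempty := by rw [← card_pos]; omega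
    obtain ⟨c, hc, hmin⟩ := exists_min_image A f hne
    refine ⟨A.erase c, (erase_subset _ _).trans hA, ?_, ?_⟩
    · rw [card_erase_of_mem hc]; omega
    · have h1 : A.card * f c ≤ ∑ x ∈ A, f x := by
        have := card_nsmul_le_sum A f (f c) (fun x hx => hmin x hx)
        simpa using this
      have h2 := add_sum_erase A f hc
      obtain ⟨j, hj⟩ : ∃ j, I.card - d = j + 1 := ⟨I.card - d - 1, by omega⟩
      have hj' : I.card - (d + 1) = j := by omega
      rw [hj']
      rw [hj] at hAs hAc
      rw [hAc] at h1
      set S := ∑ x ∈ A, f x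
      set S' := ∑ x ∈ A.erase c, f x
      set T := ∑ x ∈ I, f x
      have h3 : (j + 1) * (T * j) ≤ (j + 1) * (I.card * S') := by
        have h4 : I.card * ((j + 1) * f c) ≤ I.card * S := Nat.mul_le_mul_left _ h1
        have h5 : T * (j + 1) * j ≤ I.card * S * j := Nat.mul_le_mul_right _ hAs
        have h6 : S = f c + S' := h2.symm
        rw [h6] at h4 h5
        nlinarith
      exact Nat.le_of_mul_le_mul_left h3 (by omega)

theorem exists_small_image (R k D : ℕ) [NeZero R] (hk : D + 1 ≤ k) (π : Fin k → ZMod R) :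
    ∃ X : Fin (D + 1) → Fin k, Function.Injective X ∧
      (univ.image (π ∘ X)).card ≤ 1 + (im π).card * D / k := by
  have key : ∃ A ⊆ im π, A.card ≤ 1 + (im π).card * D / k ∧
      D + 1 ≤ (univ.filter (fun t => π t ∈ A)).card := by
    have hfib : ∀ A ⊆ im π, (univ.filter (fun t => π t ∈ A)).card =
        ∑ c ∈ A, (univ.filter (fun t => π t = c)).card := by
      intro A _
      rw [card_eq_sum_card_fiberwise (f := π) (t := A) (by intro x hx; simpa using hx)]
      refine sum_congr rfl fun c hc => ?_
      congr 1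
      ext t
      simp only [mem_filter, mem_univ, true_and]
      constructor
      · rintro ⟨_, h⟩; exact h
      · intro h; exact ⟨h ▸ hc, h⟩
    have htot : (univ.filter (fun t => π t ∈ im π)).card = k := by
      rw [filter_true_of_mem]
      · simp
      · intro x _
        exact mem_image_of_mem π (mem_univ x)
    obtain ⟨q, hq⟩ : ∃ q, q = (im π).card * D / k := ⟨_, rfl⟩
    have hqk : (im π).card * D < k * (1 + q) := by
      rw [hq]
      have := Nat.lt_mul_div_succ ((im π).card * D) (show 0 < k by omega)
      rw [add_comm 1]; exact this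
    rw [← hq]
    by_cases hm : 1 + q ≤ (im π).card
    · obtain ⟨A, hA, hAc, hAs⟩ := exists_large_subset (im π)
        (fun c => (univ.filter (fun t => π t = c)).card) ((im π).card - (1 + q)) (by omega)
      refine ⟨A, hA, by omega, ?_⟩
      rw [hfib A hA]
      rw [← hfib (im π) (Subset.refl _), htot] at hAs
      have h1 : (im π).card - ((im π).card - (1 + q)) = 1 + q := by
        omega
      rw [h1] at hAs
      have h3 : (im π).card * D < (im π).card * ∑ c ∈ A, (univ.filter (fun t => π t = c)).card :=
        lt_of_lt_of_le hqk hAs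
      have := Nat.lt_of_mul_lt_mul_left h3
      omega
    · refine ⟨im π, Subset.refl _, by omega, ?_⟩
      rw [htot]
      exact hk
  obtain ⟨A, _, hA1, hA2⟩ := key
  obtain ⟨B, hB, hBc⟩ := exists_subset_card_eq hA2
  refine ⟨B.orderEmbOfFin hBc, (B.orderEmbOfFin hBc).injective, ?_⟩
  refine le_trans (card_le_card ?_) hA1
  intro c hc
  rw [mem_image] at hc
  obtain ⟨j, _, rfl⟩ := hc
  have h1 := hB (B.orderEmbOfFin_mem hBc j)
  simpa using h1

end Vale.Agent.VdW
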