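import Vale.Agent.VdW.PartA
import Vale.Agent.VdW.PartC
import Vale.Agent.VdW.PartX
import Vale.Agent.VdW.PartS

/-!
# P053, part P: the colouring of the cells
-/

namespace Vale.Agent.VdW

open Finset

open Classical in
theorem pat_count_im (R k D s : ℕ) [NeZero R] (hk : D + 1 ≤ k) (hs : s ≤ k) :
    (univ.filter (fun π : Fin k → ZMod R => IsPat R k D π ∧ (im π).card = s)).card ≤
      R ^ (1 + s * D / k) * EE k D := by
  have hm : 1 + s * D / k ≤ D + 1 := by
    have : s * D / k ≤ D := by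
      calc s * D / k ≤ k * D / k := Nat.div_le_div_right (Nat.mul_le_mul_right D hs)
        _ = D := Nat.mul_div_cancel_left D (by omega)
    linarith
  refine le_trans (card_le_card ?_) (pat_count R k D (1 + s * D / k) hk hm)
  intro π hπ
  simp only [mem_filter, mem_univ, true_and] at hπ ⊢
  refine ⟨hπ.1, ?_⟩
  have := exists_small_image R k D hk π
  rw [hπ.2] at this
  exact this

open Classical in
theorem pat_count_through (R k D s : ℕ) [NeZero R] (hk : D + 1 ≤ k) (hs : s ≤ k) (t0 : Fin k)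
    (v : ZMod R) :
    (univ.filter (fun π : Fin k → ZMod R => IsPat R k D π ∧ (im π).card = s ∧ π t0 = v)).card ≤
      R ^ (s * D / k) * EE k D := by
  have h1 := pat_shift R k D s t0 v
  have h2 := pat_count_im R k D s hk hs
  rw [← h1, pow_add, pow_one, mul_assoc] at h2
  exact Nat.le_of_mul_le_mul_left h2 (NeZero.pos R)

open Classical in
theorem exists_Psi (r R k D s0 : ℕ) [NeZero R] (β : ℝ) (hβ : 1 ≤ β) (hk : D + 1 ≤ k)
    (hs0 : 2 ≤ s0)
    (hmain : β + k * ∑ s ∈ Icc s0 k, (EE k D : ℝ) * (R : ℝ) ^ (s * D / k) * (β ^ (s - 2))⁻¹ ≤ r) :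
    ∃ Ψ : ZMod R → Fin r, ∀ π : Fin k → ZMod R, IsPat R k D π → s0 ≤ (im π).card →
      ∃ t t' : Fin k, Ψ (π t) ≠ Ψ (π t') := by
  set P : Finset (Fin k → ZMod R) := univ.filter (fun π => IsPat R k D π ∧ s0 ≤ (im π).card) with hP
  have h2 : ∀ T ∈ P.image im, 2 ≤ T.card := by
    intro T hT
    rw [mem_image] at hT
    obtain ⟨π, hπ, rfl⟩ := hT
    rw [hP, mem_filter] at hπ
    exact hs0.trans hπ.2.2
  have hH : ∀ v : ZMod R, β + ∑ T ∈ P.image im with v ∈ T, (β ^ (T.card - 2))⁻¹ ≤ r := by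
    intro v
    refine le_trans ?_ hmain
    have hg : ∀ n : ℕ, 0 ≤ (β ^ n)⁻¹ := fun n => by positivity
    set Q : Finset (Fin k × (Fin k → ZMod R)) :=
      ((univ : Finset (Fin k)) ×ˢ P).filter (fun q => q.2 q.1 = v) with hQ
    have s1 : ∑ T ∈ P.image im with v ∈ T, (β ^ (T.card - 2))⁻¹ ≤
        ∑ T ∈ Q.image (fun q => im q.2), (β ^ (T.card - 2))⁻¹ := by
      refine sum_le_sum_of_subset_of_nonneg ?_ (fun T _ _ => hg _)
      intro T hT
      rw [mem_filter, mem_image] at hT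
      obtain ⟨⟨π, hπ, rfl⟩, hv⟩ := hT
      unfold im at hv
      rw [mem_image] at hv
      obtain ⟨t0, _, ht0⟩ := hv
      rw [mem_image]
      exact ⟨(t0, π), by rw [hQ, mem_filter, mem_product]; exact ⟨⟨mem_univ _, hπ⟩, ht0⟩, rfl⟩
    have s2 : ∑ T ∈ Q.image (fun q => im q.2), (β ^ (T.card - 2))⁻¹ ≤
        ∑ q ∈ Q, (β ^ ((im q.2).card - 2))⁻¹ :=
      sum_image_le_of_nonneg (f := fun T : Finset (ZMod R) => (β ^ (T.card - 2))⁻¹) (fun T _ => hg _)
    have s3 : ∑ q ∈ Q, (β ^ ((im q.2).card - 2))⁻¹ =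
        ∑ t0 : Fin k, ∑ π ∈ P with π t0 = v, (β ^ ((im π).card - 2))⁻¹ := by
      rw [hQ, sum_filter, sum_product]
      refine sum_congr rfl fun t0 _ => ?_
      exact (sum_filter (s := P) (fun π => π t0 = v) (fun π => (β ^ ((im π).card - 2))⁻¹)).symm
    have s4 : ∀ t0 : Fin k, ∑ π ∈ P with π t0 = v, (β ^ ((im π).card - 2))⁻¹ ≤
        ∑ s ∈ Icc s0 k, (EE k D : ℝ) * (R : ℝ) ^ (s * D / k) * (β ^ (s - 2))⁻¹ := by
      intro t0
      rw [← sum_fiberwise_of_maps_to (s := P.filter (fun π => π t0 = v)) (t := Icc s0 k)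
        (g := fun π => (im π).card)]
      · refine sum_le_sum fun s hs => ?_
        rw [mem_Icc] at hs
        have e1 : ∑ π ∈ (P.filter (fun π => π t0 = v)).filter (fun π => (im π).card = s),
            (β ^ ((im π).card - 2))⁻¹ =
            ∑ π ∈ (P.filter (fun π => π t0 = v)).filter (fun π => (im π).card = s),
              (β ^ (s - 2))⁻¹ := by
          refine sum_congr rfl fun π hπ => ?_
          rw [(mem_filter.mp hπ).2]
        rw [e1, sum_const, nsmul_eq_mul]
        have e2 : ((P.filter (fun π => π t0 = v)).filter (fun π => (im π).card = s)).card ≤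
            R ^ (s * D / k) * EE k D := by
          refine le_trans (card_le_card ?_) (pat_count_through R k D s hk hs.2 t0 v)
          intro π hπ
          simp only [hP, mem_filter, mem_univ, true_and] at hπ ⊢
          exact ⟨hπ.1.1.1, hπ.2, hπ.1.2⟩
        have e3 : (((P.filter (fun π => π t0 = v)).filter (fun π => (im π).card = s)).card : ℝ) ≤
            (EE k D : ℝ) * (R : ℝ) ^ (s * D / k) := by
          have : (((P.filter (fun π => π t0 = v)).filter (fun π => (im π).card = s)).card : ℝ) ≤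
            ((R ^ (s * D / k) * EE k D : ℕ) : ℝ) := by exact_mod_cast e2
          push_cast at this
          linarith
        exact mul_le_mul_of_nonneg_right e3 (hg _)
      · intro π hπ
        rw [hP, mem_filter, mem_filter] at hπ
        rw [mem_Icc]
        refine ⟨hπ.1.2.2, ?_⟩
        calc (im π).card ≤ (univ : Finset (Fin k)).card := card_image_le
          _ = k := by simp
    have s5 : ∑ t0 : Fin k, ∑ π ∈ P with π t0 = v, (β ^ ((im π).card - 2))⁻¹ ≤
        k * ∑ s ∈ Icc s0 k, (EE k D : ℝ) * (R : ℝ) ^ (s * D / k) * (β ^ (s - 2))⁻¹ := by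
      calc _ ≤ ∑ t0 : Fin k, ∑ s ∈ Icc s0 k, (EE k D : ℝ) * (R : ℝ) ^ (s * D / k) * (β ^ (s - 2))⁻¹ :=
            sum_le_sum fun t0 _ => s4 t0
        _ = _ := by simp
    linarith
  obtain ⟨Ψ, hΨ⟩ := coloring (V := ZMod R) (P.image im) r β hβ h2 hH
  refine ⟨Ψ, fun π hπ hs => ?_⟩
  obtain ⟨u, hu, v, hv, huv⟩ := hΨ (im π)
    (mem_image_of_mem im (by rw [hP, mem_filter]; exact ⟨mem_univ _, hπ, hs⟩))
  unfold im at hu hv
  rw [mem_image] at hu hv
  obtain ⟨t, _, rfl⟩ := hu
  obtain ⟨t', _, rfl⟩ := hv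
  exact ⟨t, t', huv⟩

end Vale.Agent.VdW
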