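import Vale.Agent.VdW.PartG
import Vale.Agent.VdW.PartV
import Vale.Agent.VdW.PartM3

/-!
# P053, part Z: final assembly
-/

namespace Vale.Agent.VdW

open Finset

/-- the sum in the colouring condition -/
theorem sum_bound (R k D s0 : ℕ) (β ε : ℝ) (hβ : 1 ≤ β) (hε0 : 0 ≤ ε) (hε1 : ε ≤ 1) (hR : 1 ≤ R)
    (hD : 1 ≤ D) (hk : 1 ≤ k) (hs0 : 2 ≤ s0) (hRβ : (R : ℝ) ≤ β ^ ((1 - ε) * (k / D))) :
    k * ∑ s ∈ Icc s0 k, (EE k D : ℝ) * (R : ℝ) ^ (s * D / k) * (β ^ (s - 2))⁻¹ ≤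
      (k : ℝ) ^ 2 * (EE k D : ℝ) * β ^ (2 - ε * s0) := by
  have hβ0 : 0 < β := by linarith
  have hkpos : (0 : ℝ) < k := by exact_mod_cast hk
  have hDpos : (0 : ℝ) < D := by exact_mod_cast hD
  have hEE : (0 : ℝ) ≤ (EE k D : ℝ) := Nat.cast_nonneg _
  have hterm : ∀ s ∈ Icc s0 k, (EE k D : ℝ) * (R : ℝ) ^ (s * D / k) * (β ^ (s - 2))⁻¹ ≤
      (EE k D : ℝ) * β ^ (2 - ε * s0) := by
    intro s hs
    rw [mem_Icc] at hs
    have h1 : (R : ℝ) ^ (s * D / k) ≤ β ^ ((1 - ε) * s) := by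
      have h2 : ((s * D / k : ℕ) : ℝ) ≤ s * D / k := by
        have := @Nat.cast_div_le ℝ _ _ _ (s * D) k
        push_cast at this
        exact this
      calc (R : ℝ) ^ (s * D / k) ≤ (β ^ ((1 - ε) * (k / D))) ^ (s * D / k) :=
            pow_le_pow_left₀ (by positivity) hRβ _
        _ = β ^ ((1 - ε) * (k / D) * ((s * D / k : ℕ) : ℝ)) := by
            rw [← Real.rpow_natCast (β ^ ((1 - ε) * (k / D))), ← Real.rpow_mul hβ0.le]
        _ ≤ β ^ ((1 - ε) * s) := by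
            apply Real.rpow_le_rpow_of_exponent_le hβ
            have h3 : (k : ℝ) / D * ((s * D / k : ℕ) : ℝ) ≤ s := by
              calc (k : ℝ) / D * ((s * D / k : ℕ) : ℝ) ≤ (k : ℝ) / D * (s * D / k) :=
                    mul_le_mul_of_nonneg_left h2 (by positivity)
                _ = s := by field_simp
            have h4 : (1 - ε) * ((k : ℝ) / D * ((s * D / k : ℕ) : ℝ)) ≤ (1 - ε) * s :=
              mul_le_mul_of_nonneg_left h3 (by linarith)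
            linarith
    have h5 : (β ^ (s - 2))⁻¹ = β ^ (2 - (s : ℝ)) := by
      rw [← Real.rpow_natCast, ← Real.rpow_neg hβ0.le, Nat.cast_sub (hs0.trans hs.1)]
      congr 1
      push_cast; ring
    have h6 : (R : ℝ) ^ (s * D / k) * (β ^ (s - 2))⁻¹ ≤ β ^ (2 - ε * s0) := by
      rw [h5]
      calc (R : ℝ) ^ (s * D / k) * β ^ (2 - (s : ℝ)) ≤ β ^ ((1 - ε) * s) * β ^ (2 - (s : ℝ)) :=
            mul_le_mul_of_nonneg_right h1 (by positivity)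
        _ = β ^ (2 - ε * s) := by
            rw [← Real.rpow_add hβ0]; congr 1; ring
        _ ≤ β ^ (2 - ε * s0) := by
            apply Real.rpow_le_rpow_of_exponent_le hβ
            have : (s0 : ℝ) ≤ s := by exact_mod_cast hs.1
            nlinarith
    calc (EE k D : ℝ) * (R : ℝ) ^ (s * D / k) * (β ^ (s - 2))⁻¹
        = (EE k D : ℝ) * ((R : ℝ) ^ (s * D / k) * (β ^ (s - 2))⁻¹) := by ring
      _ ≤ _ := mul_le_mul_of_nonneg_left h6 hEE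
  have hcard : ((Icc s0 k).card : ℝ) ≤ k := by
    have : (Icc s0 k).card ≤ k := by rw [Nat.card_Icc]; omega
    exact_mod_cast this
  have hsum : ∑ s ∈ Icc s0 k, (EE k D : ℝ) * (R : ℝ) ^ (s * D / k) * (β ^ (s - 2))⁻¹ ≤
      k * ((EE k D : ℝ) * β ^ (2 - ε * s0)) := by
    calc _ ≤ ∑ s ∈ Icc s0 k, (EE k D : ℝ) * β ^ (2 - ε * s0) := sum_le_sum hterm
      _ = (Icc s0 k).card * ((EE k D : ℝ) * β ^ (2 - ε * s0)) := by rw [sum_const, nsmul_eq_mul]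
      _ ≤ _ := mul_le_mul_of_nonneg_right hcard (by positivity)
  calc _ ≤ k * (k * ((EE k D : ℝ) * β ^ (2 - ε * s0))) := mul_le_mul_of_nonneg_left hsum hkpos.le
    _ = _ := by ring

/-- logarithm of the entropy factor -/
theorem log_EE (k D : ℕ) (hk : 2 ≤ k) (hD : 1 ≤ D)
    (hd : (D : ℝ) ≤ (k : ℝ) ^ (1 / 20 : ℝ)) (hl : Real.log k ≤ (k : ℝ) ^ (2 / 5 : ℝ)) :
    2 * Real.log k + Real.log (EE k D) ≤ 74 * (k : ℝ) ^ (1 / 2 : ℝ) := by
  have hkpos : (0 : ℝ) < k := by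
    have : 0 < k := by omega
    exact_mod_cast this
  have hk2 : (2 : ℝ) ≤ k := by exact_mod_cast hk
  have hD1 : (1 : ℝ) ≤ D := by exact_mod_cast hD
  have hlogk : 0 < Real.log k := Real.log_pos (by linarith)
  have h1 : Real.log (EE k D) = ((D : ℝ) + 1) * (2 * D + 16) * Real.log ((k : ℝ) + 1) := by
    unfold EE
    push_cast
    rw [Real.log_pow]
    push_cast
    ring
  have h2 : Real.log ((k : ℝ) + 1) ≤ 2 * Real.log k := by
    have h3 : (k : ℝ) + 1 ≤ (k : ℝ) ^ 2 := by nlinarith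
    calc Real.log ((k : ℝ) + 1) ≤ Real.log ((k : ℝ) ^ 2) := Real.log_le_log (by linarith) h3
      _ = 2 * Real.log k := by rw [Real.log_pow]; push_cast; ring
  have h4 : ((D : ℝ) + 1) * (2 * D + 16) ≤ 36 * ((D : ℝ) * D) := by nlinarith
  have h5 : (D : ℝ) * D ≤ (k : ℝ) ^ (1 / 10 : ℝ) := by
    calc (D : ℝ) * D ≤ (k : ℝ) ^ (1 / 20 : ℝ) * (k : ℝ) ^ (1 / 20 : ℝ) :=
          mul_le_mul hd hd (by linarith) (by positivity)
      _ = (k : ℝ) ^ (1 / 10 : ℝ) := by rw [← Real.rpow_add hkpos]; norm_num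
  have h6 : (1 : ℝ) ≤ (k : ℝ) ^ (1 / 10 : ℝ) := Real.one_le_rpow (by linarith) (by norm_num)
  have h7 : Real.log (EE k D) ≤ 72 * (k : ℝ) ^ (1 / 10 : ℝ) * Real.log k := by
    rw [h1]
    have h8 : ((D : ℝ) + 1) * (2 * D + 16) ≤ 36 * (k : ℝ) ^ (1 / 10 : ℝ) := by linarith
    calc ((D : ℝ) + 1) * (2 * D + 16) * Real.log ((k : ℝ) + 1)
        ≤ 36 * (k : ℝ) ^ (1 / 10 : ℝ) * (2 * Real.log k) :=
          mul_le_mul h8 h2 (Real.log_nonneg (by linarith)) (by positivity)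
      _ = _ := by ring
  have h9 : 2 * Real.log k ≤ 2 * ((k : ℝ) ^ (1 / 10 : ℝ) * Real.log k) := by
    have := le_mul_of_one_le_left hlogk.le h6
    linarith
  have h10 : (k : ℝ) ^ (1 / 10 : ℝ) * Real.log k ≤ (k : ℝ) ^ (1 / 2 : ℝ) := by
    calc (k : ℝ) ^ (1 / 10 : ℝ) * Real.log k ≤ (k : ℝ) ^ (1 / 10 : ℝ) * (k : ℝ) ^ (2 / 5 : ℝ) :=
          mul_le_mul_of_nonneg_left hl (by positivity)
      _ = (k : ℝ) ^ (1 / 2 : ℝ) := by rw [← Real.rpow_add hkpos]; norm_num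
  nlinarith

/-- choice of `D` -/
theorem exists_D (k : ℕ) (hk : 4 ≤ k) : ∃ D : ℕ, 1 ≤ D ∧ D ^ 20 ≤ k ∧ k < (D + 1) ^ 20 ∧
    (D : ℝ) ≤ (k : ℝ) ^ (1 / 20 : ℝ) ∧ D + 1 ≤ k ∧ 2 * D ≤ k := by
  have hkpos : (0 : ℝ) < k := by
    have : 0 < k := by omega
    exact_mod_cast this
  have hk1 : (1 : ℝ) ≤ k := by
    have : 1 ≤ k := by omega
    exact_mod_cast this
  set x : ℝ := (k : ℝ) ^ (1 / 20 : ℝ) with hx
  have hx1 : 1 ≤ x := Real.one_le_rpow hk1 (by norm_num)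
  have hx20 : x ^ 20 = k := by
    rw [hx, ← Real.rpow_natCast, ← Real.rpow_mul hkpos.le]; norm_num
  have h1 : 1 ≤ ⌊x⌋₊ := by
    rw [Nat.one_le_floor_iff]; exact hx1
  have h2 : (⌊x⌋₊ : ℝ) ≤ x := Nat.floor_le (by linarith)
  have h3 : ⌊x⌋₊ ^ 20 ≤ k := by
    have : ((⌊x⌋₊ ^ 20 : ℕ) : ℝ) ≤ (k : ℝ) := by
      push_cast
      rw [← hx20]
      exact pow_le_pow_left₀ (by positivity) h2 20
    exact_mod_cast this
  have h4 : k < (⌊x⌋₊ + 1) ^ 20 := by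
    have : (k : ℝ) < (((⌊x⌋₊ + 1) ^ 20 : ℕ) : ℝ) := by
      push_cast
      rw [← hx20]
      exact pow_lt_pow_left₀ (Nat.lt_floor_add_one x) (by linarith) (by norm_num)
    exact_mod_cast this
  have h5 : 2 * ⌊x⌋₊ ≤ k := by
    rcases Nat.lt_or_ge ⌊x⌋₊ 2 with h | h
    · omega
    · calc 2 * ⌊x⌋₊ ≤ ⌊x⌋₊ * ⌊x⌋₊ := Nat.mul_le_mul_right _ h
        _ = ⌊x⌋₊ ^ 2 := (pow_two _).symm
        _ ≤ ⌊x⌋₊ ^ 20 := Nat.pow_le_pow_right (by omega) (by norm_num)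
        _ ≤ k := h3
  exact ⟨⌊x⌋₊, h1, h3, h4, h2, by omega, h5⟩

/-- the numerical inequality for the colouring condition -/
theorem numeric_colour (l lb ε u T s EEl δl : ℝ) (hEE : 2 * l + EEl ≤ 74 * u)
    (hε : 0 < ε) (hlb : 0 < lb) (hu : 1 ≤ u) (hT1 : 148 / (ε * lb) ≤ T)
    (hT2 : 2 * (2 * lb + ε * lb + |δl|) / (ε * lb) ≤ T) (hs : u * T - 1 ≤ s) :
    2 * l + EEl + lb * (2 - ε * s) ≤ δl := by
  have hεlb : 0 < ε * lb := by positivity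
  rw [div_le_iff₀ hεlb] at hT1 hT2
  have h1 : u * 148 ≤ u * (T * (ε * lb)) := mul_le_mul_of_nonneg_left hT1 (by linarith)
  have h2 : 2 * (2 * lb + ε * lb + |δl|) ≤ u * (T * (ε * lb)) := by
    have h3 : 0 ≤ T * (ε * lb) := by linarith
    have h4 : T * (ε * lb) ≤ u * (T * (ε * lb)) := le_mul_of_one_le_left h3 hu
    linarith
  have h5 : (ε * lb) * (u * T - 1) ≤ (ε * lb) * s := mul_le_mul_of_nonneg_left hs hεlb.le
  have h6 := neg_abs_le δl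
  nlinarith

theorem colour_condition (r k D R : ℕ) (β ε lb u T δl : ℝ) (hβ1 : 1 ≤ β) (hlogβ : Real.log β = lb)
    (hε0 : 0 < ε) (hε1 : ε ≤ 1) (hR1 : 1 ≤ R) (hD1 : 1 ≤ D) (hk4 : 4 ≤ k)
    (hd : (D : ℝ) ≤ (k : ℝ) ^ (1 / 20 : ℝ)) (hl : Real.log k ≤ (k : ℝ) ^ (2 / 5 : ℝ))
    (hu : u = (k : ℝ) ^ (1 / 2 : ℝ))
    (hs02 : 2 ≤ k / D) (hRX : (R : ℝ) ≤ β ^ ((1 - ε) * ((k : ℝ) / D))) (hlb : 0 < lb) (hu1 : 1 ≤ u)
    (hT1 : 148 / (ε * lb) ≤ T) (hT2 : 2 * (2 * lb + ε * lb + |δl|) / (ε * lb) ≤ T)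
    (hs0r : u * T - 1 ≤ ((k / D : ℕ) : ℝ)) (hβr : β < r) (hδ : δl = Real.log (r - β)) :
    β + k * ∑ s ∈ Icc (k / D) k, (EE k D : ℝ) * (R : ℝ) ^ (s * D / k) * (β ^ (s - 2))⁻¹ ≤ r := by
  have hβpos : 0 < β := by linarith
  have hkpos : (0 : ℝ) < k := by
    have : 0 < k := by omega
    exact_mod_cast this
  have h1 := sum_bound R k D (k / D) β ε hβ1 hε0.le hε1 hR1 hD1 (by omega) hs02 hRX
  have hEEpos : (0 : ℝ) < EE k D := by
    have : 0 < EE k D := by unfold EE; positivity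
    exact_mod_cast this
  have h3 := numeric_colour (Real.log k) lb ε u T ((k / D : ℕ) : ℝ) (Real.log (EE k D)) δl
    (by rw [hu]; exact log_EE k D (by omega) hD1 hd hl) hε0 hlb hu1 hT1 hT2 hs0r
  have h4 : Real.log ((k : ℝ) ^ 2 * (EE k D : ℝ) * β ^ (2 - ε * ((k / D : ℕ) : ℝ))) =
      2 * Real.log k + Real.log (EE k D) + lb * (2 - ε * ((k / D : ℕ) : ℝ)) := by
    rw [Real.log_mul (by positivity) (by positivity), Real.log_mul (by positivity) (by positivity),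
      Real.log_pow, Real.log_rpow hβpos, hlogβ]
    push_cast
    ring
  have h2 : (k : ℝ) ^ 2 * (EE k D : ℝ) * β ^ (2 - ε * ((k / D : ℕ) : ℝ)) ≤ r - β := by
    rw [← Real.log_le_log_iff (by positivity) (by linarith), h4, ← hδ]
    exact h3
  linarith

theorem size_final (κ ε lr lb k D T u logR logX l2 : ℝ) (hκ0 : 0 < κ) (hκ1 : κ ≤ 1)
    (hε : ε = κ / 100) (hlb : lb = (1 - ε) * lr) (hlr : 0 < lr) (hk : 0 < k) (hD : 0 < D)
    (hT4 : 8 * l2 / (κ * lr) ≤ T) (hT : 0 < T) (hu1 : 1 ≤ u) (hDuT : D * (u * T) ≤ k)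
    (hDlogX : D * logX = (1 - ε) * lb * k) (hlogR : logX - l2 ≤ logR) :
    (1 + κ / 2) * k * lr ≤ (1 + κ) * D * logR := by
  have hDT : D * l2 ≤ κ * lr * k / 8 := by
    rw [div_le_iff₀ (by positivity)] at hT4
    have h1 : D * T ≤ k := by
      calc D * T ≤ D * (u * T) :=
            mul_le_mul_of_nonneg_left (le_mul_of_one_le_left hT.le hu1) hD.le
        _ ≤ k := hDuT
    have h2 : D * (8 * l2) ≤ D * (T * (κ * lr)) := mul_le_mul_of_nonneg_left hT4 hD.le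
    have h3 : D * (T * (κ * lr)) ≤ k * (κ * lr) := by
      rw [← mul_assoc]
      exact mul_le_mul_of_nonneg_right h1 (by positivity)
    linarith
  have h1 : D * logR ≥ (1 - ε) * lb * k - D * l2 := by
    have := mul_le_mul_of_nonneg_left hlogR hD.le
    rw [mul_sub, hDlogX] at this
    exact this
  have h2 : (1 + κ) * D * logR ≥ (1 + κ) * ((1 - ε) * lb * k - κ * lr * k / 8) := by
    rw [mul_assoc]
    exact mul_le_mul_of_nonneg_left (by linarith) (by linarith)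
  refine le_trans ?_ h2
  rw [hlb]
  have h3 : (1 + κ / 2) ≤ (1 + κ) * ((1 - ε) * (1 - ε) - κ / 8) := by
    rw [hε]
    nlinarith [mul_nonneg hκ0.le (sub_nonneg.2 hκ1), mul_pos hκ0 hκ0, pow_pos hκ0 3]
  have h4 : (1 + κ / 2) * (k * lr) ≤ (1 + κ) * ((1 - ε) * (1 - ε) - κ / 8) * (k * lr) :=
    mul_le_mul_of_nonneg_right h3 (by positivity)
  calc (1 + κ / 2) * k * lr = (1 + κ / 2) * (k * lr) := by ring
    _ ≤ _ := h4
    _ = _ := by ring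

/-- the reduction in terms of `R` -/
theorem final_step (r k D R : ℕ) (κ β : ℝ) (hr : 2 ≤ r) (hk4 : 4 ≤ k)
    (hD1 : 1 ≤ D) (hD1k : D + 1 ≤ k) (hD2k : 2 * D ≤ k) (hR1 : 1 ≤ R) (hβ1 : 1 ≤ β)
    (hmain : β + k * ∑ s ∈ Icc (k / D) k, (EE k D : ℝ) * (R : ℝ) ^ (s * D / k) * (β ^ (s - 2))⁻¹ ≤ r)
    (M : ℕ → ℕ) (m1 : ∀ i ∈ Icc 1 D, Squarefree (M i))
    (m2 : ∀ i ∈ Icc 1 D, ∀ p : ℕ, p.Prime → p ∣ M i → k ≤ p)
    (m3 : ∀ i ∈ Icc 1 D, ∑ p ∈ (M i).primeFactors, (1 : ℝ) / p ≤ 1 / 4)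
    (m4 : ∀ i ∈ Icc 1 D, ∀ j ∈ Icc 1 D, i ≠ j → (M i).Coprime (M j))
    (m5 : ∀ i (_ : i ∈ Icc 1 D) [NeZero (M i)],
        4 * k ^ (D * D) * pc (M i) i * ((D + 1) * k ^ (D * D)) ≤ R)
    (m6 : (1 + κ) * D * Real.log R ≤ Real.log ((∏ i ∈ Icc 1 D, M i : ℕ) : ℝ))
    (hsize : (1 + κ / 2) * k * Real.log r ≤ (1 + κ) * D * Real.log R) :
    (r : ℝ) ^ ((1 + κ / 2) * k) < W r k := by
  have hrpos : (0 : ℝ) < r := by
    have : 0 < r := by omega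
    exact_mod_cast this
  have hs0k : k / D * D ≤ k := Nat.div_mul_le_self k D
  have hs0' : k < (k / D + 1) * D := by
    have := Nat.lt_mul_div_succ k (show 0 < D by omega)
    rw [mul_comm] at this; exact this
  have hs02 : 2 ≤ k / D := by
    rw [Nat.le_div_iff_mul_le (by omega)]; exact hD2k
  have hM0 : ∀ i ∈ Icc 1 D, NeZero (M i) := fun i hi => ⟨(m1 i hi).ne_zero⟩
  have hVW : ¬ VW r k (∏ i ∈ Icc 1 D, M i) :=
    reduction r R k D (k / D) β hR1 hβ1 hD1 hD1k hs02 hs0k hs0' hmain M hM0 m1 m2 m3 m4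
      (fun i hi => haveI := hM0 i hi; m5 i hi)
  have hN := lt_W r k (∏ i ∈ Icc 1 D, M i) (by omega) (by omega) hVW
  have hNpos : (0 : ℝ) < ((∏ i ∈ Icc 1 D, M i : ℕ) : ℝ) := by
    have : 0 < ∏ i ∈ Icc 1 D, M i := Finset.prod_pos fun i hi => Nat.pos_of_ne_zero (m1 i hi).ne_zero
    exact_mod_cast this
  have hle : (r : ℝ) ^ ((1 + κ / 2) * k) ≤ ((∏ i ∈ Icc 1 D, M i : ℕ) : ℝ) := by
    rw [← Real.log_le_log_iff (by positivity) hNpos, Real.log_rpow hrpos]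
    exact hsize.trans m6
  refine lt_of_le_of_lt hle ?_
  exact_mod_cast hN

theorem main_core (r k D : ℕ) (hr : 2 ≤ r) (κ : ℝ) (hκ0 : 0 < κ) (hκ1 : κ ≤ 1) (hk4 : 4 ≤ k)
    (hD1 : 1 ≤ D)
    (hd : (D : ℝ) ≤ (k : ℝ) ^ (1 / 20 : ℝ)) (hD1k : D + 1 ≤ k) (hD2k : 2 * D ≤ k)
    (hl : Real.log k ≤ (k : ℝ) ^ (2 / 5 : ℝ))
    (hmod : ∀ R : ℕ, (D : ℝ) * Real.log R ≤ (r : ℕ) * k → (k : ℝ) ^ (1 / 2 : ℝ) ≤ Real.log R →
      ∃ M : ℕ → ℕ, (∀ i ∈ Icc 1 D, Squarefree (M i)) ∧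
      (∀ i ∈ Icc 1 D, ∀ p : ℕ, p.Prime → p ∣ M i → k ≤ p) ∧
      (∀ i ∈ Icc 1 D, ∑ p ∈ (M i).primeFactors, (1 : ℝ) / p ≤ 1 / 4) ∧
      (∀ i ∈ Icc 1 D, ∀ j ∈ Icc 1 D, i ≠ j → (M i).Coprime (M j)) ∧
      (∀ i (_ : i ∈ Icc 1 D) [NeZero (M i)],
        4 * k ^ (D * D) * pc (M i) i * ((D + 1) * k ^ (D * D)) ≤ R) ∧
      (1 + κ) * D * Real.log R ≤ Real.log ((∏ i ∈ Icc 1 D, M i : ℕ) : ℝ))
    (ε lb T δl : ℝ) (hε : ε = κ / 100) (hlb : lb = (1 - ε) * Real.log r)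
    (hT : T = (k : ℝ) ^ (9 / 20 : ℝ)) (hδ : δl = Real.log ((r : ℝ) - (r : ℝ) ^ (1 - ε)))
    (hT1 : 148 / (ε * lb) ≤ T)
    (hT2 : 2 * (2 * lb + ε * lb + |δl|) / (ε * lb) ≤ T)
    (hT3 : 2 / ((1 - ε) * lb) ≤ T) (hT4 : 8 * Real.log 2 / (κ * Real.log r) ≤ T) :
    (r : ℝ) ^ ((1 + κ / 2) * k) < W r k := by
  have hkpos : (0 : ℝ) < k := by
    have : 0 < k := by omega
    exact_mod_cast this
  have hk1 : (1 : ℝ) ≤ k := by
    have : 1 ≤ k := by omega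
    exact_mod_cast this
  have hDpos : (0 : ℝ) < D := by exact_mod_cast hD1
  have hr2 : (2 : ℝ) ≤ r := by exact_mod_cast hr
  have hrpos : (0 : ℝ) < r := by linarith
  have hlr : 0 < Real.log r := Real.log_pos (by linarith)
  have hlog2 : 0 < Real.log 2 := Real.log_pos (by norm_num)
  have hlog2' : Real.log 2 < 1 := by
    have := Real.log_two_lt_d9; linarith
  have hε0 : 0 < ε := by rw [hε]; positivity
  have hε1 : ε ≤ 1 / 100 := by rw [hε]; linarith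
  have hlbpos : 0 < lb := by rw [hlb]; exact mul_pos (by linarith) hlr
  set u : ℝ := (k : ℝ) ^ (1 / 2 : ℝ) with hu
  have hu1 : 1 ≤ u := Real.one_le_rpow hk1 (by norm_num)
  have hTpos : 0 < T := by rw [hT]; positivity
  have hDuT : (D : ℝ) * (u * T) ≤ k := by
    calc (D : ℝ) * (u * T) ≤ (k : ℝ) ^ (1 / 20 : ℝ) * (u * T) :=
          mul_le_mul_of_nonneg_right hd (by positivity)
      _ = k := by
          rw [hu, hT, ← Real.rpow_add hkpos, ← Real.rpow_add hkpos]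
          norm_num
  have huT : u * T ≤ (k : ℝ) / D := by
    rw [le_div_iff₀ hDpos]; linarith
  -- `β`
  set β : ℝ := (r : ℝ) ^ (1 - ε) with hβ
  have hβpos : 0 < β := by rw [hβ]; positivity
  have hβ1 : 1 ≤ β := Real.one_le_rpow (by linarith) (by linarith)
  have hlogβ : Real.log β = lb := by rw [hβ, Real.log_rpow hrpos, hlb]
  have hβr : β < r := by
    calc β < (r : ℝ) ^ (1 : ℝ) := Real.rpow_lt_rpow_of_exponent_lt (by linarith) (by linarith)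
      _ = r := Real.rpow_one _
  -- `R`
  set X : ℝ := β ^ ((1 - ε) * ((k : ℝ) / D)) with hX
  have hXpos : 0 < X := by rw [hX]; positivity
  have hlogX : Real.log X = (1 - ε) * lb * ((k : ℝ) / D) := by
    rw [hX, Real.log_rpow hβpos, hlogβ]; ring
  have hεlb : 0 < (1 - ε) * lb := mul_pos (by linarith) hlbpos
  have h2u : 2 * u ≤ Real.log X := by
    rw [hlogX]
    rw [div_le_iff₀ hεlb] at hT3
    calc 2 * u ≤ (T * ((1 - ε) * lb)) * u := mul_le_mul_of_nonneg_right hT3 (by linarith)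
      _ = (1 - ε) * lb * (u * T) := by ring
      _ ≤ (1 - ε) * lb * ((k : ℝ) / D) := mul_le_mul_of_nonneg_left huT hεlb.le
  have hX2 : 2 ≤ X := by
    rw [← Real.log_le_log_iff (by norm_num) hXpos]; linarith
  set R : ℕ := ⌊X⌋₊ with hR
  have hRX : (R : ℝ) ≤ X := Nat.floor_le hXpos.le
  have hXR : X / 2 ≤ (R : ℝ) := by
    have := Nat.lt_floor_add_one X
    rw [← hR] at this
    linarith
  have hR1 : 1 ≤ R := by
    have : (0 : ℝ) < R := by linarith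
    exact_mod_cast this
  have hRpos : (0 : ℝ) < R := by exact_mod_cast hR1
  have hlogR : Real.log X - Real.log 2 ≤ Real.log R := by
    rw [← Real.log_div hXpos.ne' (by norm_num)]
    exact Real.log_le_log (by positivity) hXR
  have hlogR' : Real.log R ≤ Real.log X := Real.log_le_log hRpos hRX
  -- `s0`
  have hs0k : k / D * D ≤ k := Nat.div_mul_le_self k D
  have hs0' : k < (k / D + 1) * D := by
    have := Nat.lt_mul_div_succ k (show 0 < D by omega)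
    rw [mul_comm] at this; exact this
  have hs02 : 2 ≤ k / D := by
    rw [Nat.le_div_iff_mul_le (by omega)]; exact hD2k
  have hs0r : u * T - 1 ≤ ((k / D : ℕ) : ℝ) := by
    have h1 : (k : ℝ) < (((k / D : ℕ) : ℝ) + 1) * D := by exact_mod_cast hs0'
    have h2 : (k : ℝ) / D < ((k / D : ℕ) : ℝ) + 1 := by rwa [div_lt_iff₀ hDpos]
    linarith
  have hmain := colour_condition r k D R β ε lb u T δl hβ1 hlogβ hε0 (by linarith) hR1 hD1 hk4 hd hl hu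
    hs02 hRX hlbpos hu1 hT1 hT2 hs0r hβr hδ
  have hDlogX : (D : ℝ) * Real.log X = (1 - ε) * lb * k := by
    rw [hlogX]; field_simp
  have hA : (D : ℝ) * Real.log R ≤ (r : ℕ) * k := by
    have h1 : (D : ℝ) * Real.log R ≤ D * Real.log X := mul_le_mul_of_nonneg_left hlogR' hDpos.le
    have h2 : Real.log r ≤ r := (Real.log_le_sub_one_of_pos hrpos).trans (by linarith)
    have h3 : (1 - ε) * lb ≤ r := by
      calc (1 - ε) * lb ≤ 1 * lb := mul_le_mul_of_nonneg_right (by linarith) hlbpos.le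
        _ = (1 - ε) * Real.log r := by rw [one_mul, hlb]
        _ ≤ 1 * Real.log r := mul_le_mul_of_nonneg_right (by linarith) hlr.le
        _ ≤ r := by linarith
    rw [hDlogX] at h1
    exact h1.trans (mul_le_mul_of_nonneg_right h3 hkpos.le)
  have hB : (k : ℝ) ^ (1 / 2 : ℝ) ≤ Real.log R := by
    rw [← hu]; linarith
  obtain ⟨M, m1, m2, m3, m4, m5, m6⟩ := hmod R hA hB
  exact final_step r k D R κ β hr hk4 hD1 hD1k hD2k hR1 hβ1 hmain M m1 m2 m3 m4 m5 m6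
    (size_final κ ε (Real.log r) lb k D T u (Real.log R) (Real.log X) (Real.log 2) hκ0 hκ1 hε hlb hlr
      hkpos hDpos hT4 hTpos hu1 hDuT hDlogX hlogR)

theorem log_le_eventually' : ∃ k0 : ℕ, ∀ k : ℕ, k0 ≤ k → Real.log k ≤ (k : ℝ) ^ (2 / 5 : ℝ) := by
  have hev : ∀ᶠ x : ℝ in Filter.atTop, ‖Real.log x‖ ≤ 1 * ‖x ^ (2 / 5 : ℝ)‖ :=
    (isLittleO_log_rpow_atTop (show (0 : ℝ) < 2 / 5 by norm_num)).bound one_pos
  obtain ⟨X, hX⟩ := Filter.eventually_atTop.mp hev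
  refine ⟨⌈X⌉₊, fun k hk => ?_⟩
  have h1 := hX k (le_trans (Nat.le_ceil X) (by exact_mod_cast hk))
  have h2 : 0 ≤ (k : ℝ) ^ (2 / 5 : ℝ) := Real.rpow_nonneg (Nat.cast_nonneg k) _
  rw [Real.norm_of_nonneg h2, one_mul] at h1
  exact (le_abs_self _).trans h1

theorem rpow_ge_eventually (T0 : ℝ) : ∃ k0 : ℕ, ∀ k : ℕ, k0 ≤ k → T0 ≤ (k : ℝ) ^ (9 / 20 : ℝ) := by
  have hev := (tendsto_rpow_atTop (show (0 : ℝ) < 9 / 20 by norm_num)).eventually_ge_atTop T0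
  obtain ⟨X, hX⟩ := Filter.eventually_atTop.mp hev
  exact ⟨⌈X⌉₊, fun k hk => hX k (le_trans (Nat.le_ceil X) (by exact_mod_cast hk))⟩

/-- **Main theorem**: there is an absolute `c > 0` such that for every `r ≥ 2`,
`W_r(k) > r^{(1+c)k}` for all large `k`. -/
theorem main_uniform : ∃ c : ℝ, 0 < c ∧ ∀ r : ℕ, 2 ≤ r → ∃ k0 : ℕ, ∀ k : ℕ, k0 ≤ k →
    (r : ℝ) ^ ((1 + c) * k) < W r k := by
  obtain ⟨κ, hκ0, hκ1, hmod⟩ := moduli
  refine ⟨κ / 2, by positivity, fun r hr => ?_⟩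
  obtain ⟨k1, hk1⟩ := hmod r
  obtain ⟨k2, hk2⟩ := log_le_eventually'
  obtain ⟨ε, hε⟩ : ∃ ε : ℝ, ε = κ / 100 := ⟨_, rfl⟩
  obtain ⟨lb, hlb⟩ : ∃ lb : ℝ, lb = (1 - ε) * Real.log r := ⟨_, rfl⟩
  obtain ⟨δl, hδl⟩ : ∃ δl : ℝ, δl = Real.log ((r : ℝ) - (r : ℝ) ^ (1 - ε)) := ⟨_, rfl⟩
  obtain ⟨t1, h1⟩ := rpow_ge_eventually (148 / (ε * lb))
  obtain ⟨t2, h2⟩ := rpow_ge_eventually (2 * (2 * lb + ε * lb + |δl|) / (ε * lb))
  obtain ⟨t3, h3⟩ := rpow_ge_eventually (2 / ((1 - ε) * lb))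
  obtain ⟨t4, h4⟩ := rpow_ge_eventually (8 * Real.log 2 / (κ * Real.log r))
  refine ⟨4 + k1 + k2 + t1 + t2 + t3 + t4, fun k hk => ?_⟩
  obtain ⟨D, hD1, hDk, hkD, hd, hD1k, hD2k⟩ := exists_D k (by omega)
  exact main_core r k D hr κ hκ0 hκ1 (by omega) hD1 hd hD1k hD2k (hk2 k (by omega))
    (fun R hA hB => hk1 k D R (by omega) hDk hkD hA hB) ε lb _ δl hε hlb rfl hδl
    (h1 k (by omega)) (h2 k (by omega)) (h3 k (by omega)) (h4 k (by omega))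

/-- weaker form of the stub -/
theorem main (r : ℕ) (hr : 2 ≤ r) : ∃ c : ℝ, 0 < c ∧ ∃ k0 : ℕ, ∀ k : ℕ, k0 ≤ k →
    (r : ℝ) ^ ((1 + c) * k) < W r k := by
  obtain ⟨c, hc, h⟩ := main_uniform
  exact ⟨c, hc, h r hr⟩

end Vale.Agent.VdW
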